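import Vale.Agent.P046.Graph
import Vale.Agent.P046.Second

/-!
P046, towards `F_n / n^(3/2) → 1/(2√2)`: shared definitions (notes/P046/FULL_helper5.md).

Vertices are `Fin n`, a state is a set of pairs. Part I uses the vertex-level quantities and the
link matrices, parts III the tree recursion `surv`, the slot-time process `alive` and the closed
non-backtracking walks `closed` of an abstract linear 3-uniform hypergraph.
-/

namespace P046

open Finset

namespace LH

variable {α : Type} [DecidableEq α] (L : LH α)

/-- Closed non-backtracking walks of length `l`: at step `i` the node `(w i).1` and the edge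
`(w i).2` leading to the node of step `i + 1`. -/
def closed (W : Finset α) (l : ℕ) : Finset (Fin l → α × Finset α) :=
  (Fintype.piFinset fun _ : Fin l => W ×ˢ L.tris W).filter fun w =>
    ∀ i j : Fin l, (j : ℕ) = ((i : ℕ) + 1) % l →
      (w i).1 ∈ (w i).2 ∧ (w j).1 ∈ (w i).2 ∧ (w i).1 ≠ (w j).1 ∧ (w i).2 ≠ (w j).2

/-- The survival probability up to slot `j` on the cover tree, the edge `s` excluded, with `M`
slots: `surv (j) = ∏_{r ∋ a, r ≠ s} (1 - 1/M ∑_{i<j} ∏_{b ∈ r, b ≠ a} surv_b^r (i))`. -/
noncomputable def surv (W : Finset α) (M : ℕ) : ℕ → Finset α → α → ℝ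
  | j, s, a => ∏ r ∈ (L.star W a).erase s,
      (1 - (∑ i : Fin j, ∏ b ∈ r.erase a, surv W M i.1 r b) / M)
termination_by j => j
decreasing_by exact i.2

/-- Is `a` uncovered before slot `j` when the edge `t` has slot `τ t`? -/
def alive (W : Finset α) (τ : Finset α → ℕ) : ℕ → α → Prop
  | j, a => ∀ r ∈ L.star W a, (hr : τ r < j) → ¬ ∀ b ∈ r.erase a, alive W τ (τ r) b
termination_by j => j

/-- The mean of `f` when every edge of `W` has an independent uniform slot in `M`. -/
noncomputable def slotE (W : Finset α) (M : ℕ) (f : (Finset α → ℕ) → ℝ) : ℝ :=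
  (∑ τ : L.tris W → Fin M,
    f fun t => if h : t ∈ L.tris W then (τ ⟨t, h⟩ : ℕ) else 0) / (M : ℝ) ^ (L.tris W).card

/-- The probability of an event in the slot model. -/
noncomputable def slotP (W : Finset α) (M : ℕ) (P : (Finset α → ℕ) → Prop) : ℝ :=
  L.slotE W M fun τ => by classical exact if P τ then 1 else 0

/-- The uncovered nodes at slot `M`. -/
noncomputable def leftover (W : Finset α) (M : ℕ) (τ : Finset α → ℕ) : Finset α := by
  classical exact W.filter fun a => L.alive W τ M a

end LH

namespace Full

variable {n : ℕ}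

/-- All pairs of vertices. -/
def allPairs (n : ℕ) : Finset (Finset (Fin n)) := Finset.univ.powersetCard 2

variable (W : Finset (Finset (Fin n)))

/-- The adjacency matrix. -/
def adj : Matrix (Fin n) (Fin n) ℝ := fun x y => if x ≠ y ∧ {x, y} ∈ W then 1 else 0

/-- The vertex degree. -/
def dg (x : Fin n) : ℝ := ∑ y, adj W x y

/-- The number of common neighbours. -/
def cd (x y : Fin n) : ℝ := ∑ z, adj W x z * adj W y z

/-- The density. -/
noncomputable def dens : ℝ := (W.card : ℝ) / ((n : ℝ) * (n - 1) / 2)

/-- The expected codegree. -/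
noncomputable def uexp : ℝ := ((n : ℝ) - 2) * dens W ^ 2

/-- The relative deviation of the codegree of the edge `xy`; zero off the graph. -/
noncomputable def dev (x y : Fin n) : ℝ := adj W x y * (cd W x y / uexp W - 1)

/-- The relative deviation of the degree. -/
noncomputable def adev (x : Fin n) : ℝ := dg W x / (((n : ℝ) - 1) * dens W) - 1

/-- The mean deviation of the codegrees at `x`. -/
noncomputable def vdev (x : Fin n) : ℝ := (∑ y, dev W x y) / dg W x

/-- The relative deviation of the number of triangles. -/
noncomputable def mdev : ℝ := 3 * (((kn n).tris W).card : ℝ) / ((W.card : ℝ) * uexp W) - 1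

/-- The centred link matrix of `x`. -/
noncomputable def link (x : Fin n) : Matrix (Fin n) (Fin n) ℝ :=
  fun y z => adj W x y * adj W x z * (adj W y z - dens W)

/-- The regular states: `η` bounds the deviations, `ρ * u` the norms of the links. -/
structure Regular (η ρ : ℝ) (m : ℕ) : Prop where
  dev_le : ∀ x y, |dev W x y| ≤ η
  adev_le : ∀ x, |adev W x| ≤ η
  vdev_le : ∀ x, |vdev W x| ≤ η
  mdev_le : |mdev W| ≤ η
  link_le : ∀ x, Matrix.trace (link W x ^ (2 * m)) ≤ (ρ * uexp W) ^ (2 * m)

/-- The first number of edges at which the first stage stops: `u` is about `n ^ θ` there. -/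
noncomputable def level (n : ℕ) (θ : ℝ) : ℝ :=
  ((n : ℝ) * (n - 1) / 2) * Real.sqrt ((n : ℝ) ^ θ / ((n : ℝ) - 2))

end Full

end P046
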