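import Vale.Agent.P046.Full.Ident

/-!
P046, part I: the change of the deviations in one step, summed over the triangles.
-/

namespace P046.Full

open Finset

variable {n : ℕ}

/-- What the step lemmas use of a regular state. -/
structure Nice (W : Finset (Finset (Fin n))) (η : ℝ) : Prop where
  sub : W ⊆ allPairs n
  hn : 20 ≤ n
  hu : 20 ≤ uexp W
  hη : η ≤ 1 / 20
  hinv : 1 / ((n : ℝ) - 2) ≤ η / 2
  dev_le : ∀ x y, |dev W x y| ≤ η
  adev_le : ∀ x, |adev W x| ≤ η
  vdev_le : ∀ x, |vdev W x| ≤ η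
  mdev_le : |mdev W| ≤ η

/-- The ratio of the old to the new number of nodes. -/
noncomputable def fac (W : Finset (Finset (Fin n))) : ℝ := (W.card : ℝ) / ((W.card : ℝ) - 3)

/-- The sum of the deviations over the triangles at `xy`. -/
noncomputable def sdev (W : Finset (Finset (Fin n))) (x y : Fin n) : ℝ :=
  ∑ z, adj W x z * adj W y z * (dev W x z + dev W y z)

/-- The link applied to the deviations. -/
noncomputable def rlink (W : Finset (Finset (Fin n))) (x y : Fin n) : ℝ :=
  ∑ z, link W x y z * dev W x z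

/-- Twice the number of triangles at `x`. -/
noncomputable def vsum (W : Finset (Finset (Fin n))) (x : Fin n) : ℝ :=
  ∑ y, adj W x y * cd W x y

/-- The change of the deviation of a surviving node. -/
noncomputable def dstep (W : Finset (Finset (Fin n))) (x y : Fin n) (t : Finset (Finset (Fin n))) :
    ℝ :=
  (1 - rm t x y) * (dev (W \ t) x y - dev W x y)

/-- The change of the mean deviation at a vertex. -/
noncomputable def vstep (W : Finset (Finset (Fin n))) (x : Fin n) (t : Finset (Finset (Fin n))) :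
    ℝ :=
  vdev (W \ t) x - vdev W x

/-- The main term of the change of the deviation of a node. -/
noncomputable def dmain (W : Finset (Finset (Fin n))) (x y : Fin n) : ℝ :=
  2 * mdev W * cd W x y - sdev W x y

/-- The main term of the change of the mean deviation at a vertex. -/
noncomputable def vmain (W : Finset (Finset (Fin n))) (x : Fin n) : ℝ :=
  uexp W * (2 * mdev W * (1 + vdev W x) + vdev W x ^ 2 - (∑ y, dev W x y ^ 2) / dg W x)
    - (∑ y, adj W x y * sdev W x y) / dg W x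

/-- The main term of the change of the deviation of the degree. -/
noncomputable def amain (W : Finset (Finset (Fin n))) (x : Fin n) : ℝ :=
  uexp W * (1 + adev W x) * (mdev W - vdev W x)

/-- The main term of the change of the deviation of the number of triangles. -/
noncomputable def mmain (W : Finset (Finset (Fin n))) : ℝ :=
  3 * uexp W * (mdev W ^ 2 - (∑ x, ∑ y, dev W x y ^ 2) / (2 * W.card))

/-- Twice the indicator of the triangles at `x`. -/
def vI (x : Fin n) (t : Finset (Finset (Fin n))) : ℝ := if x ∈ verts t then 2 else 0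

/-- The change of the numerator of the mean deviation. -/
noncomputable def vN (W : Finset (Finset (Fin n))) (x : Fin n) (t : Finset (Finset (Fin n))) : ℝ :=
  vI x t * (vsum W x / dg W x) - (vsum W x - vsum (W \ t) x)

/-- The potential. -/
noncomputable def pot (W : Finset (Finset (Fin n))) (K : ℕ) (w : ℝ) : ℝ :=
  ∑ x, ∑ y, dev W x y ^ K + ∑ x, adev W x ^ K + w * ∑ x, dg W x * vdev W x ^ K
    + w ^ 2 * ((W.card : ℝ) * mdev W ^ K)

theorem mul_abs_le {a b A B : ℝ} (ha : |a| ≤ A) (hb : |b| ≤ B) : |a * b| ≤ A * B := by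
  rw [abs_mul]; exact mul_le_mul ha hb (abs_nonneg b) ((abs_nonneg a).trans ha)

namespace Nice

variable {W : Finset (Finset (Fin n))} {η : ℝ} (h : Nice W η)
include h

theorem eta_nonneg : 0 ≤ η := (abs_nonneg _).trans h.mdev_le

theorem n_ge : (20 : ℝ) ≤ n := by exact_mod_cast h.hn

theorem card_le : (W.card : ℝ) ≤ (n : ℝ) * (n - 1) / 2 := by
  have h1 : W.card ≤ (allPairs n).card := Finset.card_le_card h.sub
  rw [allPairs, Finset.card_powersetCard, Finset.card_univ, Fintype.card_fin] at h1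
  have h2 : ((n.choose 2 : ℕ) : ℝ) = (n : ℝ) * (n - 1) / 2 := by rw [Nat.cast_choose_two]
  rw [← h2]; exact_mod_cast h1

theorem dens_le : dens W ≤ 1 := by
  have := h.n_ge
  rw [dens, div_le_one (by nlinarith)]; exact h.card_le

theorem dens_pos : 0 < dens W := by
  rcases lt_or_eq_of_le (dens_nonneg (W := W) (by have := h.hn; omega)) with h1 | h1
  · exact h1
  · exfalso
    have := h.hu
    rw [uexp, ← h1] at this
    norm_num at this

theorem u_pos : 0 < uexp W := by linarith [h.hu]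

theorem u_le_np : uexp W ≤ ((n : ℝ) - 1) * dens W := by
  have := h.n_ge
  rw [uexp, sq, ← mul_assoc]
  calc ((n : ℝ) - 2) * dens W * dens W ≤ ((n : ℝ) - 2) * dens W * 1 :=
        mul_le_mul_of_nonneg_left h.dens_le (mul_nonneg (by linarith) h.dens_pos.le)
    _ ≤ _ := by nlinarith [h.dens_pos]

theorem card_eq : (W.card : ℝ) = dens W * ((n : ℝ) * (n - 1) / 2) := by
  have := h.n_ge
  rw [dens, div_mul_cancel₀]
  nlinarith

theorem n_le_card : (n : ℝ) ≤ W.card := by
  have h0 := h.n_ge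
  have h1 := h.u_le_np
  have h2 := h.hu
  rw [h.card_eq]
  nlinarith

theorem u_le_n : uexp W ≤ n := by
  have := h.n_ge
  have := h.u_le_np
  nlinarith [h.dens_le, h.dens_pos]

theorem u_le_card : uexp W ≤ W.card := h.u_le_n.trans h.n_le_card

theorem card_ge : (20 : ℝ) ≤ W.card := h.n_ge.trans h.n_le_card

theorem abs_mdev : |mdev W| ≤ 1 / 20 := h.mdev_le.trans h.hη

theorem abs_vdev (x : Fin n) : |vdev W x| ≤ 1 / 20 := (h.vdev_le x).trans h.hη

theorem tris_eq : (((kn n).tris W).card : ℝ) = (W.card : ℝ) * uexp W * (1 + mdev W) / 3 :=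
  Regular.tris_card h.u_pos (by linarith [h.card_ge])

theorem tris_bounds : 0 < (((kn n).tris W).card : ℝ)
    ∧ (((kn n).tris W).card : ℝ) ≤ (W.card : ℝ) * uexp W := by
  rw [h.tris_eq]
  have h1 := abs_le.1 h.abs_mdev
  have h2 := h.card_ge
  have h3 := h.u_pos
  constructor
  · have : (0 : ℝ) < 1 + mdev W := by linarith
    positivity
  · nlinarith [mul_pos (show (0:ℝ) < W.card by linarith) h3]

theorem fac_bounds : 1 ≤ fac W ∧ fac W ^ 2 - 1 ≤ 8 / W.card ∧ fac W - 1 ≤ 4 / W.card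
    ∧ fac W ^ 3 - 1 ≤ 14 / W.card
    ∧ |fac W ^ 2 - 1 - 6 / W.card| ≤ 80 / (W.card : ℝ) ^ 2
    ∧ |fac W - 1 - 3 / W.card| ≤ 20 / (W.card : ℝ) ^ 2
    ∧ |fac W ^ 3 - 1 - 9 / W.card| ≤ 200 / (W.card : ℝ) ^ 2 := by
  have hE := h.card_ge
  have hE0 : (0 : ℝ) < W.card := by linarith
  have hE3 : (0 : ℝ) < (W.card : ℝ) - 3 := by linarith
  obtain ⟨e, he⟩ : ∃ e, e = 3 / ((W.card : ℝ) - 3) := ⟨_, rfl⟩
  have hf : fac W = 1 + e := by rw [fac, he]; field_simp; ring
  have he0 : 0 ≤ e := by rw [he]; positivity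
  obtain ⟨y, hy⟩ : ∃ y, y = 1 / (W.card : ℝ) := ⟨_, rfl⟩
  have hy0 : 0 ≤ y := by rw [hy]; positivity
  have hy20 : y ≤ 1 / 20 := by rw [hy]; gcongr
  have key : e = 3 * y + 3 * y * e := by rw [he, hy]; field_simp; ring
  have he4 : e ≤ 18 / 5 * y := by nlinarith [mul_le_mul_of_nonneg_right hy20 he0]
  have heq : e - 3 * y ≤ 11 * y ^ 2 := by
    nlinarith [mul_le_mul_of_nonneg_left he4 hy0]
  have he2 : e ^ 2 ≤ 13 * y ^ 2 := by nlinarith [pow_le_pow_left₀ he0 he4 2]
  have he3 : e ^ 3 ≤ 3 * y ^ 2 := by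
    nlinarith [pow_le_pow_left₀ he0 he4 3, mul_le_mul_of_nonneg_left hy20 (sq_nonneg y)]
  have hy2 : y ^ 2 ≤ y / 20 := by nlinarith
  have he3' : 0 ≤ e ^ 3 := by positivity
  have hey : 3 * y ≤ e := by nlinarith [mul_nonneg hy0 he0]
  have c1 : ∀ c : ℝ, c / (W.card : ℝ) = c * y := fun c => by rw [hy]; ring
  have c2 : ∀ c : ℝ, c / (W.card : ℝ) ^ 2 = c * y ^ 2 := fun c => by rw [hy]; ring
  rw [hf]
  simp only [c1, c2, abs_le]
  refine ⟨by linarith, by nlinarith, by linarith, by nlinarith, ⟨?_, ?_⟩, ⟨?_, ?_⟩, ⟨?_, ?_⟩⟩ <;>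
    nlinarith [sq_nonneg e, sq_nonneg y]

theorem dens_sdiff {t : Finset (Finset (Fin n))} (ht : t ∈ (kn n).tris W) :
    dens (W \ t) = dens W / fac W := by
  have hc : ((W \ t).card : ℝ) = (W.card : ℝ) - 3 := by
    rw [← LH.card_sdiff_tri ht]; push_cast; ring
  have := h.card_ge
  rw [dens, dens, fac, hc]
  field_simp

theorem uexp_sdiff {t : Finset (Finset (Fin n))} (ht : t ∈ (kn n).tris W) :
    uexp (W \ t) = uexp W / fac W ^ 2 := by
  rw [uexp, uexp, h.dens_sdiff ht, div_pow, mul_div_assoc]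

theorem cd_le {x y : Fin n} (hxy : adj W x y = 1) :
    cd W x y ≤ 2 * uexp W := by
  have := h.dev_le x y
  rw [dev, hxy, one_mul, abs_le] at this
  have h1 : cd W x y / uexp W ≤ 2 := by linarith [h.hη]
  rwa [div_le_iff₀ h.u_pos] at h1

theorem adj_cd_le (x y : Fin n) : adj W x y * cd W x y ≤ adj W x y * (2 * uexp W) := by
  rcases adj_cases W x y with e | e
  · simp [e]
  · rw [e, one_mul, one_mul]; exact h.cd_le e

theorem adj_cd (x y : Fin n) :
    adj W x y * cd W x y = uexp W * (adj W x y + dev W x y) := by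
  have := h.u_pos
  rcases adj_cases W x y with e | e <;> simp [dev, e]
  field_simp

theorem dg_bounds (x : Fin n) :
    9 / 10 * uexp W ≤ dg W x ∧ (1 - 2 * η) * uexp W ≤ dens W * dg W x
      ∧ dens W * dg W x ≤ (1 + 2 * η) * uexp W := by
  have hn := h.n_ge
  have hp := h.dens_pos
  have hq : 0 < ((n : ℝ) - 1) * dens W := mul_pos (by linarith) hp
  have ha := abs_le.1 (h.adev_le x)
  have hD : dg W x = (1 + adev W x) * (((n : ℝ) - 1) * dens W) := by
    rw [adev, add_sub_cancel, div_mul_cancel₀ _ hq.ne']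
  have hη := h.hη
  have hη0 := h.eta_nonneg
  refine ⟨?_, ?_⟩
  · rw [hD]
    calc 9 / 10 * uexp W ≤ 9 / 10 * (((n : ℝ) - 1) * dens W) := by linarith [h.u_le_np]
      _ ≤ _ := mul_le_mul_of_nonneg_right (by linarith) hq.le
  have hr : dens W * dg W x = (1 + adev W x) * (1 + 1 / ((n : ℝ) - 2)) * uexp W := by
    rw [hD, uexp]
    have : (0 : ℝ) < (n : ℝ) - 2 := by linarith
    field_simp
    ring
  have hi := h.hinv
  have hi0 : 0 ≤ 1 / ((n : ℝ) - 2) := by
    have : (0 : ℝ) < (n : ℝ) - 2 := by linarith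
    positivity
  rw [hr]
  constructor <;> refine mul_le_mul_of_nonneg_right ?_ h.u_pos.le <;> nlinarith

theorem dg_pos (x : Fin n) : 18 ≤ dg W x := by linarith [(h.dg_bounds x).1, h.hu]

/-- The expected loss of codegree of a surviving node. -/
theorem loss_eq {x y : Fin n} :
    ∑ z, adj W x z * adj W y z * (cd W x z + cd W y z - 2)
      = 2 * uexp W * cd W x y + uexp W * sdev W x y - 2 * cd W x y := by
  have e : ∀ z, adj W x z * adj W y z * (cd W x z + cd W y z - 2)
      = uexp W * (adj W x z * adj W y z * (dev W x z + dev W y z))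
        + (2 * uexp W - 2) * (adj W x z * adj W y z) := fun z => by
    rcases adj_cases W x z with a | a <;> rcases adj_cases W y z with b | b
    · simp [a, b]
    · simp [a, b]
    · simp [a, b]
    · have h1 := h.adj_cd x z
      have h2 := h.adj_cd y z
      rw [a] at h1
      rw [b] at h2
      rw [a, b]
      linear_combination h1 + h2
  rw [Finset.sum_congr rfl fun z _ => e z, Finset.sum_add_distrib, ← Finset.mul_sum,
    ← Finset.mul_sum]
  simp only [sdev, cd]
  ring

theorem loss_bounds {x y : Fin n} (hxy : adj W x y = 1) :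
    0 ≤ ∑ t ∈ (kn n).tris W, (1 - rm t x y) * (cd W x y - cd (W \ t) x y)
      ∧ ∑ t ∈ (kn n).tris W, (1 - rm t x y) * (cd W x y - cd (W \ t) x y)
        ≤ 8 * uexp W ^ 2 := by
  refine ⟨Finset.sum_nonneg fun t ht => mul_nonneg ?_ (sub_nonneg.2 (cd_sdiff_le ht x y).1), ?_⟩
  · rcases rm_cases t x y with e | e <;> simp [e]
  rw [sum_cd_loss hxy]
  calc ∑ z, adj W x z * adj W y z * (cd W x z + cd W y z - 2)
      ≤ ∑ z, adj W x z * adj W y z * (4 * uexp W) := by
        refine Finset.sum_le_sum fun z _ => ?_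
        rcases adj_cases W x z with a | a <;> rcases adj_cases W y z with b | b
        · simp [a, b]
        · simp [a, b]
        · simp [a, b]
        · rw [a, b, one_mul, one_mul, one_mul]
          linarith [h.cd_le a, h.cd_le b]
    _ = cd W x y * (4 * uexp W) := by rw [cd, Finset.sum_mul]
    _ ≤ _ := by nlinarith [h.cd_le hxy, h.u_pos]

/-- The deviation of a node. -/
theorem dstep_bounds {x y : Fin n} (hxy : adj W x y = 1) :
    (∀ t ∈ (kn n).tris W, |dstep W x y t| ≤ 2000 / uexp W)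
      ∧ ∑ t ∈ (kn n).tris W, |dstep W x y t| ≤ 2000 * uexp W
      ∧ |∑ t ∈ (kn n).tris W, dstep W x y t - dmain W x y| ≤ 2000 := by
  have hu := h.u_pos
  have hu20 := h.hu
  obtain ⟨f1, f2, -, -, f5, -, -⟩ := h.fac_bounds
  have hE := h.card_ge
  have huE := h.u_le_card
  have hc := h.cd_le hxy
  have hc0 := cd_nonneg W x y
  have he0 : 0 ≤ fac W ^ 2 - 1 := by nlinarith
  have hf2 : fac W ^ 2 ≤ 2 := by
    have : 8 / (W.card : ℝ) ≤ 1 := by rw [div_le_one (by linarith)]; linarith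
    linarith
  have heu : (fac W ^ 2 - 1) * uexp W ≤ 8 := by
    calc (fac W ^ 2 - 1) * uexp W ≤ 8 / W.card * W.card := by
          exact mul_le_mul f2 huE hu.le (by positivity)
      _ = 8 := div_mul_cancel₀ _ (by linarith)
  have eqd : ∀ t ∈ (kn n).tris W, dstep W x y t = ((fac W ^ 2 - 1) * ((1 - rm t x y) * cd W x y)
      - fac W ^ 2 * ((1 - rm t x y) * (cd W x y - cd (W \ t) x y))) / uexp W := by
    intro t ht
    rw [dstep]
    rcases rm_cases t x y with e | e
    · rw [dev, dev, adj_sdiff ht, hxy, e, h.uexp_sdiff ht]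
      field_simp
      ring
    · simp [e]
  have hsum1 : ∑ t ∈ (kn n).tris W, (1 - rm t x y) * cd W x y
      = (((kn n).tris W).card - cd W x y) * cd W x y := by
    rw [← Finset.sum_mul, Finset.sum_sub_distrib, sum_tris_rm, hxy, Finset.sum_const,
      nsmul_eq_mul, mul_one, one_mul]
  obtain ⟨hL0, hL⟩ := h.loss_bounds hxy
  obtain ⟨hT0, hT⟩ := h.tris_bounds
  have hT' : (fac W ^ 2 - 1) * ((kn n).tris W).card ≤ 8 * uexp W := by
    calc (fac W ^ 2 - 1) * ((kn n).tris W).card
        ≤ 8 / W.card * ((W.card : ℝ) * uexp W) := mul_le_mul f2 hT hT0.le (by positivity)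
      _ = _ := by field_simp
  refine ⟨fun t ht => ?_, ?_, ?_⟩
  · rw [eqd t ht, abs_div, abs_of_pos hu]
    refine div_le_div_of_nonneg_right ?_ hu.le
    have hl := cd_sdiff_le ht x y
    rcases rm_cases t x y with e | e <;> rw [e]
    · rw [abs_le]; constructor <;> nlinarith
    · simp
  · calc ∑ t ∈ (kn n).tris W, |dstep W x y t|
        ≤ ∑ t ∈ (kn n).tris W, ((fac W ^ 2 - 1) * ((1 - rm t x y) * cd W x y)
          + fac W ^ 2 * ((1 - rm t x y) * (cd W x y - cd (W \ t) x y))) / uexp W := by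
          refine Finset.sum_le_sum fun t ht => ?_
          rw [eqd t ht, abs_div, abs_of_pos hu]
          refine div_le_div_of_nonneg_right ?_ hu.le
          have h1 : 0 ≤ 1 - rm t x y := by rcases rm_cases t x y with e | e <;> simp [e]
          have hl := mul_nonneg (sq_nonneg (fac W))
            (mul_nonneg h1 (sub_nonneg.2 (cd_sdiff_le ht x y).1))
          have hr := mul_nonneg he0 (mul_nonneg h1 hc0)
          rw [abs_le]; constructor <;> linarith
      _ ≤ _ := by
          rw [← Finset.sum_div, Finset.sum_add_distrib, ← Finset.mul_sum, ← Finset.mul_sum, hsum1,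
            div_le_iff₀ hu]
          have h1 := mul_le_mul hT' hc hc0 (by positivity)
          have h2 := mul_le_mul hf2 hL hL0 (by norm_num)
          have h3 := mul_nonneg he0 (mul_nonneg hc0 hc0)
          nlinarith
  · have key : ∑ t ∈ (kn n).tris W, dstep W x y t - dmain W x y
        = ((fac W ^ 2 - 1 - 6 / W.card) * ((kn n).tris W).card) * (cd W x y / uexp W)
          - (fac W ^ 2 - 1) * (cd W x y * (cd W x y / uexp W)) + 2 * (cd W x y / uexp W)
          - (fac W ^ 2 - 1)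
            * ((∑ t ∈ (kn n).tris W, (1 - rm t x y) * (cd W x y - cd (W \ t) x y)) / uexp W) := by
      rw [Finset.sum_congr rfl eqd, ← Finset.sum_div, Finset.sum_sub_distrib, ← Finset.mul_sum,
        ← Finset.mul_sum, hsum1, sum_cd_loss hxy, h.loss_eq, dmain, h.tris_eq]
      field_simp
      ring
    have h1 : |(fac W ^ 2 - 1 - 6 / W.card) * ((kn n).tris W).card| ≤ 80 := by
      refine (mul_abs_le f5 (le_of_eq_of_le (abs_of_pos hT0) hT)).trans ?_
      calc 80 / (W.card : ℝ) ^ 2 * ((W.card : ℝ) * uexp W)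
          ≤ 80 / (W.card : ℝ) ^ 2 * ((W.card : ℝ) * W.card) := by gcongr
        _ = 80 := by field_simp
    have hcu0 : 0 ≤ cd W x y / uexp W := div_nonneg hc0 hu.le
    have hcu : cd W x y / uexp W ≤ 2 := by rwa [div_le_iff₀ hu]
    have h2 := mul_abs_le h1 (le_of_eq_of_le (abs_of_nonneg hcu0) hcu)
    have h3 : (fac W ^ 2 - 1) * (cd W x y * (cd W x y / uexp W)) ≤ 32 := by
      calc _ ≤ (fac W ^ 2 - 1) * ((2 * uexp W) * 2) := by gcongr
        _ ≤ _ := by linarith
    have h4 : (fac W ^ 2 - 1) * ((∑ t ∈ (kn n).tris W, (1 - rm t x y)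
        * (cd W x y - cd (W \ t) x y)) / uexp W) ≤ 64 := by
      calc _ ≤ (fac W ^ 2 - 1) * (8 * uexp W) := by
            refine mul_le_mul_of_nonneg_left ?_ he0
            rw [div_le_iff₀ hu]; linarith
        _ ≤ _ := by linarith
    have h3' : 0 ≤ (fac W ^ 2 - 1) * (cd W x y * (cd W x y / uexp W)) := by positivity
    have h4' : 0 ≤ (fac W ^ 2 - 1) * ((∑ t ∈ (kn n).tris W, (1 - rm t x y)
        * (cd W x y - cd (W \ t) x y)) / uexp W) := mul_nonneg he0 (div_nonneg hL0 hu.le)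
    have h2' := abs_le.1 h2
    rw [key, abs_le]
    constructor <;> linarith [h2'.1, h2'.2]

theorem vdev_eq (x : Fin n) : vdev W x = vsum W x / (dg W x * uexp W) - 1 := by
  have := h.u_pos
  have := h.dg_pos x
  have e : ∑ y, dev W x y = vsum W x / uexp W - dg W x := by
    rw [vsum, dg, Finset.sum_div, ← Finset.sum_sub_distrib]
    exact Finset.sum_congr rfl fun y _ => by rw [dev]; ring
  rw [vdev, e]
  field_simp

theorem vsum_bounds (x : Fin n) : 0 ≤ vsum W x ∧ vsum W x ≤ 2 * uexp W * dg W x := by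
  refine ⟨Finset.sum_nonneg fun y _ => mul_nonneg (adj_nonneg _ _ _) (cd_nonneg _ _ _), ?_⟩
  rw [dg, Finset.mul_sum]
  exact Finset.sum_le_sum fun y _ => by linarith [h.adj_cd_le x y]

theorem sum_vloss (x : Fin n) :
    ∑ t ∈ (kn n).tris W, (vsum W x - vsum (W \ t) x)
      = ∑ y, adj W x y * (cd W x y ^ 2
        + (2 * uexp W * cd W x y + uexp W * sdev W x y - 2 * cd W x y)) := by
  have e : ∀ t ∈ (kn n).tris W, vsum W x - vsum (W \ t) x
      = ∑ y, adj W x y * (rm t x y * cd W x y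
        + (1 - rm t x y) * (cd W x y - cd (W \ t) x y)) := fun t ht => by
    rw [vsum, vsum, ← Finset.sum_sub_distrib]
    refine Finset.sum_congr rfl fun y _ => ?_
    rw [adj_sdiff ht]
    linear_combination -(cd (W \ t) x y) * adj_mul_rm ht x y
  rw [Finset.sum_congr rfl e, Finset.sum_comm]
  refine Finset.sum_congr rfl fun y _ => ?_
  rw [← Finset.mul_sum]
  rcases adj_cases W x y with a | a
  · simp [a]
  · rw [Finset.sum_add_distrib, ← Finset.sum_mul, sum_tris_rm, sum_cd_loss a, h.loss_eq, a]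
    ring

theorem sum_vloss_le (x : Fin n) :
    ∑ t ∈ (kn n).tris W, (vsum W x - vsum (W \ t) x) ≤ 12 * uexp W ^ 2 * dg W x := by
  rw [h.sum_vloss, dg, Finset.mul_sum]
  refine Finset.sum_le_sum fun y _ => ?_
  rcases adj_cases W x y with a | a
  · simp [a]
  · have h1 := (h.loss_bounds a).2
    rw [sum_cd_loss a, h.loss_eq] at h1
    rw [a, one_mul, mul_one]
    nlinarith [h.cd_le a, cd_nonneg W x y]

theorem vloss_bounds {t : Finset (Finset (Fin n))} (ht : t ∈ (kn n).tris W) (x : Fin n) :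
    0 ≤ vsum W x - vsum (W \ t) x
      ∧ vsum W x - vsum (W \ t) x
        ≤ 4 * uexp W * (if x ∈ verts t then 2 else 0) + 6 := by
  have hsub : W \ t ⊆ W := Finset.sdiff_subset
  refine ⟨sub_nonneg.2 (Finset.sum_le_sum fun y _ => mul_le_mul (adj_mono hsub x y)
    (cd_sdiff_le ht x y).1 (cd_nonneg _ _ _) (adj_nonneg _ _ _)), ?_⟩
  have hrow : ∀ y z, rm t x z * adj W y z + adj W x z * rm t y z - rm t x z * rm t y z
      ≤ rm t x z * adj W y z + rm t y z := fun y z => by
    nlinarith [mul_nonneg (rm_nonneg t x z) (rm_nonneg t y z), rm_nonneg t y z,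
      adj_le_one W x z]
  have e : ∀ y, adj W x y * cd W x y - adj (W \ t) x y * cd (W \ t) x y
      ≤ rm t x y * cd W x y
        + ∑ z, adj W x y * (rm t x z * adj W y z + rm t y z) := fun y => by
    have h1 := cd_sdiff ht x y
    have h2 : cd W x y - cd (W \ t) x y ≤ ∑ z, (rm t x z * adj W y z + rm t y z) :=
      h1 ▸ Finset.sum_le_sum fun z _ => hrow y z
    have h4 := adj_sdiff ht x y
    have h5 := (cd_sdiff_le ht x y).1
    rw [← Finset.mul_sum, h4]
    nlinarith [mul_le_mul_of_nonneg_left h2 (adj_nonneg W x y),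
      mul_le_mul_of_nonneg_left h5 (rm_nonneg t x y)]
  have h6 : ∑ y, rm t x y * cd W x y ≤ 2 * uexp W * (if x ∈ verts t then 2 else 0) := by
    rw [← sum_rm ht x, Finset.mul_sum]
    refine Finset.sum_le_sum fun y _ => ?_
    rw [← adj_mul_rm ht x y]
    nlinarith [mul_le_mul_of_nonneg_left (h.adj_cd_le x y) (rm_nonneg t x y)]
  have h7 : ∑ y, ∑ z, adj W x y * (rm t x z * adj W y z + rm t y z)
      ≤ 2 * uexp W * (if x ∈ verts t then 2 else 0) + 6 := by
    calc ∑ y, ∑ z, adj W x y * (rm t x z * adj W y z + rm t y z)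
        ≤ ∑ y, ∑ z, (rm t x z * (adj W x y * adj W y z) + rm t y z) :=
          Finset.sum_le_sum fun y _ => Finset.sum_le_sum fun z _ => by
            nlinarith [rm_nonneg t y z, adj_le_one W x y]
      _ = (∑ z, rm t x z * cd W x z) + ∑ y, ∑ z, rm t y z := by
          simp only [Finset.sum_add_distrib]
          congr 1
          rw [Finset.sum_comm]
          refine Finset.sum_congr rfl fun z _ => ?_
          rw [cd, Finset.mul_sum]
          exact Finset.sum_congr rfl fun y _ => by rw [adj_symm W y z]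
      _ ≤ _ := by
          simp only [sum_rm ht]
          refine add_le_add h6 ?_
          rw [Finset.sum_ite_mem, Finset.univ_inter, Finset.sum_const, verts_card ht]
          norm_num
  rw [vsum, vsum, ← Finset.sum_sub_distrib]
  refine (Finset.sum_le_sum fun y _ => e y).trans ?_
  rw [Finset.sum_add_distrib]
  linarith

theorem fac_sq : 0 ≤ fac W ^ 2 - 1 ∧ fac W ^ 2 ≤ 2 ∧ (fac W ^ 2 - 1) * uexp W ≤ 8
    ∧ (fac W ^ 2 - 1) * ((kn n).tris W).card ≤ 8 * uexp W := by
  have hu := h.u_pos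
  have hE := h.card_ge
  have huE := h.u_le_card
  obtain ⟨f1, f2, -, -, -, -, -⟩ := h.fac_bounds
  obtain ⟨hT0, hT⟩ := h.tris_bounds
  refine ⟨by nlinarith, ?_, ?_, ?_⟩
  · have : 8 / (W.card : ℝ) ≤ 1 := by rw [div_le_one (by linarith)]; linarith
    linarith
  · calc (fac W ^ 2 - 1) * uexp W ≤ 8 / W.card * W.card := by
          exact mul_le_mul f2 huE hu.le (by positivity)
      _ = 8 := div_mul_cancel₀ _ (by linarith)
  · calc (fac W ^ 2 - 1) * ((kn n).tris W).card
        ≤ 8 / W.card * ((W.card : ℝ) * uexp W) := mul_le_mul f2 hT hT0.le (by positivity)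
      _ = _ := by field_simp

set_option linter.unusedSectionVars false in
theorem vI_facts (x : Fin n) : (∀ t, 0 ≤ vI x t) ∧ (∀ t, vI x t ≤ 2)
    ∧ ∑ t ∈ (kn n).tris W, vI x t = vsum W x :=
  ⟨fun t => by unfold vI; split_ifs <;> norm_num, fun t => by unfold vI; split_ifs <;> norm_num,
    sum_tris_verts x⟩

theorem vstep_eq {t : Finset (Finset (Fin n))} (ht : t ∈ (kn n).tris W) (x : Fin n) :
    vstep W x t = (fac W ^ 2 - 1) * (1 + vdev W x)
      + fac W ^ 2 / (dg W x * uexp W) * (vN W x t + vN W x t * vI x t / (dg W x - vI x t)) := by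
  have hu := h.u_pos
  have f1 := h.fac_bounds.1
  have hu20 := h.hu
  have hD := h.dg_pos x
  have hD0 : 0 < dg W x := by linarith
  have hDu := (h.dg_bounds x).1
  obtain ⟨he0, hf2, heu, hT'⟩ := h.fac_sq
  obtain ⟨hS0, hS⟩ := h.vsum_bounds x
  have hv := abs_le.1 (h.abs_vdev x)
  obtain ⟨hI0, hI2, hsI⟩ := h.vI_facts x
  have hd : 0 < dg W x - vI x t := by linarith [hI2 t]
  have e1 : vdev (W \ t) x = vsum (W \ t) x / (dg (W \ t) x * uexp (W \ t)) - 1 := by
    have hu' : 0 < uexp (W \ t) := by rw [h.uexp_sdiff ht]; positivity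
    have hd' : 0 < dg (W \ t) x := by rw [dg_sdiff ht, ← vI]; exact hd
    have e : ∑ y, dev (W \ t) x y = vsum (W \ t) x / uexp (W \ t) - dg (W \ t) x := by
      rw [vsum, dg, Finset.sum_div, ← Finset.sum_sub_distrib]
      exact Finset.sum_congr rfl fun y _ => by rw [dev]; ring
    rw [vdev, e]
    field_simp
  rw [vstep, e1, h.vdev_eq, dg_sdiff ht, ← vI, h.uexp_sdiff ht, vN]
  field_simp
  ring

theorem vN_abs {t : Finset (Finset (Fin n))} (ht : t ∈ (kn n).tris W) (x : Fin n) :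
    |vN W x t| ≤ vI x t * (2 * uexp W) + (vsum W x - vsum (W \ t) x) := by
  have hu := h.u_pos
  have hu20 := h.hu
  have hD := h.dg_pos x
  have hD0 : 0 < dg W x := by linarith
  have hDu := (h.dg_bounds x).1
  obtain ⟨he0, hf2, heu, hT'⟩ := h.fac_sq
  obtain ⟨hS0, hS⟩ := h.vsum_bounds x
  have hv := abs_le.1 (h.abs_vdev x)
  obtain ⟨hI0, hI2, hsI⟩ := h.vI_facts x
  have hSD : vsum W x / dg W x ≤ 2 * uexp W := by rw [div_le_iff₀ hD0]; exact hS
  have hSD0 : 0 ≤ vsum W x / dg W x := div_nonneg hS0 hD0.le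
  have h1 := mul_le_mul_of_nonneg_left hSD (hI0 t)
  have h2 := mul_nonneg (hI0 t) hSD0
  have h3 := (h.vloss_bounds ht x).1
  rw [vN, abs_le]
  constructor <;> linarith

theorem vstep_pt {t : Finset (Finset (Fin n))} (ht : t ∈ (kn n).tris W) (x : Fin n) :
    |vstep W x t| ≤ (fac W ^ 2 - 1) * 2
      + 4 / (dg W x * uexp W) * (vI x t * (2 * uexp W) + (vsum W x - vsum (W \ t) x)) := by
  have hu := h.u_pos
  have hu20 := h.hu
  have hD := h.dg_pos x
  have hD0 : 0 < dg W x := by linarith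
  have hDu := (h.dg_bounds x).1
  obtain ⟨he0, hf2, heu, hT'⟩ := h.fac_sq
  obtain ⟨hS0, hS⟩ := h.vsum_bounds x
  have hv := abs_le.1 (h.abs_vdev x)
  obtain ⟨hI0, hI2, hsI⟩ := h.vI_facts x
  have hext : |vN W x t + vN W x t * vI x t / (dg W x - vI x t)| ≤ 2 * |vN W x t| := by
    have hd : 0 < dg W x - vI x t := by linarith [hI2 t]
    have h1 : |vN W x t * vI x t / (dg W x - vI x t)| ≤ |vN W x t| := by
      rw [abs_div, abs_mul, abs_of_nonneg (hI0 t), abs_of_pos hd, div_le_iff₀ hd]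
      exact mul_le_mul_of_nonneg_left (by linarith [hI2 t]) (abs_nonneg _)
    linarith [abs_add_le (vN W x t) (vN W x t * vI x t / (dg W x - vI x t))]
  rw [h.vstep_eq ht x]
  refine (abs_add_le _ _).trans (add_le_add ?_ ?_)
  · rw [abs_mul, abs_of_nonneg he0]
    exact mul_le_mul_of_nonneg_left (abs_le.2 ⟨by linarith [hv.1], by linarith [hv.2]⟩) he0
  · rw [abs_mul, abs_div, abs_of_nonneg (by positivity : (0:ℝ) ≤ fac W ^ 2),
      abs_of_pos (mul_pos hD0 hu)]
    calc fac W ^ 2 / (dg W x * uexp W) * |vN W x t + vN W x t * vI x t / (dg W x - vI x t)|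
        ≤ 2 / (dg W x * uexp W) * (2 * (vI x t * (2 * uexp W) + (vsum W x - vsum (W \ t) x))) := by
          refine mul_le_mul (div_le_div_of_nonneg_right hf2 (by positivity)) ?_ (abs_nonneg _)
            (by positivity)
          linarith [hext, h.vN_abs ht x]
      _ = _ := by ring

theorem vstep_le {t : Finset (Finset (Fin n))} (ht : t ∈ (kn n).tris W) (x : Fin n) :
    |vstep W x t| ≤ 2000 / uexp W := by
  have hu := h.u_pos
  have hu20 := h.hu
  have hD := h.dg_pos x
  have hD0 : 0 < dg W x := by linarith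
  have hDu := (h.dg_bounds x).1
  obtain ⟨he0, hf2, heu, hT'⟩ := h.fac_sq
  obtain ⟨hS0, hS⟩ := h.vsum_bounds x
  have hv := abs_le.1 (h.abs_vdev x)
  obtain ⟨hI0, hI2, hsI⟩ := h.vI_facts x
  refine (h.vstep_pt ht x).trans ?_
  have h1 : (fac W ^ 2 - 1) * 2 ≤ 16 / uexp W := by rw [le_div_iff₀ hu]; linarith
  have h2 : 4 / (dg W x * uexp W) * (vI x t * (2 * uexp W) + (vsum W x - vsum (W \ t) x))
      ≤ 4 / (dg W x * uexp W) * (13 * uexp W) := by
    refine mul_le_mul_of_nonneg_left ?_ (by positivity)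
    have h3 := (h.vloss_bounds ht x).2
    rw [← vI] at h3
    nlinarith [hI2 t]
  have h3 : 4 / (dg W x * uexp W) * (13 * uexp W) = 52 / dg W x := by field_simp; norm_num
  have h4 : 52 / dg W x ≤ 60 / uexp W := by
    rw [div_le_div_iff₀ hD0 hu]; linarith
  have h5 : 16 / uexp W + 60 / uexp W ≤ 2000 / uexp W := by
    rw [← add_div]; gcongr; norm_num
  linarith

theorem vstep_sum_le (x : Fin n) :
    ∑ t ∈ (kn n).tris W, |vstep W x t| ≤ 2000 * uexp W := by
  have hu := h.u_pos
  have hu20 := h.hu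
  have hD := h.dg_pos x
  have hD0 : 0 < dg W x := by linarith
  have hDu := (h.dg_bounds x).1
  obtain ⟨he0, hf2, heu, hT'⟩ := h.fac_sq
  obtain ⟨hS0, hS⟩ := h.vsum_bounds x
  have hv := abs_le.1 (h.abs_vdev x)
  obtain ⟨hI0, hI2, hsI⟩ := h.vI_facts x
  refine (Finset.sum_le_sum fun t ht => h.vstep_pt ht x).trans ?_
  rw [Finset.sum_add_distrib, Finset.sum_const, nsmul_eq_mul, ← Finset.mul_sum,
    Finset.sum_add_distrib, ← Finset.sum_mul, hsI]
  have h1 : vsum W x * (2 * uexp W) + ∑ t ∈ (kn n).tris W, (vsum W x - vsum (W \ t) x)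
      ≤ 16 * uexp W ^ 2 * dg W x := by
    nlinarith [mul_le_mul_of_nonneg_right hS hu.le, h.sum_vloss_le x]
  have h2 : 4 / (dg W x * uexp W) * (16 * uexp W ^ 2 * dg W x) = 64 * uexp W := by
    field_simp; norm_num
  have := mul_le_mul_of_nonneg_left h1 (by positivity : (0:ℝ) ≤ 4 / (dg W x * uexp W))
  nlinarith

theorem sum_vloss_eq (x : Fin n) :
    ∑ t ∈ (kn n).tris W, (vsum W x - vsum (W \ t) x)
      = uexp W ^ 2 * (dg W x + 2 * ∑ y, dev W x y + ∑ y, dev W x y ^ 2)
        + (2 * uexp W - 2) * vsum W x + uexp W * ∑ y, adj W x y * sdev W x y := by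
  have hQ : ∑ y, adj W x y * (cd W x y ^ 2)
      = uexp W ^ 2 * (dg W x + 2 * ∑ y, dev W x y + ∑ y, dev W x y ^ 2) := by
    rw [dg, Finset.mul_sum univ (fun y => dev W x y) 2, ← Finset.sum_add_distrib,
      ← Finset.sum_add_distrib, Finset.mul_sum]
    refine Finset.sum_congr rfl fun y _ => ?_
    rcases adj_cases W x y with a | a
    · simp [a, dev]
    · have := h.adj_cd x y
      rw [a, one_mul] at this
      rw [a, this]; ring
  have hc1 : ∑ y, adj W x y * cd W x y = vsum W x := rfl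
  rw [h.sum_vloss, ← hQ, ← hc1, Finset.mul_sum, Finset.mul_sum, ← Finset.sum_add_distrib,
    ← Finset.sum_add_distrib]
  exact Finset.sum_congr rfl fun y _ => by ring

theorem vZ_le (x : Fin n) :
    |∑ t ∈ (kn n).tris W, vN W x t * vI x t / (dg W x - vI x t)| ≤ 56 * uexp W ^ 2 := by
  have hu := h.u_pos
  have hu20 := h.hu
  have hD := h.dg_pos x
  have hD0 : 0 < dg W x := by linarith
  have hDu := (h.dg_bounds x).1
  obtain ⟨he0, hf2, heu, hT'⟩ := h.fac_sq
  obtain ⟨hS0, hS⟩ := h.vsum_bounds x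
  have hv := abs_le.1 (h.abs_vdev x)
  obtain ⟨hI0, hI2, hsI⟩ := h.vI_facts x
  refine (Finset.abs_sum_le_sum_abs _ _).trans ?_
  calc ∑ t ∈ (kn n).tris W, |vN W x t * vI x t / (dg W x - vI x t)|
      ≤ ∑ t ∈ (kn n).tris W, 28 * uexp W / dg W x * vI x t := by
        refine Finset.sum_le_sum fun t ht => ?_
        have hd : 0 < dg W x - vI x t := by linarith [hI2 t]
        rw [abs_div, abs_mul, abs_of_nonneg (hI0 t), abs_of_pos hd, div_le_iff₀ hd]
        have h3 := (h.vloss_bounds ht x).2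
        rw [← vI] at h3
        have h4 : |vN W x t| ≤ 14 * uexp W := by nlinarith [h.vN_abs ht x, hI2 t]
        calc |vN W x t| * vI x t ≤ 14 * uexp W * vI x t := mul_le_mul_of_nonneg_right h4 (hI0 t)
          _ = 28 * uexp W / dg W x * vI x t * (dg W x / 2) := by field_simp; ring
          _ ≤ 28 * uexp W / dg W x * vI x t * (dg W x - vI x t) := by
              refine mul_le_mul_of_nonneg_left (by linarith [hI2 t]) ?_
              have := hI0 t; positivity
    _ ≤ _ := by
        rw [← Finset.mul_sum, hsI, div_mul_eq_mul_div, div_le_iff₀ hD0]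
        nlinarith

theorem vstep_main (x : Fin n) :
    |∑ t ∈ (kn n).tris W, vstep W x t - vmain W x| ≤ 2000 := by
  have hu := h.u_pos
  have hu20 := h.hu
  have hD := h.dg_pos x
  have hD0 : 0 < dg W x := by linarith
  have hDu := (h.dg_bounds x).1
  obtain ⟨he0, hf2, heu, hT'⟩ := h.fac_sq
  obtain ⟨hS0, hS⟩ := h.vsum_bounds x
  have hv := abs_le.1 (h.abs_vdev x)
  obtain ⟨hI0, hI2, hsI⟩ := h.vI_facts x
  obtain ⟨-, -, -, -, f5, -, -⟩ := h.fac_bounds
  have hE := h.card_ge
  have huE := h.u_le_card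
  obtain ⟨hT0, hT⟩ := h.tris_bounds
  have hsum := h.sum_vloss_eq x
  have hsd : ∑ y, dev W x y = dg W x * vdev W x := by rw [vdev]; field_simp
  have hS' : vsum W x = dg W x * uexp W * (1 + vdev W x) := by
    rw [h.vdev_eq]; field_simp; ring
  have hsN : ∑ t ∈ (kn n).tris W, vN W x t = vsum W x * (vsum W x / dg W x)
      - ∑ t ∈ (kn n).tris W, (vsum W x - vsum (W \ t) x) := by
    simp only [vN]
    rw [Finset.sum_sub_distrib, ← Finset.sum_mul, hsI]
  have key : ∑ t ∈ (kn n).tris W, vstep W x t - vmain W x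
      = (fac W ^ 2 - 1 - 6 / W.card) * ((kn n).tris W).card * (1 + vdev W x)
        + 2 * (1 + vdev W x)
        + (fac W ^ 2 - 1) * ((∑ t ∈ (kn n).tris W, vN W x t) / (dg W x * uexp W))
        + fac W ^ 2 / (dg W x * uexp W)
          * ∑ t ∈ (kn n).tris W, vN W x t * vI x t / (dg W x - vI x t) := by
    rw [Finset.sum_congr rfl fun t ht => h.vstep_eq ht x, Finset.sum_add_distrib, Finset.sum_const, nsmul_eq_mul,
      ← Finset.mul_sum, Finset.sum_add_distrib]
    generalize ∑ t ∈ (kn n).tris W, vN W x t * vI x t / (dg W x - vI x t) = Z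
    rw [hsN, hsum, vmain, hsd, hS', h.tris_eq]
    field_simp
    ring
  have b1 : |(fac W ^ 2 - 1 - 6 / W.card) * ((kn n).tris W).card * (1 + vdev W x)| ≤ 160 := by
    refine (mul_abs_le (mul_abs_le f5 (le_of_eq_of_le (abs_of_pos hT0) hT))
      (abs_le.2 ⟨by linarith [hv.1], by linarith [hv.2]⟩ : |1 + vdev W x| ≤ 2)).trans ?_
    calc 80 / (W.card : ℝ) ^ 2 * ((W.card : ℝ) * uexp W) * 2
        ≤ 80 / (W.card : ℝ) ^ 2 * ((W.card : ℝ) * W.card) * 2 := by gcongr
      _ = 160 := by field_simp; norm_num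
  have hNsum : |∑ t ∈ (kn n).tris W, vN W x t| ≤ 16 * uexp W ^ 2 * dg W x := by
    refine (Finset.abs_sum_le_sum_abs _ _).trans ((Finset.sum_le_sum fun t ht => h.vN_abs ht x).trans ?_)
    rw [Finset.sum_add_distrib, ← Finset.sum_mul, hsI]
    nlinarith [mul_le_mul_of_nonneg_right hS hu.le, h.sum_vloss_le x]
  have b2 : |(fac W ^ 2 - 1) * ((∑ t ∈ (kn n).tris W, vN W x t) / (dg W x * uexp W))| ≤ 128 := by
    rw [abs_mul, abs_div, abs_of_nonneg he0, abs_of_pos (mul_pos hD0 hu)]
    calc _ ≤ (fac W ^ 2 - 1) * (16 * uexp W ^ 2 * dg W x / (dg W x * uexp W)) :=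
          mul_le_mul_of_nonneg_left (div_le_div_of_nonneg_right hNsum (by positivity)) he0
      _ = (fac W ^ 2 - 1) * uexp W * 16 := by field_simp
      _ ≤ _ := by linarith
  have hZ := h.vZ_le x
  have b3 : |fac W ^ 2 / (dg W x * uexp W)
      * ∑ t ∈ (kn n).tris W, vN W x t * vI x t / (dg W x - vI x t)| ≤ 125 := by
    rw [abs_mul, abs_div, abs_of_nonneg (by positivity : (0:ℝ) ≤ fac W ^ 2),
      abs_of_pos (mul_pos hD0 hu)]
    calc _ ≤ 2 / (dg W x * uexp W) * (56 * uexp W ^ 2) :=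
          mul_le_mul (div_le_div_of_nonneg_right hf2 (by positivity)) hZ (abs_nonneg _)
            (by positivity)
      _ = 112 * uexp W / dg W x := by field_simp; ring
      _ ≤ 125 := by rw [div_le_iff₀ hD0]; nlinarith
  obtain ⟨b11, b12⟩ := abs_le.1 b1
  obtain ⟨b21, b22⟩ := abs_le.1 b2
  obtain ⟨b31, b32⟩ := abs_le.1 b3
  rw [key, abs_le]
  constructor <;> linarith [hv.1, hv.2]


/-- The mean deviation at a vertex. -/
theorem vstep_bounds (x : Fin n) :
    (∀ t ∈ (kn n).tris W, |vstep W x t| ≤ 2000 / uexp W)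
      ∧ ∑ t ∈ (kn n).tris W, |vstep W x t| ≤ 2000 * uexp W
      ∧ |∑ t ∈ (kn n).tris W, vstep W x t - vmain W x| ≤ 2000 :=
  ⟨fun _ ht => h.vstep_le ht x, h.vstep_sum_le x, h.vstep_main x⟩

/-- The deviation of the degree. -/
theorem astep_bounds (x : Fin n) :
    (∀ t ∈ (kn n).tris W, |adev (W \ t) x - adev W x| ≤ 2000 / uexp W)
      ∧ ∑ t ∈ (kn n).tris W, |adev (W \ t) x - adev W x| ≤ 2000 * uexp W
      ∧ |∑ t ∈ (kn n).tris W, (adev (W \ t) x - adev W x) - amain W x| ≤ 2000 := by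
  have hu := h.u_pos
  have hn := h.n_ge
  have hp := h.dens_pos
  obtain ⟨f1, -, f3, -, -, f6, -⟩ := h.fac_bounds
  have hE := h.card_ge
  have huE := h.u_le_card
  obtain ⟨hT0, hT⟩ := h.tris_bounds
  obtain ⟨hS0, hS⟩ := h.vsum_bounds x
  have hv := abs_le.1 (h.abs_vdev x)
  have ha := abs_le.1 ((h.adev_le x).trans h.hη)
  have he0 : 0 ≤ fac W - 1 := by linarith
  have hf2 : fac W ≤ 2 := by
    have : 4 / (W.card : ℝ) ≤ 1 := by rw [div_le_one (by linarith)]; linarith
    linarith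
  obtain ⟨I, hI⟩ : ∃ I : Finset (Finset (Fin n)) → ℝ,
      ∀ t, I t = if x ∈ verts t then (2 : ℝ) else 0 := ⟨_, fun _ => rfl⟩
  have hI0 : ∀ t, 0 ≤ I t := fun t => by rw [hI]; split_ifs <;> norm_num
  have hI2 : ∀ t, I t ≤ 2 := fun t => by rw [hI]; split_ifs <;> norm_num
  have hsI : ∑ t ∈ (kn n).tris W, I t = vsum W x := by
    simp only [hI]; exact sum_tris_verts x
  have hq : 0 < ((n : ℝ) - 1) * dens W := mul_pos (by linarith) hp
  have hq' := h.u_le_np
  have eqa : ∀ t ∈ (kn n).tris W, adev (W \ t) x - adev W x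
      = (fac W - 1) * (1 + adev W x) - fac W / (((n : ℝ) - 1) * dens W) * I t := by
    intro t ht
    rw [adev, adev, dg_sdiff ht, ← hI, h.dens_sdiff ht]
    have hn1 : (0 : ℝ) < (n : ℝ) - 1 := by linarith
    field_simp
    ring
  have hpt : ∀ t ∈ (kn n).tris W, |adev (W \ t) x - adev W x|
      ≤ 8 / W.card + 2 / (((n : ℝ) - 1) * dens W) * I t := by
    intro t ht
    rw [eqa t ht]
    have h1 : 0 ≤ (fac W - 1) * (1 + adev W x) := mul_nonneg he0 (by linarith [ha.1])
    have h2 : (fac W - 1) * (1 + adev W x) ≤ 4 / W.card * 2 :=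
      mul_le_mul f3 (by linarith [ha.2]) (by linarith [ha.1]) (by positivity)
    have h3 : 0 ≤ fac W / (((n : ℝ) - 1) * dens W) * I t :=
      mul_nonneg (div_nonneg (by linarith) hq.le) (hI0 t)
    have h4 : fac W / (((n : ℝ) - 1) * dens W) * I t ≤ 2 / (((n : ℝ) - 1) * dens W) * I t :=
      mul_le_mul_of_nonneg_right (div_le_div_of_nonneg_right hf2 hq.le) (hI0 t)
    have h5 : 4 / (W.card : ℝ) * 2 = 8 / W.card := by ring
    rw [abs_le]; constructor <;> linarith
  have hD : dg W x = (1 + adev W x) * (((n : ℝ) - 1) * dens W) := by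
    rw [adev, add_sub_cancel, div_mul_cancel₀ _ hq.ne']
  have hS' : vsum W x = dg W x * uexp W * (1 + vdev W x) := by
    have := h.dg_pos x
    rw [h.vdev_eq]; field_simp; ring
  refine ⟨fun t ht => (hpt t ht).trans ?_, ?_, ?_⟩
  · have h1 : 8 / (W.card : ℝ) ≤ 8 / uexp W := by gcongr
    have h2 : 2 / (((n : ℝ) - 1) * dens W) * I t ≤ 2 / uexp W * 2 :=
      mul_le_mul (div_le_div_of_nonneg_left (by norm_num) hu hq') (hI2 t) (hI0 t) (by positivity)
    have h3 : 8 / uexp W + 2 / uexp W * 2 ≤ 2000 / uexp W := by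
      rw [div_mul_eq_mul_div, ← add_div]; gcongr; norm_num
    linarith
  · refine (Finset.sum_le_sum fun t ht => hpt t ht).trans ?_
    rw [Finset.sum_add_distrib, ← Finset.mul_sum, hsI, Finset.sum_const, nsmul_eq_mul]
    have h1 : ((kn n).tris W).card * (8 / (W.card : ℝ)) ≤ 8 * uexp W := by
      calc _ ≤ (W.card : ℝ) * uexp W * (8 / W.card) := by gcongr
        _ = _ := by field_simp
    have h2 : 2 / (((n : ℝ) - 1) * dens W) * vsum W x ≤ 8 * uexp W := by
      rw [div_mul_eq_mul_div, div_le_iff₀ hq]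
      have := mul_le_mul_of_nonneg_left (by linarith [ha.2] : 1 + adev W x ≤ 2)
        (mul_nonneg hu.le hq.le)
      nlinarith [hS, hD]
    linarith
  · have key : ∑ t ∈ (kn n).tris W, (adev (W \ t) x - adev W x) - amain W x
        = (fac W - 1 - 3 / W.card) * ((kn n).tris W).card * (1 + adev W x)
          - (fac W - 1) * uexp W * ((1 + vdev W x) * (1 + adev W x)) := by
      rw [Finset.sum_congr rfl eqa, Finset.sum_sub_distrib, Finset.sum_const, nsmul_eq_mul,
        ← Finset.mul_sum, hsI, hS', hD, amain, h.tris_eq]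
      generalize ((n : ℝ) - 1) * dens W = q at hq ⊢
      field_simp
      ring
    have b1 : |(fac W - 1 - 3 / W.card) * ((kn n).tris W).card * (1 + adev W x)| ≤ 40 := by
      refine (mul_abs_le (mul_abs_le f6 (le_of_eq_of_le (abs_of_pos hT0) hT))
        (abs_le.2 ⟨by linarith [ha.1], by linarith [ha.2]⟩ : |1 + adev W x| ≤ 2)).trans ?_
      calc 20 / (W.card : ℝ) ^ 2 * ((W.card : ℝ) * uexp W) * 2
          ≤ 20 / (W.card : ℝ) ^ 2 * ((W.card : ℝ) * W.card) * 2 := by gcongr
        _ = 40 := by field_simp; norm_num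
    have b2 : |(fac W - 1) * uexp W * ((1 + vdev W x) * (1 + adev W x))| ≤ 4 * (2 * 2) := by
      refine mul_abs_le ?_ (mul_abs_le (abs_le.2 ⟨by linarith [hv.1], by linarith [hv.2]⟩)
        (abs_le.2 ⟨by linarith [ha.1], by linarith [ha.2]⟩))
      rw [abs_of_nonneg (mul_nonneg he0 hu.le)]
      calc (fac W - 1) * uexp W ≤ 4 / W.card * W.card := mul_le_mul f3 huE hu.le (by positivity)
        _ = 4 := div_mul_cancel₀ _ (by linarith)
    obtain ⟨b11, b12⟩ := abs_le.1 b1
    obtain ⟨b21, b22⟩ := abs_le.1 b2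
    rw [key, abs_le]
    constructor <;> linarith

/-- The deviation of the number of triangles. -/
theorem mstep_bounds :
    (∀ t ∈ (kn n).tris W, |mdev (W \ t) - mdev W| ≤ 2000 / uexp W)
      ∧ ∑ t ∈ (kn n).tris W, |mdev (W \ t) - mdev W| ≤ 2000 * uexp W
      ∧ |∑ t ∈ (kn n).tris W, (mdev (W \ t) - mdev W) - mmain W| ≤ 2000 := by
  have hu := h.u_pos
  have hu20 := h.hu
  obtain ⟨f1, -, -, f4, -, -, f7⟩ := h.fac_bounds
  have hE := h.card_ge
  have huE := h.u_le_card
  obtain ⟨hT0, hT⟩ := h.tris_bounds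
  have hμ := abs_le.1 h.abs_mdev
  have he0 : 0 ≤ fac W ^ 3 - 1 := sub_nonneg.2 (one_le_pow₀ f1)
  have hf2 : fac W ^ 3 ≤ 2 := by
    have : 14 / (W.card : ℝ) ≤ 1 := by rw [div_le_one (by linarith)]; linarith
    linarith
  have hf0 : 0 ≤ fac W ^ 3 := by linarith
  obtain ⟨G, hG⟩ : ∃ G : Finset (Finset (Fin n)) → ℝ,
      ∀ t, G t = ∑ g ∈ t, ((kn n).deg W g : ℝ) := ⟨_, fun _ => rfl⟩
  have hdeg : ∀ e ∈ W, ((kn n).deg W e : ℝ) ≤ 2 * uexp W := fun e he => by
    obtain ⟨a, b, hab, rfl⟩ := Finset.card_eq_two.1 (mem_allPairs.1 (h.sub he))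
    have hA : adj W a b = 1 := adj_eq_one.2 ⟨hab, he⟩
    rw [deg_pair hA]; exact h.cd_le hA
  have hGb : ∀ t ∈ (kn n).tris W, 0 ≤ G t ∧ G t ≤ 6 * uexp W := fun t ht => by
    rw [hG]
    refine ⟨Finset.sum_nonneg fun g _ => Nat.cast_nonneg _, ?_⟩
    refine (Finset.sum_le_sum fun g hg => hdeg g ((LH.mem_tris.1 ht).2 hg)).trans ?_
    rw [Finset.sum_const, LH.card_tri ht, nsmul_eq_mul]; push_cast; linarith
  have hGsum : ∑ t ∈ (kn n).tris W, G t
      = uexp W ^ 2 * (W.card * (1 + 2 * mdev W) + (∑ x, ∑ y, dev W x y ^ 2) / 2) := by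
    simp only [hG]
    rw [LH.sum_tris_sum]
    have e1 : 2 * ∑ e ∈ W, ((kn n).deg W e : ℝ) * ((kn n).deg W e : ℝ)
        = ∑ x, ∑ y, adj W x y * cd W x y ^ 2 := by
      rw [← sum_adj_mul h.sub]
      refine Finset.sum_congr rfl fun x _ => Finset.sum_congr rfl fun y _ => ?_
      linear_combination (((kn n).deg W {x, y} : ℝ) + cd W x y) * adj_deg (W := W) x y
    have e2 : ∀ x y, adj W x y * cd W x y ^ 2
        = uexp W ^ 2 * dev W x y ^ 2 + 2 * uexp W * (adj W x y * cd W x y)
          - uexp W ^ 2 * adj W x y := fun x y => by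
      rcases adj_cases W x y with a | a
      · simp [a, dev]
      · have := h.adj_cd x y
        rw [a, one_mul] at this
        rw [a, this]; ring
    have e3 : ∑ x, ∑ y, adj W x y * cd W x y ^ 2
        = uexp W ^ 2 * (∑ x, ∑ y, dev W x y ^ 2) + 2 * uexp W * (6 * ((kn n).tris W).card)
          - uexp W ^ 2 * (2 * W.card) := by
      rw [← sum_adj_cd h.sub, ← sum_dg h.sub]
      simp only [e2, dg, Finset.mul_sum, Finset.sum_add_distrib, Finset.sum_sub_distrib]
    rw [h.tris_eq] at e3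
    linear_combination (1 / 2 : ℝ) * e1 + (1 / 2 : ℝ) * e3
  have eqm : ∀ t ∈ (kn n).tris W, mdev (W \ t) - mdev W
      = 3 / ((W.card : ℝ) * uexp W)
        * ((fac W ^ 3 - 1) * ((kn n).tris W).card + fac W ^ 3 * (2 - G t)) := by
    intro t ht
    have hc : ((W \ t).card : ℝ) = (W.card : ℝ) - 3 := by
      rw [← LH.card_sdiff_tri ht]; push_cast; ring
    have hT' : (((kn n).tris (W \ t)).card : ℝ) = (((kn n).tris W).card : ℝ) + 2 - G t := by
      rw [hG]; linarith [LH.card_tris_sdiff ht]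
    rw [mdev, mdev, hc, hT', h.uexp_sdiff ht, fac]
    have : (0 : ℝ) < (W.card : ℝ) - 3 := by linarith
    field_simp
    ring
  have hcT : (fac W ^ 3 - 1) * ((kn n).tris W).card ≤ 14 * uexp W := by
    calc (fac W ^ 3 - 1) * ((kn n).tris W).card
        ≤ 14 / W.card * ((W.card : ℝ) * uexp W) := mul_le_mul f4 hT hT0.le (by positivity)
      _ = _ := by field_simp
  have hEu : 0 < (W.card : ℝ) * uexp W := mul_pos (by linarith) hu
  have hpt : ∀ t ∈ (kn n).tris W, |mdev (W \ t) - mdev W| ≤ 90 / W.card := by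
    intro t ht
    rw [eqm t ht, abs_mul, abs_of_nonneg (by positivity : 0 ≤ 3 / ((W.card : ℝ) * uexp W))]
    have h1 := mul_nonneg he0 hT0.le
    have h2 : |(fac W ^ 3 - 1) * ((kn n).tris W).card + fac W ^ 3 * (2 - G t)| ≤ 30 * uexp W := by
      obtain ⟨g0, g1⟩ := hGb t ht
      have h3 := mul_le_mul hf2 g1 g0 (by norm_num)
      have h4 := mul_nonneg hf0 g0
      rw [abs_le]; constructor <;> nlinarith
    calc _ ≤ 3 / ((W.card : ℝ) * uexp W) * (30 * uexp W) :=
          mul_le_mul_of_nonneg_left h2 (by positivity)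
      _ = _ := by field_simp; norm_num
  refine ⟨fun t ht => (hpt t ht).trans ?_, ?_, ?_⟩
  · gcongr; norm_num
  · refine (Finset.sum_le_sum fun t ht => hpt t ht).trans ?_
    rw [Finset.sum_const, nsmul_eq_mul]
    calc ((kn n).tris W).card * (90 / (W.card : ℝ)) ≤ (W.card : ℝ) * uexp W * (90 / W.card) := by
          gcongr
      _ = 90 * uexp W := by field_simp
      _ ≤ _ := by linarith
  · have key : ∑ t ∈ (kn n).tris W, (mdev (W \ t) - mdev W) - mmain W
        = 3 / ((W.card : ℝ) * uexp W)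
          * ((fac W ^ 3 - 1 - 9 / W.card) * ((kn n).tris W).card * ((kn n).tris W).card
            + fac W ^ 3 * (2 * ((kn n).tris W).card)
            - (fac W ^ 3 - 1) * ∑ t ∈ (kn n).tris W, G t) := by
      rw [Finset.sum_congr rfl eqm, ← Finset.mul_sum, Finset.sum_add_distrib, Finset.sum_const,
        nsmul_eq_mul, ← Finset.mul_sum, Finset.sum_sub_distrib, Finset.sum_const, nsmul_eq_mul,
        hGsum, mmain, h.tris_eq]
      field_simp
      ring
    have a1 : |(fac W ^ 3 - 1 - 9 / W.card) * ((kn n).tris W).card * ((kn n).tris W).card|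
        ≤ 200 * ((W.card : ℝ) * uexp W) := by
      refine (mul_abs_le (mul_abs_le f7 (le_of_eq_of_le (abs_of_pos hT0) hT))
        (le_of_eq_of_le (abs_of_pos hT0) hT)).trans ?_
      calc 200 / (W.card : ℝ) ^ 2 * ((W.card : ℝ) * uexp W) * ((W.card : ℝ) * uexp W)
          ≤ 200 / (W.card : ℝ) ^ 2 * ((W.card : ℝ) * W.card) * ((W.card : ℝ) * uexp W) := by
            gcongr
        _ = _ := by field_simp
    have a2 : (fac W ^ 3 - 1) * ∑ t ∈ (kn n).tris W, G t ≤ 84 * ((W.card : ℝ) * uexp W) := by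
      calc _ ≤ (fac W ^ 3 - 1) * (((kn n).tris W).card * (6 * uexp W)) := by
            refine mul_le_mul_of_nonneg_left ((Finset.sum_le_sum fun t ht => (hGb t ht).2).trans ?_)
              he0
            rw [Finset.sum_const, nsmul_eq_mul]
        _ = (fac W ^ 3 - 1) * ((kn n).tris W).card * (6 * uexp W) := by ring
        _ ≤ 14 * uexp W * (6 * uexp W) := mul_le_mul_of_nonneg_right hcT (by positivity)
        _ ≤ _ := by nlinarith
    have a3 : fac W ^ 3 * (2 * ((kn n).tris W).card) ≤ 4 * ((W.card : ℝ) * uexp W) := by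
      nlinarith
    have a4 : 0 ≤ (fac W ^ 3 - 1) * ∑ t ∈ (kn n).tris W, G t :=
      mul_nonneg he0 (Finset.sum_nonneg fun t ht => (hGb t ht).1)
    have a5 : 0 ≤ fac W ^ 3 * (2 * ((kn n).tris W).card) := mul_nonneg hf0 (by positivity)
    obtain ⟨a11, a12⟩ := abs_le.1 a1
    rw [key, abs_mul, abs_of_nonneg (by positivity : 0 ≤ 3 / ((W.card : ℝ) * uexp W))]
    calc _ ≤ 3 / ((W.card : ℝ) * uexp W) * (300 * ((W.card : ℝ) * uexp W)) := by
          refine mul_le_mul_of_nonneg_left ?_ (by positivity)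
          rw [abs_le]; constructor <;> linarith
      _ = 900 := by field_simp; norm_num
      _ ≤ _ := by norm_num

end Nice

end P046.Full
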