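import Mathlib

/-!
P046, matrix tools for the full answer: `OpLe X c` (the Euclidean operator norm is at most `c`),
operator bounds from traces of powers, the Schur test and interpolation between `2` and `∞`.
-/

namespace P046

open Finset Matrix

section

variable {ι κ ν : Type*} [Fintype ι] [Fintype κ] [Fintype ν]

/-- The squared Euclidean norm. -/
def nsq (v : ι → ℝ) : ℝ := ∑ i, v i ^ 2

/-- The squared Frobenius norm. -/
def frob (X : Matrix ι κ ℝ) : ℝ := ∑ i, ∑ j, X i j ^ 2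

/-- The Euclidean operator norm is at most `c`. -/
def OpLe (X : Matrix ι κ ℝ) (c : ℝ) : Prop := ∀ v, nsq (X *ᵥ v) ≤ c ^ 2 * nsq v

theorem nsq_nonneg (v : ι → ℝ) : 0 ≤ nsq v := Finset.sum_nonneg fun i _ => sq_nonneg (v i)

theorem frob_nonneg (X : Matrix ι κ ℝ) : 0 ≤ frob X :=
  Finset.sum_nonneg fun i _ => Finset.sum_nonneg fun j _ => sq_nonneg (X i j)

theorem nsq_eq_dot (v : ι → ℝ) : nsq v = v ⬝ᵥ v := by simp [nsq, dotProduct, sq]

theorem dot_sq_le (v w : ι → ℝ) : (v ⬝ᵥ w) ^ 2 ≤ nsq v * nsq w :=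
  Finset.sum_mul_sq_le_sq_mul_sq Finset.univ v w

theorem frob_eq_cols (X : Matrix ι κ ℝ) : frob X = ∑ j, nsq fun i => X i j := Finset.sum_comm

theorem frob_transpose (X : Matrix ι κ ℝ) : frob Xᵀ = frob X := Finset.sum_comm

theorem frob_add_le (X Y : Matrix ι κ ℝ) : frob (X + Y) ≤ 2 * (frob X + frob Y) := by
  simp only [frob, ← Finset.sum_add_distrib, Finset.mul_sum, Matrix.add_apply]
  exact Finset.sum_le_sum fun i _ => Finset.sum_le_sum fun j _ => by
    nlinarith [sq_nonneg (X i j - Y i j)]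

theorem frob_eq_trace (X : Matrix ι κ ℝ) : frob X = trace (X * Xᵀ) := by
  simp [frob, trace, Matrix.mul_apply, sq]

theorem nsq_mulVec_le_frob (X : Matrix ι κ ℝ) (v : κ → ℝ) : nsq (X *ᵥ v) ≤ frob X * nsq v := by
  rw [frob, Finset.sum_mul]
  exact Finset.sum_le_sum fun i _ => dot_sq_le (X i) v

theorem OpLe.mono {X : Matrix ι κ ℝ} {c d : ℝ} (h : OpLe X c) (hc : 0 ≤ c) (hcd : c ≤ d) :
    OpLe X d := fun v =>
  (h v).trans (mul_le_mul_of_nonneg_right (pow_le_pow_left₀ hc hcd 2) (nsq_nonneg v))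

theorem OpLe.mul {X : Matrix ι κ ℝ} {Y : Matrix κ ν ℝ} {c d : ℝ} (hX : OpLe X c) (hY : OpLe Y d) :
    OpLe (X * Y) (c * d) := fun v => by
  rw [← mulVec_mulVec, mul_pow, mul_assoc]
  exact (hX _).trans (mul_le_mul_of_nonneg_left (hY v) (sq_nonneg c))

theorem opLe_one [DecidableEq ι] : OpLe (1 : Matrix ι ι ℝ) 1 := fun v => by simp [nsq]

theorem OpLe.pow [DecidableEq ι] {X : Matrix ι ι ℝ} {c : ℝ} (h : OpLe X c) (k : ℕ) :
    OpLe (X ^ k) (c ^ k) := by
  induction k with
  | zero => simpa using opLe_one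
  | succ k ih => simpa only [pow_succ] using ih.mul h

theorem OpLe.transpose {X : Matrix ι κ ℝ} {c : ℝ} (h : OpLe X c) : OpLe Xᵀ c := fun v => by
  set w := Xᵀ *ᵥ v with hw
  have h1 : nsq w = v ⬝ᵥ (X *ᵥ w) := by
    rw [nsq_eq_dot, dotProduct_mulVec v X w, hw, mulVec_transpose]
  have h2 : nsq w ^ 2 ≤ nsq v * (c ^ 2 * nsq w) := by
    conv_lhs => rw [h1]
    exact (dot_sq_le _ _).trans (mul_le_mul_of_nonneg_left (h w) (nsq_nonneg v))
  rcases (nsq_nonneg w).lt_or_eq with h3 | h3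
  · nlinarith
  · rw [← h3]
    exact mul_nonneg (sq_nonneg c) (nsq_nonneg v)

theorem OpLe.frob_mul_le {X : Matrix ι κ ℝ} {c : ℝ} (h : OpLe X c) (Y : Matrix κ ν ℝ) :
    frob (X * Y) ≤ c ^ 2 * frob Y := by
  rw [frob_eq_cols, frob_eq_cols, Finset.mul_sum]
  exact Finset.sum_le_sum fun j _ => h fun i => Y i j

theorem OpLe.frob_le_mul {X : Matrix κ ν ℝ} {c : ℝ} (h : OpLe X c) (Y : Matrix ι κ ℝ) :
    frob (Y * X) ≤ c ^ 2 * frob Y := by
  rw [← frob_transpose (Y * X), transpose_mul, ← frob_transpose Y]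
  exact h.transpose.frob_mul_le _

/-- Schur test for even and odd powers `K ≥ 1`. -/
theorem schur_pow {X : Matrix ι κ ℝ} {r c : ℝ} (hr : 0 ≤ r) (hrow : ∀ i, ∑ j, |X i j| ≤ r)
    (hcol : ∀ j, ∑ i, |X i j| ≤ c) (K : ℕ) (v : κ → ℝ) :
    ∑ i, |(X *ᵥ v) i| ^ (K + 1) ≤ r ^ K * c * ∑ j, |v j| ^ (K + 1) := by
  have key : ∀ i, |(X *ᵥ v) i| ^ (K + 1) ≤ r ^ K * ∑ j, |X i j| * |v j| ^ (K + 1) := by
    intro i
    have h1 : |(X *ᵥ v) i| ≤ ∑ j, |X i j| * |v j| := by
      simp only [← abs_mul]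
      exact Finset.abs_sum_le_sum_abs _ _
    refine (pow_le_pow_left₀ (abs_nonneg _) h1 _).trans ?_
    set W := ∑ j, |X i j| with hW
    rcases (show 0 ≤ W from Finset.sum_nonneg fun j _ => abs_nonneg _).lt_or_eq with hW0 | hW0
    · have hJ := Real.pow_arith_mean_le_arith_mean_pow Finset.univ (fun j => |X i j| / W)
        (fun j => |v j|) (fun j _ => div_nonneg (abs_nonneg _) hW0.le)
        (by rw [← Finset.sum_div]; exact div_self hW0.ne') (fun j _ => abs_nonneg _) (K + 1)
      simp only [div_mul_eq_mul_div, ← Finset.sum_div] at hJ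
      rw [div_pow, div_le_div_iff₀ (pow_pos hW0 _) hW0] at hJ
      have h2 : (∑ j, |X i j| * |v j|) ^ (K + 1) * W
          ≤ W ^ K * (∑ j, |X i j| * |v j| ^ (K + 1)) * W := by
        refine hJ.trans (le_of_eq ?_)
        ring
      refine (le_of_mul_le_mul_right h2 hW0).trans ?_
      exact mul_le_mul_of_nonneg_right (pow_le_pow_left₀ hW0.le (hrow i) K)
        (Finset.sum_nonneg fun j _ => by positivity)
    · have h0 : ∀ j, |X i j| = 0 := fun j =>
        (Finset.sum_eq_zero_iff_of_nonneg fun j _ => abs_nonneg (X i j)).1 hW0.symm j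
          (Finset.mem_univ j)
      simp [h0]
  refine (Finset.sum_le_sum fun i _ => key i).trans ?_
  rw [← Finset.mul_sum, Finset.sum_comm, mul_assoc, Finset.mul_sum Finset.univ _ c]
  refine mul_le_mul_of_nonneg_left (Finset.sum_le_sum fun j _ => ?_) (pow_nonneg hr K)
  rw [← Finset.sum_mul]
  exact mul_le_mul_of_nonneg_right (hcol j) (by positivity)

/-- The Schur test. -/
theorem opLe_of_sums {X : Matrix ι κ ℝ} {r : ℝ} (hr : 0 ≤ r) (hrow : ∀ i, ∑ j, |X i j| ≤ r)
    (hcol : ∀ j, ∑ i, |X i j| ≤ r) : OpLe X r := fun v => by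
  have h := schur_pow hr hrow hcol 1 v
  simpa [nsq, sq_abs, sq r] using h

/-- The operator norm from the trace of an even power. -/
theorem opLe_of_trace [DecidableEq ι] {X : Matrix ι ι ℝ} (hX : Xᵀ = X) {b : ℝ}
    {m : ℕ} (hm : 1 ≤ m) (h : trace (X ^ (2 * m)) ≤ b ^ (2 * m)) : OpLe X b := fun v => by
  set a : ℕ → ℝ := fun i => nsq (X ^ i *ᵥ v) with ha
  have hsym : ∀ i, (X ^ i)ᵀ = X ^ i := fun i => by rw [transpose_pow, hX]
  have hcs : ∀ i, a (i + 1) ^ 2 ≤ a i * a (i + 2) := fun i => by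
    have e : a (i + 1) = (X ^ i *ᵥ v) ⬝ᵥ (X ^ (i + 2) *ᵥ v) := by
      simp only [ha, nsq_eq_dot]
      rw [pow_succ' X i, pow_succ' X (i + 1), pow_succ' X i, ← mulVec_mulVec, ← mulVec_mulVec,
        ← mulVec_mulVec, dotProduct_mulVec (X ^ i *ᵥ v) X (X *ᵥ (X ^ i *ᵥ v)), ← mulVec_transpose,
        hX]
    rw [e]
    exact dot_sq_le _ _
  have ha0 : ∀ i, 0 ≤ a i := fun i => nsq_nonneg _
  have hratio : ∀ i, a 1 * a i ≤ a 0 * a (i + 1) := by
    intro i
    induction i with
    | zero => exact le_of_eq (mul_comm _ _)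
    | succ i ih =>
      rcases (ha0 i).lt_or_eq with hi | hi
      · refine le_of_mul_le_mul_left ?_ hi
        calc a i * (a 1 * a (i + 1)) = a (i + 1) * (a 1 * a i) := by ring
          _ ≤ a (i + 1) * (a 0 * a (i + 1)) := mul_le_mul_of_nonneg_left ih (ha0 _)
          _ = a 0 * a (i + 1) ^ 2 := by ring
          _ ≤ a 0 * (a i * a (i + 2)) := mul_le_mul_of_nonneg_left (hcs i) (ha0 0)
          _ = a i * (a 0 * a (i + 1 + 1)) := by ring
      · have := hcs i
        rw [← hi, zero_mul] at this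
        have : a (i + 1) = 0 := pow_eq_zero_iff two_ne_zero |>.1 (le_antisymm this (sq_nonneg _))
        rw [this, mul_zero]
        exact mul_nonneg (ha0 _) (ha0 _)
  have hpow : ∀ i, a 1 ^ (i + 1) ≤ a 0 ^ i * a (i + 1) := by
    intro i
    induction i with
    | zero => simp
    | succ i ih =>
      calc a 1 ^ (i + 1 + 1) ≤ a 0 ^ i * a (i + 1) * a 1 := by
            rw [pow_succ]; exact mul_le_mul_of_nonneg_right ih (ha0 1)
        _ = a 0 ^ i * (a 1 * a (i + 1)) := by ring
        _ ≤ a 0 ^ i * (a 0 * a (i + 1 + 1)) :=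
            mul_le_mul_of_nonneg_left (hratio _) (pow_nonneg (ha0 0) i)
        _ = _ := by ring
  have htop : a m ≤ b ^ (2 * m) * a 0 := by
    refine (nsq_mulVec_le_frob _ v).trans ?_
    rw [frob_eq_trace, hsym, ← pow_add, ← two_mul, show a 0 = nsq v by simp [ha]]
    exact mul_le_mul_of_nonneg_right h (nsq_nonneg v)
  have h1 : a 1 ^ m ≤ (b ^ 2 * a 0) ^ m := by
    have := hpow (m - 1)
    rw [show m - 1 + 1 = m by omega] at this
    refine this.trans ?_
    rw [mul_pow, ← pow_mul]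
    calc a 0 ^ (m - 1) * a m ≤ a 0 ^ (m - 1) * (b ^ (2 * m) * a 0) :=
          mul_le_mul_of_nonneg_left htop (pow_nonneg (ha0 0) _)
      _ = b ^ (2 * m) * (a 0 ^ (m - 1) * a 0) := by ring
      _ = _ := by rw [← pow_succ, show m - 1 + 1 = m by omega]
  have := (pow_le_pow_iff_left₀ (ha0 1) (mul_nonneg (sq_nonneg b) (ha0 0)) (by omega)).1 h1
  simpa [ha] using this

/-- Interpolation: an operator bound `a` on `ℓ²` and `r` on `ℓ^∞` give the bound
`(4 a² (2r)^{2k-2})^{1/2k}` on `ℓ^{2k}`. -/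
theorem interp_pow {X : Matrix ι κ ℝ} {a r : ℝ} (hr : 0 ≤ r) (h2 : OpLe X a)
    (hrow : ∀ i, ∑ j, |X i j| ≤ r) (p : ℕ) (v : κ → ℝ) :
    ∑ i, |(X *ᵥ v) i| ^ (p + 2) ≤ 4 * a ^ 2 * (2 * r) ^ p * ∑ j, |v j| ^ (p + 2) := by
  classical
  set t : ι → ℝ := fun i => |(X *ᵥ v) i| with ht
  set x : κ → ℝ := fun j => 2 * r * |v j| with hx
  -- the part of `v` above a level carries the values of `X v` above it
  have hlevel : ∀ (S : Finset ι) (lam : ℝ), 0 ≤ lam → (∀ i ∈ S, lam ≤ t i) →
      ∑ i ∈ S, t i ^ 2 ≤ 4 * a ^ 2 * ∑ j, if lam < x j then v j ^ 2 else 0 := by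
    intro S lam hlam hS
    set w : κ → ℝ := fun j => if lam < x j then v j else 0 with hw
    have hsmall : ∀ i, |(X *ᵥ v) i - (X *ᵥ w) i| ≤ lam / 2 := by
      intro i
      rcases hr.lt_or_eq with hr0 | hr0
      · simp only [Matrix.mulVec, dotProduct, ← Finset.sum_sub_distrib, ← mul_sub]
        refine (Finset.abs_sum_le_sum_abs _ _).trans ?_
        calc ∑ j, |X i j * (v j - w j)| ≤ ∑ j, |X i j| * (lam / (2 * r)) := by
              refine Finset.sum_le_sum fun j _ => ?_
              rw [abs_mul]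
              refine mul_le_mul_of_nonneg_left ?_ (abs_nonneg _)
              simp only [hw]
              split_ifs with hj
              · rw [sub_self, abs_zero]; positivity
              · rw [sub_zero, le_div_iff₀ (by positivity)]
                have := not_lt.1 hj
                simp only [hx] at this
                linarith
          _ ≤ r * (lam / (2 * r)) := by
              rw [← Finset.sum_mul]
              exact mul_le_mul_of_nonneg_right (hrow i) (by positivity)
          _ = lam / 2 := by field_simp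
      · have h0 : ∀ j, X i j = 0 := fun j => by
          have := (Finset.single_le_sum (f := fun j => |X i j|) (fun j _ => abs_nonneg _)
            (Finset.mem_univ j)).trans (hrow i)
          simpa [← hr0] using this
        simpa [Matrix.mulVec, dotProduct, h0] using (show 0 ≤ lam / 2 by linarith)
    have hS' : ∀ i ∈ S, t i ^ 2 ≤ 4 * (X *ᵥ w) i ^ 2 := by
      intro i hi
      have h4 : |(X *ᵥ v) i| ≤ |(X *ᵥ w) i| + lam / 2 := by
        have := abs_sub_abs_le_abs_sub ((X *ᵥ v) i) ((X *ᵥ w) i)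
        linarith [hsmall i]
      have h5 := hS i hi
      simp only [ht] at h5 ⊢
      have h6 : |(X *ᵥ v) i| ≤ 2 * |(X *ᵥ w) i| := by linarith
      have := pow_le_pow_left₀ (abs_nonneg _) h6 2
      rwa [mul_pow, sq_abs ((X *ᵥ w) i), show (2 : ℝ) ^ 2 = 4 by norm_num] at this
    calc ∑ i ∈ S, t i ^ 2 ≤ ∑ i ∈ S, 4 * (X *ᵥ w) i ^ 2 := Finset.sum_le_sum hS'
      _ ≤ 4 * nsq (X *ᵥ w) := by
          rw [nsq, Finset.mul_sum]
          exact Finset.sum_le_univ_sum_of_nonneg fun i => by positivity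
      _ ≤ 4 * (a ^ 2 * nsq w) := mul_le_mul_of_nonneg_left (h2 w) (by norm_num)
      _ = _ := by
          rw [nsq, ← mul_assoc]
          congr 1
          refine Finset.sum_congr rfl fun j _ => ?_
          simp only [hw]
          split_ifs <;> simp
  have key : ∀ (N : ℕ) (S : Finset ι), S.card = N → ∀ b, 0 ≤ b → (∀ i ∈ S, b ≤ t i) →
      ∑ i ∈ S, (t i ^ p - b ^ p) * t i ^ 2
        ≤ 4 * a ^ 2 * ∑ j, v j ^ 2 * max 0 (x j ^ p - b ^ p) := by
    intro N
    induction N with
    | zero =>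
      intro S hS b _ _
      rw [Finset.card_eq_zero.1 hS, Finset.sum_empty]
      exact mul_nonneg (by positivity)
        (Finset.sum_nonneg fun j _ => mul_nonneg (sq_nonneg _) (le_max_left _ _))
    | succ N ih =>
      intro S hS b hb hSb
      obtain ⟨i0, hi0, hmin⟩ := Finset.exists_min_image S t (Finset.card_pos.1 (by omega))
      set lam := t i0
      have hblam : b ≤ lam := hSb i0 hi0
      have h1 := ih (S.erase i0) (by rw [Finset.card_erase_of_mem hi0, hS]; rfl) lam
        (hb.trans hblam) fun i hi => hmin i (Finset.mem_of_mem_erase hi)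
      rw [Finset.sum_erase (f := fun i => (t i ^ p - lam ^ p) * t i ^ 2) S (show (t i0 ^ p - lam ^ p) * t i0 ^ 2 = 0 by simp [lam])] at h1
      have h3 := mul_le_mul_of_nonneg_left (hlevel S lam (hb.trans hblam) hmin)
        (sub_nonneg.2 (pow_le_pow_left₀ hb hblam p))
      have h4 : ∑ j, (v j ^ 2 * max 0 (x j ^ p - lam ^ p)
          + (lam ^ p - b ^ p) * if lam < x j then v j ^ 2 else 0)
          ≤ ∑ j, v j ^ 2 * max 0 (x j ^ p - b ^ p) := by
        refine Finset.sum_le_sum fun j _ => ?_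
        have hx0 : 0 ≤ x j := by positivity
        have hp := pow_le_pow_left₀ hb hblam p
        split_ifs with hj
        · have := pow_le_pow_left₀ (hb.trans hblam) hj.le p
          rw [max_eq_right (by linarith), max_eq_right (by linarith)]
          linarith
        · rw [mul_zero, add_zero]
          exact mul_le_mul_of_nonneg_left (max_le_max_left 0 (by linarith)) (sq_nonneg _)
      have h5 : ∑ i ∈ S, (t i ^ p - b ^ p) * t i ^ 2
          = ∑ i ∈ S, (t i ^ p - lam ^ p) * t i ^ 2 + (lam ^ p - b ^ p) * ∑ i ∈ S, t i ^ 2 := by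
        rw [Finset.mul_sum, ← Finset.sum_add_distrib]
        exact Finset.sum_congr rfl fun i _ => by ring
      rw [Finset.sum_add_distrib, ← Finset.mul_sum] at h4
      have h6 := mul_le_mul_of_nonneg_left h4 (show 0 ≤ 4 * a ^ 2 by positivity)
      rw [h5]
      linarith
  rcases Nat.eq_zero_or_pos p with rfl | hp
  · have h0 := h2 v
    simp only [nsq] at h0
    simp only [zero_add, sq_abs, pow_zero, mul_one]
    nlinarith [Finset.sum_nonneg (s := Finset.univ) fun j (_ : j ∈ Finset.univ) => sq_nonneg (v j),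
      sq_nonneg a]
  · have h := key _ Finset.univ rfl 0 le_rfl fun i _ => abs_nonneg _
    simp only [zero_pow hp.ne', sub_zero] at h
    simp only [pow_add]
    refine h.trans (le_of_eq ?_)
    rw [mul_assoc _ ((2 * r) ^ p), Finset.mul_sum ((Finset.univ : Finset κ)) _ ((2 * r) ^ p)]
    congr 1
    refine Finset.sum_congr rfl fun j _ => ?_
    rw [max_eq_right (by positivity), hx, mul_pow (2 * r) |v j| p, sq_abs]
    ring

end

end P046
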