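import Vale.Agent.P046.Full.Dev
import Vale.Agent.P046.Full.Tools

/-!
P046, part I: the deterministic drift of the potential on a regular state, and the bound of the
links on the deviations in the even power norms.
-/

namespace P046.Full

open Finset Matrix

variable {n : ℕ} {W : Finset (Finset (Fin n))}

namespace DriftAux

theorem young_pow {x y : ℝ} (hx : 0 ≤ x) (hy : 0 ≤ y) (m : ℕ) :
    ((m : ℝ) + 1) * x ^ m * y ≤ m * x ^ (m + 1) + y ^ (m + 1) := by
  induction m with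
  | zero => simp
  | succ m ih =>
    have h1 := mul_le_mul_of_nonneg_left ih hx
    have h2 : 0 ≤ (x ^ (m + 1) - y ^ (m + 1)) * (x - y) := by
      rcases le_total x y with h | h
      · have := pow_le_pow_left₀ hx h (m + 1)
        exact mul_nonneg_of_nonpos_of_nonpos (by linarith) (by linarith)
      · have := pow_le_pow_left₀ hy h (m + 1)
        exact mul_nonneg (by linarith) (by linarith)
    calc (((m + 1 : ℕ) : ℝ) + 1) * x ^ (m + 1) * y
        = x * (((m : ℝ) + 1) * x ^ m * y) + x ^ (m + 1) * y := by push_cast; ring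
      _ ≤ x * ((m : ℝ) * x ^ (m + 1) + y ^ (m + 1)) + x ^ (m + 1) * y := by linarith
      _ ≤ x * ((m : ℝ) * x ^ (m + 1) + y ^ (m + 1)) + x ^ (m + 1) * y
          + (x ^ (m + 1) - y ^ (m + 1)) * (x - y) := by linarith
      _ = ((m + 1 : ℕ) : ℝ) * x ^ (m + 1 + 1) + y ^ (m + 1 + 1) := by push_cast; ring

/-- The product of a `K - 1` power and a first power, with the weight `κ⁻¹ ^ K`. -/
theorem young_w {κ : ℝ} (hκ : 0 < κ) {m : ℕ} (F G : ℝ) :
    |F| ^ m * |G| ≤ κ * (|F| ^ (m + 1) + (κ ^ (m + 1))⁻¹ * |G| ^ (m + 1)) := by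
  have h := young_pow (mul_nonneg hκ.le (abs_nonneg F)) (abs_nonneg G) m
  rw [mul_pow, mul_pow] at h
  have hm : (m : ℝ) ≤ (m : ℝ) + 1 := by linarith
  have h1 : ((m : ℝ) + 1) * (κ ^ m * |F| ^ m) * |G|
      ≤ ((m : ℝ) + 1) * (κ ^ (m + 1) * |F| ^ (m + 1) + |G| ^ (m + 1)) := by
    refine h.trans ?_
    have h2 : 0 ≤ κ ^ (m + 1) * |F| ^ (m + 1) := by positivity
    have h3 : 0 ≤ (m : ℝ) * |G| ^ (m + 1) := by positivity
    linarith
  rw [mul_assoc] at h1
  have h4 := le_of_mul_le_mul_left h1 (by positivity)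
  rw [show κ * (|F| ^ (m + 1) + (κ ^ (m + 1))⁻¹ * |G| ^ (m + 1))
      = (κ ^ (m + 1) * |F| ^ (m + 1) + |G| ^ (m + 1)) / κ ^ m by
        rw [pow_succ κ m]; field_simp]
  rw [le_div_iff₀ (pow_pos hκ m)]
  linarith

/-- The same for a signed odd power. -/
theorem young_signed {κ : ℝ} (hκ : 0 < κ) {m : ℕ} (F G : ℝ) :
    |F ^ m * G| ≤ κ * (|F| ^ (m + 1) + (κ ^ (m + 1))⁻¹ * |G| ^ (m + 1)) := by
  rw [abs_mul, abs_pow]
  exact young_w hκ F G

theorem le_young {κ c : ℝ} (hκ : 0 < κ) {m : ℕ} (F G H : ℝ) (hH : |H| ≤ c * |G|) (hc : 0 ≤ c) :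
    |F ^ m * H| ≤ c * (κ * (|F| ^ (m + 1) + (κ ^ (m + 1))⁻¹ * |G| ^ (m + 1))) := by
  rw [abs_mul, abs_pow]
  calc |F| ^ m * |H| ≤ |F| ^ m * (c * |G|) :=
        mul_le_mul_of_nonneg_left hH (by positivity)
    _ = c * (|F| ^ m * |G|) := by ring
    _ ≤ _ := mul_le_mul_of_nonneg_left (young_w hκ F G) hc

theorem sum_adj_left (f : Fin n → ℝ) :
    ∑ x, ∑ y, adj W x y * f x = ∑ x, dg W x * f x := by
  simp only [dg, Finset.sum_mul]

theorem sum_adj_right (f : Fin n → ℝ) :
    ∑ x, ∑ y, adj W x y * f y = ∑ x, dg W x * f x := by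
  rw [Finset.sum_comm]
  simp only [adj_symm W _, dg, Finset.sum_mul]

theorem dev_supp {x y : Fin n} (h : adj W x y = 0) : dev W x y = 0 := by
  simp [dev, h]

theorem dg_mul_vdev (x : Fin n) : dg W x * vdev W x = ∑ y, dev W x y := by
  rcases eq_or_ne (dg W x) 0 with h | h
  · rw [h, zero_mul]
    refine (Finset.sum_eq_zero fun y _ => dev_supp ?_).symm
    exact (Finset.sum_eq_zero_iff_of_nonneg fun y _ => adj_nonneg W x y).1 h y (Finset.mem_univ y)
  · rw [vdev, mul_div_cancel₀ _ h]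

/-- The size of the potential in the notation of this file. -/
noncomputable def size (W : Finset (Finset (Fin n))) (m : ℕ) (w : ℝ) : ℝ :=
  ∑ x, ∑ y, dev W x y ^ (m + 1) + ∑ x, adev W x ^ (m + 1)
    + w * ∑ x, dg W x * vdev W x ^ (m + 1) + w ^ 2 * ((W.card : ℝ) * mdev W ^ (m + 1))

theorem rlink_split {x y : Fin n} (h : adj W x y = 1) :
    ∑ z, adj W x z * adj W y z * (dev W x z + dev W y z)
      = (∑ z, link W x y z * dev W x z) + (∑ z, link W y x z * dev W y z)
        + dens W * dg W x * vdev W x + dens W * dg W y * vdev W y := by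
  have hyx : adj W y x = 1 := by rw [adj_symm, h]
  have h1 := link_split h (dev W x) fun z hz => dev_supp hz
  have h2 := link_split hyx (dev W y) fun z hz => dev_supp hz
  rw [mul_assoc, mul_assoc, dg_mul_vdev, dg_mul_vdev]
  have e : ∑ z, adj W x z * adj W y z * (dev W x z + dev W y z)
      = (∑ z, adj W x z * adj W y z * dev W x z) + ∑ z, adj W y z * adj W x z * dev W y z := by
    rw [← Finset.sum_add_distrib]
    exact Finset.sum_congr rfl fun z _ => by ring
  rw [e, h1, h2]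
  ring

/-- The hypotheses of the estimate. -/
structure Hyp (W : Finset (Finset (Fin n))) (η κ : ℝ) (m : ℕ) : Prop where
  even : Even (m + 1)
  sub : W ⊆ allPairs n
  upos : 0 < uexp W
  eta0 : 0 ≤ η
  eta_le : η ≤ 1 / 20
  kap_pos : 0 < κ
  kap_le : κ ≤ 1
  dev_le : ∀ x y, |dev W x y| ≤ η
  adev_le : ∀ x, |adev W x| ≤ η
  vdev_le : ∀ x, |vdev W x| ≤ η
  mdev_le : |mdev W| ≤ η
  qfac_le : ∀ x, |dens W * dg W x - uexp W| ≤ 2 * η * uexp W
  dg_ge : ∀ x, 1 ≤ dg W x
  small : η * ((κ ^ (m + 1))⁻¹) ^ 2 ≤ κ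
  links : ∑ x, ∑ y, ((∑ z, link W x y z * dev W x z) / uexp W) ^ (m + 1)
      ≤ κ ^ (2 * (m + 1)) * ∑ x, ∑ y, dev W x y ^ (m + 1)

variable {η κ : ℝ} {m : ℕ}

theorem drift_edge (H : Hyp W η κ m) :
    ∑ x, ∑ y, dev W x y ^ m * (2 * mdev W * cd W x y
          - ∑ z, adj W x z * adj W y z * (dev W x z + dev W y z))
      ≤ 11 * κ * uexp W * size W m ((κ ^ (m + 1))⁻¹) := by
  obtain ⟨hm, hW, hu, hη0, hη, hκ0, hκ1, hd, ha, hv, hμ, hq, hD, hηw, hR⟩ := H
  have hm0 : m ≠ 0 := by rintro rfl; exact absurd hm (by decide)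
  have hp : ∀ t : ℝ, t ^ (m + 1) = |t| ^ (m + 1) := fun t => (hm.pow_abs t).symm
  set w := (κ ^ (m + 1))⁻¹ with hw
  have hw1 : 1 ≤ w := one_le_inv₀ (pow_pos hκ0 _) |>.2 (pow_le_one₀ hκ0.le hκ1)
  have hηκ : η ≤ κ := le_trans (le_mul_of_one_le_right hη0 (one_le_pow₀ hw1)) hηw
  have hηwκ : η * w ≤ κ := le_trans
    (mul_le_mul_of_nonneg_left (le_self_pow₀ hw1 two_ne_zero) hη0) hηw
  set u := uexp W with hu_def
  set μ := mdev W
  set S := ∑ x, ∑ y, dev W x y ^ (m + 1) with hS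
  set A := ∑ x, adev W x ^ (m + 1) with hA
  set V := ∑ x, dg W x * vdev W x ^ (m + 1) with hV
  set M := μ ^ (m + 1) with hM
  set E := (W.card : ℝ) with hE
  have hS0 : 0 ≤ S := Finset.sum_nonneg fun x _ => Finset.sum_nonneg fun y _ => hm.pow_nonneg _
  have hA0 : 0 ≤ A := Finset.sum_nonneg fun x _ => hm.pow_nonneg _
  have hV0 : 0 ≤ V := Finset.sum_nonneg fun x _ =>
    mul_nonneg (dg_nonneg W x) (hm.pow_nonneg _)
  have hM0 : 0 ≤ M := hm.pow_nonneg _
  have hE0 : 0 ≤ E := Nat.cast_nonneg _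
  have hPdef : size W m w = S + A + w * V + w ^ 2 * (E * M) := rfl
  have hwV : 0 ≤ w * V := mul_nonneg (by linarith) hV0
  have hEM : w * (E * M) ≤ w ^ 2 * (E * M) :=
    mul_le_mul_of_nonneg_right (le_self_pow₀ hw1 two_ne_zero) (mul_nonneg hE0 hM0)
  have hEM0 : 0 ≤ w ^ 2 * (E * M) := mul_nonneg (sq_nonneg _) (mul_nonneg hE0 hM0)
  set P := size W m w
  have hdg : ∑ x, dg W x = 2 * E := sum_dg hW
  have hsa : ∑ x, ∑ y, adj W x y * M = 2 * E * M := by
    rw [sum_adj_left (fun _ => M), ← Finset.sum_mul, hdg]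
  have hsl : ∑ x, ∑ y, adj W x y * vdev W x ^ (m + 1) = V :=
    sum_adj_left (fun x => vdev W x ^ (m + 1))
  have hsr : ∑ x, ∑ y, adj W x y * vdev W y ^ (m + 1) = V :=
    sum_adj_right (fun x => vdev W x ^ (m + 1))
  set r : Fin n → Fin n → ℝ := fun x y => ∑ z, link W x y z * dev W x z with hr
  have hR' : ∑ x, ∑ y, (r y x / u) ^ (m + 1) ≤ κ ^ (2 * (m + 1)) * S := by
    rw [Finset.sum_comm]; exact hR
  have hwR : w * (κ ^ (2 * (m + 1)) * S) = κ ^ (m + 1) * S := by
    rw [hw, two_mul, pow_add]; field_simp; ring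
  have hκS : κ ^ (m + 1) * S ≤ S := mul_le_of_le_one_left hS0 (pow_le_one₀ hκ0.le hκ1)
  have hwR1 : w * ∑ x, ∑ y, (r x y / u) ^ (m + 1) ≤ S :=
    le_trans (le_of_le_of_eq (mul_le_mul_of_nonneg_left hR (by linarith)) hwR) hκS
  have hwR2 : w * ∑ x, ∑ y, (r y x / u) ^ (m + 1) ≤ S :=
    le_trans (le_of_le_of_eq (mul_le_mul_of_nonneg_left hR' (by linarith)) hwR) hκS
  have hw2R1 : w * (w * ∑ x, ∑ y, (r x y / u) ^ (m + 1)) ≤ S := by
    refine le_of_le_of_eq (mul_le_mul_of_nonneg_left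
      (le_of_le_of_eq (mul_le_mul_of_nonneg_left hR (by linarith)) hwR) (by linarith)) ?_
    rw [hw]; field_simp
  have hw2R2 : w * (w * ∑ x, ∑ y, (r y x / u) ^ (m + 1)) ≤ S := by
    refine le_of_le_of_eq (mul_le_mul_of_nonneg_left
      (le_of_le_of_eq (mul_le_mul_of_nonneg_left hR' (by linarith)) hwR) (by linarith)) ?_
    rw [hw]; field_simp
  have hqv : ∀ v t, |dens W * dg W v * t| ≤ 11 / 10 * u * |t| := fun v t => by
    rw [abs_mul]
    refine mul_le_mul_of_nonneg_right ?_ (abs_nonneg t)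
    have := abs_le.1 (hq v)
    have := mul_le_mul_of_nonneg_right hη hu.le
    rw [abs_le]; constructor <;> linarith
  have key1 : ∀ x y, dev W x y ^ m * (2 * μ * cd W x y
      - ∑ z, adj W x z * adj W y z * (dev W x z + dev W y z))
      ≤ u * (κ * (63 / 10 * dev W x y ^ (m + 1)
        + w * (21 / 10 * (adj W x y * M) + 11 / 10 * (adj W x y * vdev W x ^ (m + 1))
          + 11 / 10 * (adj W x y * vdev W y ^ (m + 1))
          + (r x y / u) ^ (m + 1) + (r y x / u) ^ (m + 1)))) := by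
    intro x y
    rcases adj_cases W x y with h | h
    · rw [dev_supp h, zero_pow hm0, zero_mul]
      have := hm.pow_nonneg (r x y / u)
      have := hm.pow_nonneg (r y x / u)
      rw [h]
      simp only [zero_mul, mul_zero, zero_pow (Nat.succ_ne_zero m), add_zero, zero_add]
      positivity
    · rw [rlink_split h, h]
      have hcd : cd W x y ≤ 21 / 20 * u := by
        have := abs_le.1 (hd x y)
        rw [dev, h, one_mul] at this
        have h1 : cd W x y / u ≤ 21 / 20 := by linarith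
        rwa [div_le_iff₀ hu] at h1
      have hc := le_young (m := m) (c := 21 / 10 * u) hκ0 (dev W x y) μ (2 * μ * cd W x y) (by
        rw [abs_mul, abs_mul, abs_two, abs_of_nonneg (cd_nonneg W x y)]
        calc 2 * |μ| * cd W x y ≤ 2 * |μ| * (21 / 20 * u) :=
              mul_le_mul_of_nonneg_left hcd (by positivity)
          _ = _ := by ring) (by positivity)
      have hvx := le_young (m := m) (c := 11 / 10 * u) hκ0 (dev W x y) (vdev W x)
        (dens W * dg W x * vdev W x) (hqv x _) (by positivity)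
      have hvy := le_young (m := m) (c := 11 / 10 * u) hκ0 (dev W x y) (vdev W y)
        (dens W * dg W y * vdev W y) (hqv y _) (by positivity)
      have hrr : ∀ t, |t| ≤ u * |t / u| := fun t => by
        rw [abs_div, abs_of_pos hu, mul_div_cancel₀ _ hu.ne']
      have hrx := le_young (m := m) (c := u) hκ0 (dev W x y) (r x y / u) (r x y) (hrr _) hu.le
      have hry := le_young (m := m) (c := u) hκ0 (dev W x y) (r y x / u) (r y x) (hrr _) hu.le
      rw [← hw, ← hp, ← hp] at hc hvx hvy hrx hry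
      rw [abs_le] at hc hvx hvy hrx hry
      simp only [one_mul]
      change dev W x y ^ m * (2 * μ * cd W x y
        - (r x y + r y x + dens W * dg W x * vdev W x + dens W * dg W y * vdev W y)) ≤ _
      linarith [hc.2, hvx.1, hvy.1, hrx.1, hry.1]
  refine (Finset.sum_le_sum fun x _ => Finset.sum_le_sum fun y _ => key1 x y).trans ?_
  simp only [Finset.sum_add_distrib, ← Finset.mul_sum, ← hS, hsl, hsr, hsa]
  have h1 : 63 / 10 * S + w * (21 / 10 * (2 * E * M) + 11 / 10 * V + 11 / 10 * V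
      + ∑ x, ∑ y, (r x y / u) ^ (m + 1) + ∑ x, ∑ y, (r y x / u) ^ (m + 1)) ≤ 11 * P := by
    rw [hPdef]; linarith
  have := mul_le_mul_of_nonneg_left h1 (mul_nonneg hu.le hκ0.le)
  linarith

theorem drift_deg (H : Hyp W η κ m) :
    ∑ x, adev W x ^ m * (uexp W * (1 + adev W x) * (mdev W - vdev W x))
      ≤ 5 * κ * uexp W * size W m ((κ ^ (m + 1))⁻¹) := by
  obtain ⟨hm, hW, hu, hη0, hη, hκ0, hκ1, hd, ha, hv, hμ, hq, hD, hηw, hR⟩ := H
  have hm0 : m ≠ 0 := by rintro rfl; exact absurd hm (by decide)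
  have hp : ∀ t : ℝ, t ^ (m + 1) = |t| ^ (m + 1) := fun t => (hm.pow_abs t).symm
  set w := (κ ^ (m + 1))⁻¹ with hw
  have hw1 : 1 ≤ w := one_le_inv₀ (pow_pos hκ0 _) |>.2 (pow_le_one₀ hκ0.le hκ1)
  have hηκ : η ≤ κ := le_trans (le_mul_of_one_le_right hη0 (one_le_pow₀ hw1)) hηw
  have hηwκ : η * w ≤ κ := le_trans
    (mul_le_mul_of_nonneg_left (le_self_pow₀ hw1 two_ne_zero) hη0) hηw
  set u := uexp W with hu_def
  set μ := mdev W
  set S := ∑ x, ∑ y, dev W x y ^ (m + 1) with hS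
  set A := ∑ x, adev W x ^ (m + 1) with hA
  set V := ∑ x, dg W x * vdev W x ^ (m + 1) with hV
  set M := μ ^ (m + 1) with hM
  set E := (W.card : ℝ) with hE
  have hS0 : 0 ≤ S := Finset.sum_nonneg fun x _ => Finset.sum_nonneg fun y _ => hm.pow_nonneg _
  have hA0 : 0 ≤ A := Finset.sum_nonneg fun x _ => hm.pow_nonneg _
  have hV0 : 0 ≤ V := Finset.sum_nonneg fun x _ =>
    mul_nonneg (dg_nonneg W x) (hm.pow_nonneg _)
  have hM0 : 0 ≤ M := hm.pow_nonneg _
  have hE0 : 0 ≤ E := Nat.cast_nonneg _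
  have hPdef : size W m w = S + A + w * V + w ^ 2 * (E * M) := rfl
  have hwV : 0 ≤ w * V := mul_nonneg (by linarith) hV0
  have hEM : w * (E * M) ≤ w ^ 2 * (E * M) :=
    mul_le_mul_of_nonneg_right (le_self_pow₀ hw1 two_ne_zero) (mul_nonneg hE0 hM0)
  have hEM0 : 0 ≤ w ^ 2 * (E * M) := mul_nonneg (sq_nonneg _) (mul_nonneg hE0 hM0)
  set P := size W m w
  have hdg : ∑ x, dg W x = 2 * E := sum_dg hW
  have key2 : ∀ x, adev W x ^ m * (u * (1 + adev W x) * (μ - vdev W x))
      ≤ u * (κ * (21 / 10 * adev W x ^ (m + 1) + 21 / 20 * (w * (dg W x * M))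
        + 21 / 20 * (w * (dg W x * vdev W x ^ (m + 1))))) := by
    intro x
    have h1 : |u * (1 + adev W x)| ≤ 21 / 20 * u := by
      rw [abs_mul, abs_of_pos hu, mul_comm]
      refine mul_le_mul_of_nonneg_right ?_ hu.le
      have := abs_le.1 (ha x)
      rw [abs_le]; constructor <;> linarith
    have hH : ∀ t, |u * (1 + adev W x) * t| ≤ 21 / 20 * u * |t| := fun t => by
      rw [abs_mul]; exact mul_le_mul_of_nonneg_right h1 (abs_nonneg _)
    have a1 := (abs_le.1 (le_young (m := m) hκ0 (adev W x) μ _ (hH μ) (by positivity))).2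
    have a2 := (abs_le.1 (le_young (m := m) hκ0 (adev W x) (vdev W x) _ (hH (vdev W x))
      (by positivity))).1
    rw [← hw, ← hp, ← hp] at a1 a2
    have hc : 0 ≤ 21 / 20 * u * κ * w := by positivity
    have b1 := mul_le_mul_of_nonneg_left (le_mul_of_one_le_left hM0 (hD x)) hc
    have b2 := mul_le_mul_of_nonneg_left
      (le_mul_of_one_le_left (hm.pow_nonneg (vdev W x)) (hD x)) hc
    rw [← hM] at a1
    linarith
  refine (Finset.sum_le_sum fun x _ => key2 x).trans ?_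
  simp only [Finset.sum_add_distrib, ← Finset.mul_sum, ← hA, ← hV, ← Finset.sum_mul, hdg]
  have h1 : 21 / 10 * A + 21 / 20 * (w * (2 * E * M)) + 21 / 20 * (w * V) ≤ 5 * P := by
    rw [hPdef]; linarith
  have := mul_le_mul_of_nonneg_left h1 (mul_nonneg hu.le hκ0.le)
  linarith

theorem drift_mean_point (H : Hyp W η κ m) (x y : Fin n) :
    adj W x y * (vdev W x ^ m * (uexp W * (2 * mdev W * (1 + vdev W x) + vdev W x ^ 2)))
      - vdev W x ^ m * (uexp W * dev W x y ^ 2)
      - adj W x y * (vdev W x ^ m * ∑ z, adj W x z * adj W y z * (dev W x z + dev W y z))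
      ≤ uexp W * (21 / 10 * κ * ((κ ^ (m + 1))⁻¹ * (adj W x y * mdev W ^ (m + 1)))
          + (41 / 10 * κ + 4 * η) * (adj W x y * vdev W x ^ (m + 1))
          + η * (adj W x y * vdev W x ^ (m + 1) + dev W x y ^ (m + 1))
          + (1 + 2 * η) * ((1 / ((m : ℝ) + 1)) * (adj W x y * vdev W y ^ (m + 1)
            - adj W x y * vdev W x ^ (m + 1)))
          + κ * ((κ ^ (m + 1))⁻¹ * (((∑ z, link W x y z * dev W x z) / uexp W) ^ (m + 1) + ((∑ z, link W y x z * dev W y z) / uexp W) ^ (m + 1)))) + uexp W * η * (adj W x y * vdev W x ^ (m + 1)) := by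
  obtain ⟨hm, hW, hu, hη0, hη, hκ0, hκ1, hd, ha, hv, hμ, hq, hD, hηw, hR⟩ := H
  have hm0 : m ≠ 0 := by rintro rfl; exact absurd hm (by decide)
  have hp : ∀ t : ℝ, t ^ (m + 1) = |t| ^ (m + 1) := fun t => (hm.pow_abs t).symm
  set w := (κ ^ (m + 1))⁻¹ with hw
  have hw1 : 1 ≤ w := one_le_inv₀ (pow_pos hκ0 _) |>.2 (pow_le_one₀ hκ0.le hκ1)
  have hηκ : η ≤ κ := le_trans (le_mul_of_one_le_right hη0 (one_le_pow₀ hw1)) hηw
  have hηwκ : η * w ≤ κ := le_trans
    (mul_le_mul_of_nonneg_left (le_self_pow₀ hw1 two_ne_zero) hη0) hηw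
  set u := uexp W with hu_def
  set μ := mdev W
  set S := ∑ x, ∑ y, dev W x y ^ (m + 1) with hS
  set A := ∑ x, adev W x ^ (m + 1) with hA
  set V := ∑ x, dg W x * vdev W x ^ (m + 1) with hV
  set M := μ ^ (m + 1) with hM
  set E := (W.card : ℝ) with hE
  have hS0 : 0 ≤ S := Finset.sum_nonneg fun x _ => Finset.sum_nonneg fun y _ => hm.pow_nonneg _
  have hA0 : 0 ≤ A := Finset.sum_nonneg fun x _ => hm.pow_nonneg _
  have hV0 : 0 ≤ V := Finset.sum_nonneg fun x _ =>
    mul_nonneg (dg_nonneg W x) (hm.pow_nonneg _)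
  have hM0 : 0 ≤ M := hm.pow_nonneg _
  have hE0 : 0 ≤ E := Nat.cast_nonneg _
  have hPdef : size W m w = S + A + w * V + w ^ 2 * (E * M) := rfl
  have hwV : 0 ≤ w * V := mul_nonneg (by linarith) hV0
  have hEM : w * (E * M) ≤ w ^ 2 * (E * M) :=
    mul_le_mul_of_nonneg_right (le_self_pow₀ hw1 two_ne_zero) (mul_nonneg hE0 hM0)
  have hEM0 : 0 ≤ w ^ 2 * (E * M) := mul_nonneg (sq_nonneg _) (mul_nonneg hE0 hM0)
  set P := size W m w
  set r : Fin n → Fin n → ℝ := fun x y => ∑ z, link W x y z * dev W x z with hr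
  change adj W x y * (vdev W x ^ m * (u * (2 * μ * (1 + vdev W x) + vdev W x ^ 2)))
      - vdev W x ^ m * (u * dev W x y ^ 2)
      - adj W x y * (vdev W x ^ m * ∑ z, adj W x z * adj W y z * (dev W x z + dev W y z))
      ≤ u * (21 / 10 * κ * (w * (adj W x y * M))
          + (41 / 10 * κ + 4 * η) * (adj W x y * vdev W x ^ (m + 1))
          + η * (adj W x y * vdev W x ^ (m + 1) + dev W x y ^ (m + 1))
          + (1 + 2 * η) * ((1 / ((m : ℝ) + 1)) * (adj W x y * vdev W y ^ (m + 1)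
            - adj W x y * vdev W x ^ (m + 1)))
          + κ * (w * ((r x y / u) ^ (m + 1) + (r y x / u) ^ (m + 1)))) + u * η * (adj W x y * vdev W x ^ (m + 1))
  set v := vdev W x with hv_def
  rcases adj_cases W x y with h | h
  · rw [h, dev_supp h]
    have := hm.pow_nonneg (r x y / u)
    have := hm.pow_nonneg (r y x / u)
    simp only [zero_mul, mul_zero, zero_pow two_ne_zero, zero_pow (Nat.succ_ne_zero m), sub_self,
      add_zero, zero_add]
    positivity
  · rw [rlink_split h, h]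
    simp only [one_mul]
    have hva := abs_le.1 (hv x)
    have hc := (abs_le.1 (le_young (m := m) (c := 21 / 10 * u) hκ0 v μ (u * (2 * μ * (1 + v))) (by
      rw [abs_mul, abs_mul, abs_mul, abs_two, abs_of_pos hu,
        abs_of_nonneg (show (0 : ℝ) ≤ 1 + v by linarith)]
      calc u * (2 * |μ| * (1 + v)) ≤ u * (2 * |μ| * (21 / 20)) :=
            mul_le_mul_of_nonneg_left (mul_le_mul_of_nonneg_left (by linarith) (by positivity))
              hu.le
        _ = _ := by ring) (by positivity))).2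
    have hrr : ∀ t, |t| ≤ u * |t / u| := fun t => by
      rw [abs_div, abs_of_pos hu, mul_div_cancel₀ _ hu.ne']
    have hrx := (abs_le.1 (le_young (m := m) (c := u) hκ0 v (r x y / u) (r x y) (hrr _) hu.le)).1
    have hry := (abs_le.1 (le_young (m := m) (c := u) hκ0 v (r y x / u) (r y x) (hrr _) hu.le)).1
    rw [← hw, ← hp, ← hp] at hc hrx hry
    have e1 : v ^ (m + 1) = v ^ m * v := pow_succ v m
    -- the square
    have hsq : v ^ m * v ^ 2 ≤ η * v ^ (m + 1) := by
      calc v ^ m * v ^ 2 = v ^ (m + 1) * v := by ring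
        _ ≤ v ^ (m + 1) * η := mul_le_mul_of_nonneg_left hva.2 (hm.pow_nonneg v)
        _ = _ := mul_comm _ _
    -- the variance
    have hyd := young_pow (abs_nonneg v) (abs_nonneg (dev W x y)) m
    rw [← hp, ← hp] at hyd
    have hvar : -(v ^ m * dev W x y ^ 2) ≤ η * (v ^ (m + 1) + dev W x y ^ (m + 1)) := by
      refine (neg_le_abs _).trans ?_
      rw [abs_mul, abs_pow, abs_pow, sq, ← mul_assoc]
      have h1 := mul_le_mul_of_nonneg_left (hd x y)
        (show (0 : ℝ) ≤ |v| ^ m * |dev W x y| by positivity)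
      have h2 : |v| ^ m * |dev W x y| ≤ v ^ (m + 1) + dev W x y ^ (m + 1) := by
        refine le_of_mul_le_mul_left ?_ (show (0 : ℝ) < (m : ℝ) + 1 by positivity)
        have := mul_nonneg (Nat.cast_nonneg (α := ℝ) m) (hm.pow_nonneg (dev W x y))
        have := hm.pow_nonneg v
        linarith
      have h3 := mul_le_mul_of_nonneg_left h2 hη0
      linarith
    -- the averaging
    have hqx : -(v ^ m * (dens W * dg W x * v)) ≤ -((1 - 2 * η) * u * v ^ (m + 1)) := by
      rw [show v ^ m * (dens W * dg W x * v) = dens W * dg W x * v ^ (m + 1) by ring]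
      refine neg_le_neg (mul_le_mul_of_nonneg_right ?_ (hm.pow_nonneg v))
      linarith [(abs_le.1 (hq x)).1]
    have hqy : -(v ^ m * (dens W * dg W y * vdev W y))
        ≤ (1 + 2 * η) * u * ((1 / ((m : ℝ) + 1)) * (vdev W y ^ (m + 1) - v ^ (m + 1))
          + v ^ (m + 1)) := by
      refine (neg_le_abs _).trans ?_
      have hb : |dens W * dg W y| ≤ (1 + 2 * η) * u := by
        have := abs_le.1 (hq y)
        have := mul_le_mul_of_nonneg_right hη hu.le
        rw [abs_le]; constructor <;> linarith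
      have hyy := young_pow (abs_nonneg v) (abs_nonneg (vdev W y)) m
      rw [← hp, ← hp] at hyy
      rw [abs_mul, abs_pow, abs_mul (dens W * dg W y), ← mul_assoc, mul_comm (|v| ^ m),
        mul_assoc]
      refine mul_le_mul hb ?_ (by positivity) (by positivity)
      refine le_of_mul_le_mul_left ?_ (show (0 : ℝ) < (m : ℝ) + 1 by positivity)
      rw [mul_add ((m : ℝ) + 1), ← mul_assoc ((m : ℝ) + 1) (1 / _), mul_one_div_cancel
        (by positivity), one_mul]
      linarith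
    rw [← hM] at hc
    have f1 := mul_le_mul_of_nonneg_left hsq hu.le
    have f2 := mul_le_mul_of_nonneg_left hvar hu.le
    change v ^ m * (u * (2 * μ * (1 + v) + v ^ 2)) - v ^ m * (u * dev W x y ^ 2)
      - v ^ m * (r x y + r y x + dens W * dg W x * v + dens W * dg W y * vdev W y) ≤ _
    linarith

theorem drift_mean (H : Hyp W η κ m) :
    (κ ^ (m + 1))⁻¹ * ∑ x, dg W x * (vdev W x ^ m
          * (uexp W * (2 * mdev W * (1 + vdev W x) + vdev W x ^ 2
              - (∑ y, dev W x y ^ 2) / dg W x)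
            - (∑ y, adj W x y * ∑ z, adj W x z * adj W y z * (dev W x z + dev W y z)) / dg W x))
      ≤ 14 * κ * uexp W * size W m ((κ ^ (m + 1))⁻¹) := by
  have key3 := drift_mean_point H
  obtain ⟨hm, hW, hu, hη0, hη, hκ0, hκ1, hd, ha, hv, hμ, hq, hD, hηw, hR⟩ := H
  have hm0 : m ≠ 0 := by rintro rfl; exact absurd hm (by decide)
  have hp : ∀ t : ℝ, t ^ (m + 1) = |t| ^ (m + 1) := fun t => (hm.pow_abs t).symm
  set w := (κ ^ (m + 1))⁻¹ with hw
  have hw1 : 1 ≤ w := one_le_inv₀ (pow_pos hκ0 _) |>.2 (pow_le_one₀ hκ0.le hκ1)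
  have hηκ : η ≤ κ := le_trans (le_mul_of_one_le_right hη0 (one_le_pow₀ hw1)) hηw
  have hηwκ : η * w ≤ κ := le_trans
    (mul_le_mul_of_nonneg_left (le_self_pow₀ hw1 two_ne_zero) hη0) hηw
  set u := uexp W with hu_def
  set μ := mdev W
  set S := ∑ x, ∑ y, dev W x y ^ (m + 1) with hS
  set A := ∑ x, adev W x ^ (m + 1) with hA
  set V := ∑ x, dg W x * vdev W x ^ (m + 1) with hV
  set M := μ ^ (m + 1) with hM
  set E := (W.card : ℝ) with hE
  have hS0 : 0 ≤ S := Finset.sum_nonneg fun x _ => Finset.sum_nonneg fun y _ => hm.pow_nonneg _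
  have hA0 : 0 ≤ A := Finset.sum_nonneg fun x _ => hm.pow_nonneg _
  have hV0 : 0 ≤ V := Finset.sum_nonneg fun x _ =>
    mul_nonneg (dg_nonneg W x) (hm.pow_nonneg _)
  have hM0 : 0 ≤ M := hm.pow_nonneg _
  have hE0 : 0 ≤ E := Nat.cast_nonneg _
  have hPdef : size W m w = S + A + w * V + w ^ 2 * (E * M) := rfl
  have hwV : 0 ≤ w * V := mul_nonneg (by linarith) hV0
  have hEM : w * (E * M) ≤ w ^ 2 * (E * M) :=
    mul_le_mul_of_nonneg_right (le_self_pow₀ hw1 two_ne_zero) (mul_nonneg hE0 hM0)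
  have hEM0 : 0 ≤ w ^ 2 * (E * M) := mul_nonneg (sq_nonneg _) (mul_nonneg hE0 hM0)
  set P := size W m w
  have hdg : ∑ x, dg W x = 2 * E := sum_dg hW
  have hsa : ∑ x, ∑ y, adj W x y * M = 2 * E * M := by
    rw [sum_adj_left (fun _ => M), ← Finset.sum_mul, hdg]
  have hsl : ∑ x, ∑ y, adj W x y * vdev W x ^ (m + 1) = V :=
    sum_adj_left (fun x => vdev W x ^ (m + 1))
  have hsr : ∑ x, ∑ y, adj W x y * vdev W y ^ (m + 1) = V :=
    sum_adj_right (fun x => vdev W x ^ (m + 1))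
  set r : Fin n → Fin n → ℝ := fun x y => ∑ z, link W x y z * dev W x z with hr
  have hR' : ∑ x, ∑ y, (r y x / u) ^ (m + 1) ≤ κ ^ (2 * (m + 1)) * S := by
    rw [Finset.sum_comm]; exact hR
  have hwR : w * (κ ^ (2 * (m + 1)) * S) = κ ^ (m + 1) * S := by
    rw [hw, two_mul, pow_add]; field_simp; ring
  have hκS : κ ^ (m + 1) * S ≤ S := mul_le_of_le_one_left hS0 (pow_le_one₀ hκ0.le hκ1)
  have hwR1 : w * ∑ x, ∑ y, (r x y / u) ^ (m + 1) ≤ S :=
    le_trans (le_of_le_of_eq (mul_le_mul_of_nonneg_left hR (by linarith)) hwR) hκS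
  have hwR2 : w * ∑ x, ∑ y, (r y x / u) ^ (m + 1) ≤ S :=
    le_trans (le_of_le_of_eq (mul_le_mul_of_nonneg_left hR' (by linarith)) hwR) hκS
  have hw2R1 : w * (w * ∑ x, ∑ y, (r x y / u) ^ (m + 1)) ≤ S := by
    refine le_of_le_of_eq (mul_le_mul_of_nonneg_left
      (le_of_le_of_eq (mul_le_mul_of_nonneg_left hR (by linarith)) hwR) (by linarith)) ?_
    rw [hw]; field_simp
  have hw2R2 : w * (w * ∑ x, ∑ y, (r y x / u) ^ (m + 1)) ≤ S := by
    refine le_of_le_of_eq (mul_le_mul_of_nonneg_left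
      (le_of_le_of_eq (mul_le_mul_of_nonneg_left hR' (by linarith)) hwR) (by linarith)) ?_
    rw [hw]; field_simp
  have hT3 : ∀ x, dg W x * (vdev W x ^ m * (u * (2 * μ * (1 + vdev W x) + vdev W x ^ 2
        - (∑ y, dev W x y ^ 2) / dg W x)
      - (∑ y, adj W x y * ∑ z, adj W x z * adj W y z * (dev W x z + dev W y z)) / dg W x))
      = ∑ y, (adj W x y * (vdev W x ^ m * (u * (2 * μ * (1 + vdev W x) + vdev W x ^ 2)))
        - vdev W x ^ m * (u * dev W x y ^ 2)
        - adj W x y * (vdev W x ^ m * ∑ z, adj W x z * adj W y z * (dev W x z + dev W y z))) := by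
    intro x
    have hD0 : dg W x ≠ 0 := (lt_of_lt_of_le one_pos (hD x)).ne'
    rw [Finset.sum_sub_distrib, Finset.sum_sub_distrib, ← Finset.sum_mul, ← Finset.mul_sum,
      ← Finset.mul_sum, show ∑ y, adj W x y = dg W x from rfl]
    simp only [mul_left_comm (adj W x _) (vdev W x ^ m), ← Finset.mul_sum]
    field_simp
  rw [Finset.sum_congr rfl fun x _ => hT3 x]
  refine (mul_le_mul_of_nonneg_left
    (Finset.sum_le_sum fun x _ => Finset.sum_le_sum fun y _ => key3 x y) (by linarith)).trans ?_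
  simp only [Finset.sum_add_distrib, ← Finset.mul_sum, Finset.sum_sub_distrib, ← hS, hsl, hsr,
    hsa, sub_self, mul_zero, add_zero]
  have i1 := mul_le_mul_of_nonneg_right hηκ hwV
  have i2 : w * (η * S) ≤ κ * S := by
    calc w * (η * S) = η * w * S := by ring
      _ ≤ κ * S := mul_le_mul_of_nonneg_right hηwκ hS0
  have i3 := mul_le_mul_of_nonneg_left hw2R1 hκ0.le
  have i4 := mul_le_mul_of_nonneg_left hw2R2 hκ0.le
  have i5 := mul_le_mul_of_nonneg_left hEM hκ0.le
  have i6 := mul_nonneg hκ0.le hA0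
  have i7 := mul_nonneg hκ0.le hS0
  have i8 := mul_nonneg hκ0.le hwV
  have i9 := mul_nonneg hκ0.le hEM0
  have h1 : w * (21 / 10 * κ * (w * (2 * E * M)) + (41 / 10 * κ + 4 * η) * V + η * (V + S)
      + κ * (w * (∑ x, ∑ y, (r x y / u) ^ (m + 1) + ∑ x, ∑ y, (r y x / u) ^ (m + 1)))
      + η * V) ≤ 14 * κ * P := by
    rw [hPdef]; linarith
  have := mul_le_mul_of_nonneg_left h1 hu.le
  linarith

theorem drift_count (H : Hyp W η κ m) :
    ((κ ^ (m + 1))⁻¹) ^ 2 * ((W.card : ℝ) * (mdev W ^ m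
          * (3 * uexp W * (mdev W ^ 2
            - (∑ x, ∑ y, dev W x y ^ 2) / (2 * (W.card : ℝ))))))
      ≤ 9 * κ * uexp W * size W m ((κ ^ (m + 1))⁻¹) := by
  obtain ⟨hm, hW, hu, hη0, hη, hκ0, hκ1, hd, ha, hv, hμ, hq, hD, hηw, hR⟩ := H
  have hm0 : m ≠ 0 := by rintro rfl; exact absurd hm (by decide)
  have hp : ∀ t : ℝ, t ^ (m + 1) = |t| ^ (m + 1) := fun t => (hm.pow_abs t).symm
  set w := (κ ^ (m + 1))⁻¹ with hw
  have hw1 : 1 ≤ w := one_le_inv₀ (pow_pos hκ0 _) |>.2 (pow_le_one₀ hκ0.le hκ1)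
  have hηκ : η ≤ κ := le_trans (le_mul_of_one_le_right hη0 (one_le_pow₀ hw1)) hηw
  have hηwκ : η * w ≤ κ := le_trans
    (mul_le_mul_of_nonneg_left (le_self_pow₀ hw1 two_ne_zero) hη0) hηw
  set u := uexp W with hu_def
  set μ := mdev W
  set S := ∑ x, ∑ y, dev W x y ^ (m + 1) with hS
  set A := ∑ x, adev W x ^ (m + 1) with hA
  set V := ∑ x, dg W x * vdev W x ^ (m + 1) with hV
  set M := μ ^ (m + 1) with hM
  set E := (W.card : ℝ) with hE
  have hS0 : 0 ≤ S := Finset.sum_nonneg fun x _ => Finset.sum_nonneg fun y _ => hm.pow_nonneg _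
  have hA0 : 0 ≤ A := Finset.sum_nonneg fun x _ => hm.pow_nonneg _
  have hV0 : 0 ≤ V := Finset.sum_nonneg fun x _ =>
    mul_nonneg (dg_nonneg W x) (hm.pow_nonneg _)
  have hM0 : 0 ≤ M := hm.pow_nonneg _
  have hE0 : 0 ≤ E := Nat.cast_nonneg _
  have hPdef : size W m w = S + A + w * V + w ^ 2 * (E * M) := rfl
  have hwV : 0 ≤ w * V := mul_nonneg (by linarith) hV0
  have hEM : w * (E * M) ≤ w ^ 2 * (E * M) :=
    mul_le_mul_of_nonneg_right (le_self_pow₀ hw1 two_ne_zero) (mul_nonneg hE0 hM0)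
  have hEM0 : 0 ≤ w ^ 2 * (E * M) := mul_nonneg (sq_nonneg _) (mul_nonneg hE0 hM0)
  set P := size W m w
  have hdg : ∑ x, dg W x = 2 * E := sum_dg hW
  have hsa : ∑ x, ∑ y, adj W x y * M = 2 * E * M := by
    rw [sum_adj_left (fun _ => M), ← Finset.sum_mul, hdg]
  have hsl : ∑ x, ∑ y, adj W x y * vdev W x ^ (m + 1) = V :=
    sum_adj_left (fun x => vdev W x ^ (m + 1))
  have hsr : ∑ x, ∑ y, adj W x y * vdev W y ^ (m + 1) = V :=
    sum_adj_right (fun x => vdev W x ^ (m + 1))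
  rcases hE0.lt_or_eq with hEpos | hE00
  · have e : E * (μ ^ m * (3 * u * (μ ^ 2 - (∑ x, ∑ y, dev W x y ^ 2) / (2 * E))))
        = 3 * u * (E * (μ ^ m * μ ^ 2)) - 3 / 2 * u * ∑ x, ∑ y, μ ^ m * dev W x y ^ 2 := by
      simp only [← Finset.mul_sum]
      field_simp
    rw [e]
    have hva := abs_le.1 hμ
    have h1 : E * (μ ^ m * μ ^ 2) ≤ E * (η * M) := by
      refine mul_le_mul_of_nonneg_left ?_ hE0
      calc μ ^ m * μ ^ 2 = M * μ := by rw [hM]; ring
        _ ≤ M * η := mul_le_mul_of_nonneg_left hva.2 hM0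
        _ = _ := mul_comm _ _
    have h2 : -(∑ x, ∑ y, μ ^ m * dev W x y ^ 2) ≤ η * (2 * E * M + S) := by
      rw [← hsa, hS, ← Finset.sum_add_distrib, Finset.mul_sum, ← Finset.sum_neg_distrib]
      refine Finset.sum_le_sum fun x _ => ?_
      rw [← Finset.sum_add_distrib, Finset.mul_sum, ← Finset.sum_neg_distrib]
      refine Finset.sum_le_sum fun y _ => ?_
      rcases adj_cases W x y with h | h
      · simp [dev_supp h, h]
      · rw [h, one_mul]
        refine (neg_le_abs _).trans ?_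
        rw [abs_mul, abs_pow, abs_pow, sq, ← mul_assoc]
        have hyd := young_pow (abs_nonneg μ) (abs_nonneg (dev W x y)) m
        rw [← hp, ← hp, ← hM] at hyd
        have h1 := mul_le_mul_of_nonneg_left (hd x y)
          (show (0 : ℝ) ≤ |μ| ^ m * |dev W x y| by positivity)
        have h2 : |μ| ^ m * |dev W x y| ≤ M + dev W x y ^ (m + 1) := by
          refine le_of_mul_le_mul_left ?_ (show (0 : ℝ) < (m : ℝ) + 1 by positivity)
          have := mul_nonneg (Nat.cast_nonneg (α := ℝ) m) (hm.pow_nonneg (dev W x y))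
          linarith
        have h3 := mul_le_mul_of_nonneg_left h2 hη0
        linarith
    have j1 := mul_le_mul_of_nonneg_left h1 (show 0 ≤ 3 * u * w ^ 2 by positivity)
    have j2 := mul_le_mul_of_nonneg_left h2 (show 0 ≤ 3 / 2 * u * w ^ 2 by positivity)
    have j3 := mul_le_mul_of_nonneg_right hηw (mul_nonneg hu.le hS0)
    have j4 := mul_le_mul_of_nonneg_right hηκ (mul_nonneg hu.le hEM0)
    have hκu : 0 ≤ κ * u := mul_nonneg hκ0.le hu.le
    have j5 := mul_nonneg hκu hA0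
    have j6 := mul_nonneg hκu hwV
    have j7 := mul_nonneg hκu hS0
    have j8 := mul_nonneg hκu hEM0
    rw [hPdef]
    linarith
  · rw [← hE00, zero_mul, mul_zero, hPdef]
    exact mul_nonneg (mul_nonneg (mul_nonneg (by norm_num) hκ0.le) hu.le) (by linarith)

/-- The deterministic drift is at most `40 κ u` times the potential. -/
theorem drift_core (H : Hyp W η κ m) :
    ∑ x, ∑ y, dev W x y ^ m * (2 * mdev W * cd W x y
          - ∑ z, adj W x z * adj W y z * (dev W x z + dev W y z))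
      + ∑ x, adev W x ^ m * (uexp W * (1 + adev W x) * (mdev W - vdev W x))
      + (κ ^ (m + 1))⁻¹ * ∑ x, dg W x * (vdev W x ^ m
          * (uexp W * (2 * mdev W * (1 + vdev W x) + vdev W x ^ 2
              - (∑ y, dev W x y ^ 2) / dg W x)
            - (∑ y, adj W x y * ∑ z, adj W x z * adj W y z * (dev W x z + dev W y z)) / dg W x))
      + ((κ ^ (m + 1))⁻¹) ^ 2 * ((W.card : ℝ) * (mdev W ^ m
          * (3 * uexp W * (mdev W ^ 2
            - (∑ x, ∑ y, dev W x y ^ 2) / (2 * (W.card : ℝ))))))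
      ≤ 40 * κ * uexp W * size W m ((κ ^ (m + 1))⁻¹) := by
  have h1 := drift_edge H
  have h2 := drift_deg H
  have h3 := drift_mean H
  have h4 := drift_count H
  have h5 : 0 ≤ κ * uexp W * size W m ((κ ^ (m + 1))⁻¹) := by
    refine mul_nonneg (mul_nonneg H.kap_pos.le H.upos.le) (add_nonneg (add_nonneg (add_nonneg
      (Finset.sum_nonneg fun x _ => Finset.sum_nonneg fun y _ => H.even.pow_nonneg _)
      (Finset.sum_nonneg fun x _ => H.even.pow_nonneg _)) (mul_nonneg ?_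
      (Finset.sum_nonneg fun x _ => mul_nonneg (dg_nonneg W x) (H.even.pow_nonneg _)))) ?_)
    · exact inv_nonneg.2 (pow_nonneg H.kap_pos.le _)
    · exact mul_nonneg (sq_nonneg _) (mul_nonneg (Nat.cast_nonneg _) (H.even.pow_nonneg _))
  linarith

end DriftAux

namespace Nice

variable {η : ℝ}

/-- The deterministic drift of the potential, `K = 2 k`. -/
theorem drift (h : Nice W η) {k : ℕ} (hk : 1 ≤ k) {kap : ℝ} (h0 : 0 < kap) (h1 : kap ≤ 1)
    (hηw : η * ((kap ^ (2 * k))⁻¹) ^ 2 ≤ kap)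
    (hR : ∑ x, ∑ y, (rlink W x y / uexp W) ^ (2 * k)
      ≤ kap ^ (2 * (2 * k)) * ∑ x, ∑ y, dev W x y ^ (2 * k)) :
    ∑ x, ∑ y, dev W x y ^ (2 * k - 1) * dmain W x y
      + ∑ x, adev W x ^ (2 * k - 1) * amain W x
      + (kap ^ (2 * k))⁻¹ * ∑ x, dg W x * (vdev W x ^ (2 * k - 1) * vmain W x)
      + ((kap ^ (2 * k))⁻¹) ^ 2 * ((W.card : ℝ) * (mdev W ^ (2 * k - 1) * mmain W))
      ≤ 40 * kap * uexp W * pot W (2 * k) ((kap ^ (2 * k))⁻¹) := by
  have e : 2 * k = 2 * k - 1 + 1 := by omega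
  rw [e] at hηw hR
  have hH : DriftAux.Hyp W η kap (2 * k - 1) :=
    { even := by rw [← e]; exact even_two_mul k
      sub := h.sub
      upos := h.u_pos
      eta0 := h.eta_nonneg
      eta_le := h.hη
      kap_pos := h0
      kap_le := h1
      dev_le := h.dev_le
      adev_le := h.adev_le
      vdev_le := h.vdev_le
      mdev_le := h.mdev_le
      qfac_le := fun x => by
        obtain ⟨-, a, b⟩ := h.dg_bounds x
        rw [abs_le]; constructor <;> linarith
      dg_ge := fun x => by linarith [h.dg_pos x]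
      small := hηw
      links := hR }
  have := DriftAux.drift_core hH
  unfold DriftAux.size at this
  rw [← e] at this
  exact this

/-- The links act on the deviations with a small norm. -/
theorem rlink_pow_le (h : Nice W η) {m k : ℕ} (hm : 1 ≤ m) (hk : 1 ≤ k) {ρ : ℝ}
    (htr : ∀ x, Matrix.trace (link W x ^ (2 * m)) ≤ (ρ * uexp W) ^ (2 * m)) :
    ∑ x, ∑ y, (rlink W x y / uexp W) ^ (2 * k)
      ≤ 4 * ρ ^ 2 * 6 ^ (2 * k - 2) * ∑ x, ∑ y, dev W x y ^ (2 * k) := by
  have hu := h.u_pos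
  have hn : 2 ≤ n := by have := h.hn; omega
  obtain ⟨p, rfl⟩ : ∃ p, k = p + 1 := ⟨k - 1, by omega⟩
  rw [show 2 * (p + 1) - 2 = 2 * p by omega, show 2 * (p + 1) = 2 * p + 2 by omega, Finset.mul_sum]
  refine Finset.sum_le_sum fun x _ => ?_
  have h2 : OpLe (link W x) (ρ * uexp W) :=
    opLe_of_trace (Matrix.ext fun y z => link_symm W x z y) hm (htr x)
  have hrow : ∀ y, ∑ z, |link W x y z| ≤ 3 * uexp W := by
    intro y
    refine (link_row_le hn x y).trans ?_
    rcases adj_cases W x y with e | e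
    · rw [e, zero_mul]; positivity
    · rw [e, one_mul]
      have h3 := abs_le.1 (h.dev_le x y)
      rw [dev, e, one_mul] at h3
      have h4 : cd W x y / uexp W ≤ 21 / 20 := by linarith [h.hη]
      rw [div_le_iff₀ hu] at h4
      have h5 := (h.dg_bounds x).2.2
      have h6 := mul_le_mul_of_nonneg_right h.hη hu.le
      linarith
  have hi := interp_pow (by positivity) h2 hrow (2 * p) (dev W x)
  have hev : Even (2 * p + 2) := ⟨p + 1, by ring⟩
  simp only [hev.pow_abs] at hi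
  simp only [rlink, div_pow, ← Finset.sum_div]
  rw [div_le_iff₀ (pow_pos hu _)]
  refine hi.trans (le_of_eq ?_)
  rw [show 2 * (3 * uexp W) = 6 * uexp W by ring, mul_pow 6]
  ring

end Nice

end P046.Full
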