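import Vale.Agent.P046.Full.Defs

/-!
P046, part I: identities for the vertex level quantities and for one step of the process.
-/

namespace P046.Full

open Finset

variable {n : ℕ} {W : Finset (Finset (Fin n))}

/-! ### The adjacency matrix -/

theorem adj_symm (W : Finset (Finset (Fin n))) (x y : Fin n) : adj W x y = adj W y x := by
  simp only [adj, ne_comm, Finset.pair_comm]

theorem adj_self (W : Finset (Finset (Fin n))) (x : Fin n) : adj W x x = 0 := by simp [adj]

theorem adj_cases (W : Finset (Finset (Fin n))) (x y : Fin n) : adj W x y = 0 ∨ adj W x y = 1 := by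
  unfold adj; split_ifs <;> simp

theorem adj_nonneg (W : Finset (Finset (Fin n))) (x y : Fin n) : 0 ≤ adj W x y := by
  rcases adj_cases W x y with h | h <;> simp [h]

theorem adj_le_one (W : Finset (Finset (Fin n))) (x y : Fin n) : adj W x y ≤ 1 := by
  rcases adj_cases W x y with h | h <;> simp [h]

theorem adj_mul_self (W : Finset (Finset (Fin n))) (x y : Fin n) :
    adj W x y * adj W x y = adj W x y := by
  rcases adj_cases W x y with h | h <;> simp [h]

theorem adj_eq_one {x y : Fin n} : adj W x y = 1 ↔ x ≠ y ∧ {x, y} ∈ W := by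
  simp [adj]

theorem adj_mono {W' : Finset (Finset (Fin n))} (h : W' ⊆ W) (x y : Fin n) :
    adj W' x y ≤ adj W x y := by
  unfold adj
  split_ifs with h1 h2 <;> norm_num
  exact h2 ⟨h1.1, h h1.2⟩

theorem cd_symm (W : Finset (Finset (Fin n))) (x y : Fin n) : cd W x y = cd W y x := by
  simp only [cd, mul_comm]

theorem cd_nonneg (W : Finset (Finset (Fin n))) (x y : Fin n) : 0 ≤ cd W x y :=
  Finset.sum_nonneg fun z _ => mul_nonneg (adj_nonneg W x z) (adj_nonneg W y z)

theorem dg_nonneg (W : Finset (Finset (Fin n))) (x : Fin n) : 0 ≤ dg W x :=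
  Finset.sum_nonneg fun y _ => adj_nonneg W x y

theorem dev_symm (W : Finset (Finset (Fin n))) (x y : Fin n) : dev W x y = dev W y x := by
  rw [dev, dev, adj_symm, cd_symm]

theorem mem_allPairs {e : Finset (Fin n)} : e ∈ allPairs n ↔ e.card = 2 := by
  simp [allPairs, Finset.mem_powersetCard]

/-- Ordered pairs count every node twice. -/
theorem sum_adj_mul (hW : W ⊆ allPairs n) (g : Finset (Fin n) → ℝ) :
    ∑ x, ∑ y, adj W x y * g {x, y} = 2 * ∑ e ∈ W, g e := by
  have h1 : ∀ x y, adj W x y * g {x, y}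
      = ∑ e ∈ W, if x ≠ y ∧ {x, y} = e then g e else 0 := by
    intro x y
    by_cases h : x ≠ y
    · simp only [h, ne_eq, not_false_eq_true, true_and, Finset.sum_ite_eq, adj]
      split_ifs <;> simp
    · simp [adj, h]
  simp only [h1]
  rw [Finset.sum_congr rfl fun x _ => Finset.sum_comm, Finset.sum_comm, Finset.mul_sum]
  refine Finset.sum_congr rfl fun e he => ?_
  obtain ⟨a, b, hab, rfl⟩ := Finset.card_eq_two.1 (mem_allPairs.1 (hW he))
  rw [← Finset.sum_product', ← Finset.sum_filter,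
    show (univ ×ˢ univ).filter (fun p : Fin n × Fin n => p.1 ≠ p.2 ∧ {p.1, p.2} = ({a, b} : Finset (Fin n)))
      = {(a, b), (b, a)} from ?_]
  · rw [Finset.sum_pair (by simp [hab])]; ring
  ext ⟨x, y⟩
  simp only [Finset.mem_filter, Finset.mem_product, Finset.mem_univ, true_and, Finset.mem_insert,
    Finset.mem_singleton, Prod.mk.injEq]
  constructor
  · rintro ⟨hxy, h⟩
    have hx : x ∈ ({a, b} : Finset (Fin n)) := h ▸ Finset.mem_insert_self x _
    have hy : y ∈ ({a, b} : Finset (Fin n)) :=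
      h ▸ Finset.mem_insert_of_mem (Finset.mem_singleton_self y)
    simp only [Finset.mem_insert, Finset.mem_singleton] at hx hy
    rcases hx with rfl | rfl <;> rcases hy with rfl | rfl <;> simp_all
  · rintro (⟨rfl, rfl⟩ | ⟨rfl, rfl⟩)
    · exact ⟨hab, rfl⟩
    · exact ⟨hab.symm, Finset.pair_comm _ _⟩

theorem sum_dg (hW : W ⊆ allPairs n) : ∑ x, dg W x = 2 * (W.card : ℝ) := by
  have := sum_adj_mul hW (fun _ => 1)
  simpa [dg] using this

/-! ### Triangles -/

/-- The triangle with vertices `x, y, z`. -/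
def triple (x y z : Fin n) : Finset (Finset (Fin n)) := ({x, y, z} : Finset (Fin n)).powersetCard 2

theorem mem_tris_kn {t : Finset (Finset (Fin n))} : t ∈ (kn n).tris W ↔
    ∃ V : Finset (Fin n), V.card = 3 ∧ V.powersetCard 2 = t ∧ t ⊆ W := by
  rw [kn_tris]
  simp only [Finset.mem_image, Finset.mem_filter, Finset.mem_powersetCard]
  constructor
  · rintro ⟨V, ⟨⟨-, hV⟩, h⟩, rfl⟩
    exact ⟨V, hV, rfl, fun e he => h e (Finset.mem_powersetCard.1 he)⟩
  · rintro ⟨V, hV, rfl, h⟩
    exact ⟨V, ⟨⟨Finset.subset_univ _, hV⟩, fun e he => h (Finset.mem_powersetCard.2 he)⟩, rfl⟩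

theorem pair_mem_pairs {V : Finset (Fin n)} {x y : Fin n} :
    {x, y} ∈ V.powersetCard 2 ↔ x ∈ V ∧ y ∈ V ∧ x ≠ y := by
  rw [Finset.mem_powersetCard, Finset.insert_subset_iff, Finset.singleton_subset_iff]
  constructor
  · rintro ⟨⟨hx, hy⟩, hc⟩
    exact ⟨hx, hy, fun e => by simp [e] at hc⟩
  · rintro ⟨hx, hy, hne⟩
    exact ⟨⟨hx, hy⟩, Finset.card_pair hne⟩

/-- The vertices of a triangle. -/
def verts (t : Finset (Finset (Fin n))) : Finset (Fin n) := t.biUnion id

theorem verts_pairs {V : Finset (Fin n)} (hV : V.card = 3) : verts (V.powersetCard 2) = V := by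
  ext v
  simp only [verts, Finset.mem_biUnion, id_eq]
  constructor
  · rintro ⟨e, he, hv⟩
    exact (Finset.mem_powersetCard.1 he).1 hv
  · intro hv
    obtain ⟨w, hw, hne⟩ := Finset.exists_mem_ne (by omega : 1 < V.card) v
    exact ⟨{v, w}, pair_mem_pairs.2 ⟨hv, hw, hne.symm⟩, Finset.mem_insert_self _ _⟩

theorem verts_card {t : Finset (Finset (Fin n))} (ht : t ∈ (kn n).tris W) : (verts t).card = 3 := by
  obtain ⟨V, hV, rfl, -⟩ := mem_tris_kn.1 ht
  rw [verts_pairs hV, hV]

theorem tri_mem_iff {t : Finset (Finset (Fin n))} (ht : t ∈ (kn n).tris W) {x y : Fin n}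
    (hxy : x ≠ y) : {x, y} ∈ t ↔ x ∈ verts t ∧ y ∈ verts t := by
  obtain ⟨V, hV, rfl, -⟩ := mem_tris_kn.1 ht
  rw [pair_mem_pairs, verts_pairs hV]
  simp [hxy]

theorem triple_mem {x y z : Fin n} (hxy : adj W x y = 1) (hxz : adj W x z = 1) (hyz : adj W y z = 1) :
    triple x y z ∈ (kn n).tris W := by
  rw [adj_eq_one] at hxy hxz hyz
  refine mem_tris_kn.2 ⟨{x, y, z}, Finset.card_eq_three.2 ⟨x, y, z, hxy.1, hxz.1, hyz.1, rfl⟩,
    rfl, fun e he => ?_⟩
  obtain ⟨a, b, hab, rfl⟩ := Finset.card_eq_two.1 (Finset.mem_powersetCard.1 he).2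
  obtain ⟨ha, hb, -⟩ := pair_mem_pairs.1 he
  simp only [Finset.mem_insert, Finset.mem_singleton] at ha hb
  rcases ha with rfl | rfl | rfl <;> rcases hb with rfl | rfl | rfl <;>
    first
      | exact absurd rfl hab
      | exact hxy.2
      | exact hxz.2
      | exact hyz.2
      | (rw [Finset.pair_comm]; first | exact hxy.2 | exact hxz.2 | exact hyz.2)

theorem eq_triple {t : Finset (Finset (Fin n))} (ht : t ∈ (kn n).tris W) {x y z : Fin n}
    (hx : x ∈ verts t) (hy : y ∈ verts t) (hz : z ∈ verts t) (hxy : x ≠ y) (hxz : x ≠ z)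
    (hyz : y ≠ z) : t = triple x y z := by
  obtain ⟨V, hV, rfl, -⟩ := mem_tris_kn.1 ht
  rw [verts_pairs hV] at hx hy hz
  rw [triple, Finset.eq_of_subset_of_card_le (s := ({x, y, z} : Finset (Fin n))) (t := V)
    (by simp [Finset.insert_subset_iff, hx, hy, hz])
    (by rw [hV, Finset.card_eq_three.2 ⟨x, y, z, hxy, hxz, hyz, rfl⟩])]

theorem adj_of_verts {t : Finset (Finset (Fin n))} (ht : t ∈ (kn n).tris W) {x y : Fin n}
    (hx : x ∈ verts t) (hy : y ∈ verts t) (hxy : x ≠ y) : adj W x y = 1 :=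
  adj_eq_one.2 ⟨hxy, (LH.mem_tris.1 ht).2 ((tri_mem_iff ht hxy).2 ⟨hx, hy⟩)⟩

/-- The star of `{x, y}` as a set of third vertices. -/
theorem star_pair {x y : Fin n} (hxy : adj W x y = 1) :
    (kn n).star W {x, y}
      = (univ.filter fun z => adj W x z = 1 ∧ adj W y z = 1).image (triple x y) := by
  have hne := (adj_eq_one.1 hxy).1
  ext s
  simp only [LH.star, Finset.mem_filter, Finset.mem_image, Finset.mem_univ, true_and]
  constructor
  · rintro ⟨hs, hmem⟩
    obtain ⟨hx, hy⟩ := (tri_mem_iff hs hne).1 hmem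
    obtain ⟨z, hz⟩ : (verts s \ {x, y}).Nonempty := by
      rw [← Finset.card_pos]
      have := Finset.le_card_sdiff {x, y} (verts s)
      rw [verts_card hs, Finset.card_pair hne] at this
      omega
    simp only [Finset.mem_sdiff, Finset.mem_insert, Finset.mem_singleton, not_or] at hz
    exact ⟨z, ⟨adj_of_verts hs hx hz.1 (Ne.symm hz.2.1), adj_of_verts hs hy hz.1 (Ne.symm hz.2.2)⟩,
      (eq_triple hs hx hy hz.1 hne (Ne.symm hz.2.1) (Ne.symm hz.2.2)).symm⟩
  · rintro ⟨z, ⟨hxz, hyz⟩, rfl⟩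
    exact ⟨triple_mem hxy hxz hyz, pair_mem_pairs.2 ⟨by simp, by simp, hne⟩⟩

theorem sum_star_pair {x y : Fin n} (hxy : adj W x y = 1)
    (F : Finset (Finset (Fin n)) → ℝ) :
    ∑ s ∈ (kn n).star W {x, y}, F s
      = ∑ z, adj W x z * adj W y z * F (triple x y z) := by
  have hne := (adj_eq_one.1 hxy).1
  rw [star_pair hxy, Finset.sum_image, Finset.sum_filter]
  · refine Finset.sum_congr rfl fun z _ => ?_
    rcases adj_cases W x z with h | h <;> rcases adj_cases W y z with h' | h' <;> simp [h, h']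
  intro z hz w hw h
  simp only [Finset.coe_filter, Finset.mem_univ, true_and, Set.mem_ofPred_eq] at hz hw
  have hzx := (adj_eq_one.1 hz.1).1
  have hzy := (adj_eq_one.1 hz.2).1
  have hc : ({x, y, z} : Finset (Fin n)).card = 3 :=
    Finset.card_eq_three.2 ⟨x, y, z, hne, hzx, hzy, rfl⟩
  have hc' : ({x, y, w} : Finset (Fin n)).card = 3 :=
    Finset.card_eq_three.2 ⟨x, y, w, hne, (adj_eq_one.1 hw.1).1, (adj_eq_one.1 hw.2).1, rfl⟩
  have he := pairs_inj n hc hc' h
  have : z ∈ ({x, y, w} : Finset (Fin n)) := he ▸ by simp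
  simp only [Finset.mem_insert, Finset.mem_singleton] at this
  rcases this with e | e | e
  · exact absurd e.symm hzx
  · exact absurd e.symm hzy
  · exact e

/-- The codegree is the degree in the hypergraph. -/
theorem deg_pair {x y : Fin n} (hxy : adj W x y = 1) :
    ((kn n).deg W {x, y} : ℝ) = cd W x y := by
  have := sum_star_pair hxy (fun _ => 1)
  simpa [LH.deg_eq, cd] using this

theorem adj_deg (x y : Fin n) :
    adj W x y * ((kn n).deg W {x, y} : ℝ) = adj W x y * cd W x y := by
  rcases adj_cases W x y with h | h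
  · simp [h]
  · rw [deg_pair h]

theorem sum_adj_cd (hW : W ⊆ allPairs n) :
    ∑ x, ∑ y, adj W x y * cd W x y = 6 * (((kn n).tris W).card : ℝ) := by
  simp only [← adj_deg]
  rw [sum_adj_mul hW (fun e => ((kn n).deg W e : ℝ)), LH.sum_deg]
  ring

theorem uexp_nonneg (hn : 2 ≤ n) : 0 ≤ uexp W := by
  have : (2 : ℝ) ≤ n := by exact_mod_cast hn
  have : (0 : ℝ) ≤ (n : ℝ) - 2 := by linarith
  unfold uexp; positivity

/-! ### One step -/

/-- The removed pairs. -/
def rm (t : Finset (Finset (Fin n))) (x y : Fin n) : ℝ := if x ≠ y ∧ {x, y} ∈ t then 1 else 0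

theorem rm_symm (t : Finset (Finset (Fin n))) (x y : Fin n) : rm t x y = rm t y x := by
  simp only [rm, ne_comm, Finset.pair_comm]

theorem rm_nonneg (t : Finset (Finset (Fin n))) (x y : Fin n) : 0 ≤ rm t x y := by
  unfold rm; split_ifs <;> simp

theorem rm_cases (t : Finset (Finset (Fin n))) (x y : Fin n) : rm t x y = 0 ∨ rm t x y = 1 := by
  unfold rm; split_ifs <;> simp

theorem rm_verts {t : Finset (Finset (Fin n))} (ht : t ∈ (kn n).tris W) (x y : Fin n) :
    rm t x y = if x ≠ y ∧ x ∈ verts t ∧ y ∈ verts t then 1 else 0 := by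
  by_cases h : x ≠ y
  · simp only [rm, h, ne_eq, not_false_eq_true, true_and, tri_mem_iff ht h]
  · simp [rm, h]

theorem adj_sdiff {t : Finset (Finset (Fin n))} (ht : t ∈ (kn n).tris W) (x y : Fin n) :
    adj (W \ t) x y = adj W x y - rm t x y := by
  by_cases h : x ≠ y
  · by_cases h2 : {x, y} ∈ t
    · simp [adj, rm, h, h2, (LH.mem_tris.1 ht).2 h2]
    · simp [adj, rm, h, h2]
  · simp [adj, rm, h]

theorem adj_mul_rm {t : Finset (Finset (Fin n))} (ht : t ∈ (kn n).tris W) (x y : Fin n) :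
    adj W x y * rm t x y = rm t x y := by
  unfold rm
  split_ifs with h
  · simp [adj, h.1, (LH.mem_tris.1 ht).2 h.2]
  · simp

/-- A triangle removes two pairs at each of its vertices. -/
theorem sum_rm {t : Finset (Finset (Fin n))} (ht : t ∈ (kn n).tris W) (x : Fin n) :
    ∑ y, rm t x y = if x ∈ verts t then 2 else 0 := by
  by_cases hx : x ∈ verts t
  · rw [if_pos hx]
    simp only [rm_verts ht, hx, true_and, Finset.sum_boole]
    rw [show (univ.filter fun y => x ≠ y ∧ y ∈ verts t) = (verts t).erase x by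
      ext y; simp [ne_comm],
      Finset.card_erase_of_mem hx, verts_card ht]
    norm_num
  · simp [rm_verts ht, hx]

theorem dg_sdiff {t : Finset (Finset (Fin n))} (ht : t ∈ (kn n).tris W) (x : Fin n) :
    dg (W \ t) x = dg W x - if x ∈ verts t then 2 else 0 := by
  simp only [dg, adj_sdiff ht, Finset.sum_sub_distrib, sum_rm ht]

/-- The loss of the codegree. -/
theorem cd_sdiff {t : Finset (Finset (Fin n))} (ht : t ∈ (kn n).tris W) (x y : Fin n) :
    cd W x y - cd (W \ t) x y
      = ∑ z, (rm t x z * adj W y z + adj W x z * rm t y z - rm t x z * rm t y z) := by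
  simp only [cd, adj_sdiff ht, ← Finset.sum_sub_distrib]
  exact Finset.sum_congr rfl fun z _ => by ring

theorem cd_sdiff_le {t : Finset (Finset (Fin n))} (ht : t ∈ (kn n).tris W) (x y : Fin n) :
    cd (W \ t) x y ≤ cd W x y ∧ cd W x y ≤ cd (W \ t) x y + 4 := by
  have hsub : W \ t ⊆ W := Finset.sdiff_subset
  refine ⟨Finset.sum_le_sum fun z _ => mul_le_mul (adj_mono hsub x z) (adj_mono hsub y z)
    (adj_nonneg _ _ _) (adj_nonneg _ _ _), ?_⟩
  have h := cd_sdiff ht x y
  have h2 : ∑ z, (rm t x z * adj W y z + adj W x z * rm t y z - rm t x z * rm t y z)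
      ≤ ∑ z, rm t x z + ∑ z, rm t y z := by
    rw [← Finset.sum_add_distrib]
    refine Finset.sum_le_sum fun z _ => ?_
    nlinarith [mul_nonneg (rm_nonneg t x z) (rm_nonneg t y z), rm_nonneg t x z, rm_nonneg t y z,
      adj_le_one W y z, adj_le_one W x z, adj_nonneg W x z, adj_nonneg W y z]
  rw [sum_rm ht, sum_rm ht] at h2
  split_ifs at h2 <;> linarith

/-- Every node `{x, y}` is in `cd x y` triangles. -/
theorem sum_tris_rm (x y : Fin n) :
    ∑ t ∈ (kn n).tris W, rm t x y = adj W x y * cd W x y := by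
  by_cases h : x ≠ y
  · by_cases h2 : {x, y} ∈ W
    · have ha : adj W x y = 1 := adj_eq_one.2 ⟨h, h2⟩
      rw [ha, one_mul, ← deg_pair ha, LH.deg_eq, LH.star]
      simp [rm, h, Finset.sum_boole]
    · have ha : adj W x y = 0 := by simp [adj, h2]
      rw [ha, zero_mul]
      refine Finset.sum_eq_zero fun t ht => ?_
      rw [rm, if_neg]
      exact fun hh => h2 ((LH.mem_tris.1 ht).2 hh.2)
  · simp [rm, adj, h]

/-- Two nodes lie in at most one triangle. -/
theorem sum_tris_rm_rm {x y z : Fin n} (hyz : y ≠ z) :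
    ∑ t ∈ (kn n).tris W, rm t x y * rm t x z = adj W x y * adj W x z * adj W y z := by
  by_cases h : adj W x y = 1 ∧ adj W x z = 1 ∧ adj W y z = 1
  · obtain ⟨hxy, hxz, hyz'⟩ := h
    have hne := (adj_eq_one.1 hxy).1
    have hne' := (adj_eq_one.1 hxz).1
    rw [hxy, hxz, hyz', Finset.sum_eq_single (triple x y z)]
    · have h1 : {x, y} ∈ triple x y z := pair_mem_pairs.2 ⟨by simp, by simp, hne⟩
      have h2 : {x, z} ∈ triple x y z := pair_mem_pairs.2 ⟨by simp, by simp, hne'⟩
      simp [rm, hne, hne', h1, h2]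
    · intro t ht hne2
      by_contra hc
      simp only [rm_verts ht] at hc
      split_ifs at hc with h1 h2 <;> try simp at hc
      exact hne2 (eq_triple ht h1.2.1 h1.2.2 h2.2.2 hne hne' hyz)
    · intro h'; exact absurd (triple_mem hxy hxz hyz') h'
  · have h0 : adj W x y * adj W x z * adj W y z = 0 := by
      rcases adj_cases W x y with e | e <;> rcases adj_cases W x z with e' | e' <;>
        rcases adj_cases W y z with e'' | e'' <;> simp_all
    rw [h0]
    refine Finset.sum_eq_zero fun t ht => ?_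
    simp only [rm_verts ht]
    split_ifs with h1 h2 <;> try simp
    exact h ⟨adj_of_verts ht h1.2.1 h1.2.2 h1.1, adj_of_verts ht h2.2.1 h2.2.2 h2.1,
      adj_of_verts ht h1.2.2 h2.2.2 hyz⟩

/-- The expected loss of the codegree of a surviving node. -/
theorem sum_cd_loss {x y : Fin n} (hxy : adj W x y = 1) :
    ∑ t ∈ (kn n).tris W, (1 - rm t x y) * (cd W x y - cd (W \ t) x y)
      = ∑ z, adj W x z * adj W y z * (cd W x z + cd W y z - 2) := by
  have hne := (adj_eq_one.1 hxy).1
  rw [Finset.sum_congr rfl fun t ht => by rw [cd_sdiff ht, Finset.mul_sum], Finset.sum_comm]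
  refine Finset.sum_congr rfl fun z _ => ?_
  by_cases hz : z = x
  · subst hz
    rcases adj_cases W y z with e | e <;> simp [rm, adj_self, hne, Ne.symm hne, Finset.pair_comm]
  by_cases hz' : z = y
  · subst hz'
    rcases adj_cases W x z with e | e <;> simp [rm, adj_self, hne]
  have e1 : ∀ t ∈ (kn n).tris W, rm t x z * rm t y z * (1 - rm t x y) = 0 := fun t ht => by
    simp only [rm_verts ht]
    split_ifs <;> simp_all
  have e2 : ∀ t ∈ (kn n).tris W, (1 - rm t x y)
        * (rm t x z * adj W y z + adj W x z * rm t y z - rm t x z * rm t y z)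
      = adj W y z * (rm t x z - rm t x y * rm t x z)
        + adj W x z * (rm t y z - rm t y x * rm t y z) := fun t ht => by
    rw [rm_symm t y x]
    linear_combination -(e1 t ht)
  rw [Finset.sum_congr rfl e2, Finset.sum_add_distrib, ← Finset.mul_sum, ← Finset.mul_sum,
    Finset.sum_sub_distrib, Finset.sum_sub_distrib, sum_tris_rm, sum_tris_rm,
    sum_tris_rm_rm (Ne.symm hz'), sum_tris_rm_rm (Ne.symm hz), adj_symm W y x, hxy]
  rcases adj_cases W x z with e | e <;> rcases adj_cases W y z with e' | e' <;>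
    simp [e, e']
  ring

/-- The number of triangles at `x`, twice. -/
theorem sum_tris_verts (x : Fin n) :
    ∑ t ∈ (kn n).tris W, (if x ∈ verts t then (2 : ℝ) else 0)
      = ∑ y, adj W x y * cd W x y := by
  rw [Finset.sum_congr rfl fun t ht => (sum_rm ht x).symm, Finset.sum_comm]
  exact Finset.sum_congr rfl fun y _ => sum_tris_rm x y

/-- The link rows are bounded by codegrees. -/
theorem link_row_le (hn : 2 ≤ n) (x y : Fin n) :
    ∑ z, |link W x y z| ≤ adj W x y * (cd W x y + dens W * dg W x) := by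
  have h0 : (0 : ℝ) ≤ dens W := by
    have : (2 : ℝ) ≤ n := by exact_mod_cast hn
    have : (0 : ℝ) ≤ (n : ℝ) - 1 := by linarith
    unfold dens; positivity
  rw [show cd W x y + dens W * dg W x = ∑ z, (adj W x z * adj W y z + dens W * adj W x z) by
    rw [Finset.sum_add_distrib, cd, dg, Finset.mul_sum], Finset.mul_sum]
  refine Finset.sum_le_sum fun z _ => ?_
  rw [link, abs_mul, abs_mul, abs_of_nonneg (adj_nonneg W x y), abs_of_nonneg (adj_nonneg W x z)]
  calc adj W x y * adj W x z * |adj W y z - dens W|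
      ≤ adj W x y * adj W x z * (adj W y z + dens W) := by
        refine mul_le_mul_of_nonneg_left ?_ (mul_nonneg (adj_nonneg _ _ _) (adj_nonneg _ _ _))
        rw [abs_le]
        constructor <;> linarith [adj_nonneg W y z]
    _ = _ := by ring

theorem link_symm (W : Finset (Finset (Fin n))) (x y z : Fin n) :
    link W x y z = link W x z y := by
  simp only [link, adj_symm W z y]; ring

/-- The link applied to the deviations at `x` and the mean deviation at `x` give the sum of the
deviations over the triangles at `xy`. -/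
theorem link_split {x y : Fin n} (hxy : adj W x y = 1) (g : Fin n → ℝ)
    (hg : ∀ z, adj W x z = 0 → g z = 0) :
    ∑ z, adj W x z * adj W y z * g z = (∑ z, link W x y z * g z) + dens W * ∑ z, g z := by
  rw [Finset.mul_sum, ← Finset.sum_add_distrib]
  refine Finset.sum_congr rfl fun z _ => ?_
  rcases adj_cases W x z with h | h
  · simp [h, hg z h]
  · simp only [link, hxy, h]; ring

/-! ### Consequences of regularity -/

theorem dens_nonneg (hn : 2 ≤ n) : 0 ≤ dens W := by
  have : (2 : ℝ) ≤ n := by exact_mod_cast hn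
  have : (0 : ℝ) ≤ (n : ℝ) - 1 := by linarith
  unfold dens; positivity

theorem level_le_uexp {θ : ℝ} (hn : 3 ≤ n) (h : level n θ ≤ W.card) :
    (n : ℝ) ^ θ ≤ uexp W := by
  have h3 : (3 : ℝ) ≤ n := by exact_mod_cast hn
  have hN : (0 : ℝ) < (n : ℝ) * (n - 1) / 2 := by nlinarith
  have h2 : (0 : ℝ) < (n : ℝ) - 2 := by linarith
  have h4 : Real.sqrt ((n : ℝ) ^ θ / ((n : ℝ) - 2)) ≤ dens W := by
    rw [dens, le_div_iff₀ hN, mul_comm]; exact h
  have h5 := pow_le_pow_left₀ (Real.sqrt_nonneg _) h4 2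
  rw [Real.sq_sqrt (by positivity), div_le_iff₀ h2] at h5
  rw [uexp]; linarith

theorem uexp_pos {θ : ℝ} (hn : 3 ≤ n) (h : level n θ ≤ W.card) : 0 < uexp W :=
  lt_of_lt_of_le (Real.rpow_pos_of_pos (by exact_mod_cast (show 0 < n by omega)) θ)
    (level_le_uexp hn h)

theorem card_pos_of_level {θ : ℝ} (hn : 3 ≤ n) (h : level n θ ≤ W.card) : 0 < (W.card : ℝ) := by
  have h3 : (3 : ℝ) ≤ n := by exact_mod_cast hn
  refine lt_of_lt_of_le ?_ h
  exact mul_pos (by nlinarith) (Real.sqrt_pos.2 (div_pos (Real.rpow_pos_of_pos (by linarith) θ)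
    (by linarith)))

namespace Regular

variable {η ρ : ℝ} {m : ℕ}

theorem cd_bounds (h : Regular W η ρ m) (hu : 0 < uexp W) {x y : Fin n}
    (hxy : adj W x y = 1) :
    (1 - η) * uexp W ≤ cd W x y ∧ cd W x y ≤ (1 + η) * uexp W := by
  have := h.dev_le x y
  rw [dev, hxy, one_mul, abs_le] at this
  constructor
  · have h1 : 1 - η ≤ cd W x y / uexp W := by linarith
    rwa [le_div_iff₀ hu] at h1
  · have h1 : cd W x y / uexp W ≤ 1 + η := by linarith
    rwa [div_le_iff₀ hu] at h1

theorem adj_cd_le (h : Regular W η ρ m) (hu : 0 < uexp W) (x y : Fin n) :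
    adj W x y * cd W x y ≤ adj W x y * ((1 + η) * uexp W) := by
  rcases adj_cases W x y with e | e
  · simp [e]
  · rw [e, one_mul, one_mul]; exact (h.cd_bounds hu e).2

theorem dg_bounds (h : Regular W η ρ m) (hn : 3 ≤ n) (hp : 0 < dens W) (x : Fin n) :
    (1 - η) * (((n : ℝ) - 1) * dens W) ≤ dg W x
      ∧ dg W x ≤ (1 + η) * (((n : ℝ) - 1) * dens W) := by
  have h3 : (3 : ℝ) ≤ n := by exact_mod_cast hn
  have hq : 0 < ((n : ℝ) - 1) * dens W := mul_pos (by linarith) hp
  have := h.adev_le x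
  rw [adev, abs_le] at this
  constructor
  · have h1 : 1 - η ≤ dg W x / (((n : ℝ) - 1) * dens W) := by linarith
    rwa [le_div_iff₀ hq] at h1
  · have h1 : dg W x / (((n : ℝ) - 1) * dens W) ≤ 1 + η := by linarith
    rwa [div_le_iff₀ hq] at h1

theorem tris_card (hu : 0 < uexp W) (hE : 0 < (W.card : ℝ)) :
    (((kn n).tris W).card : ℝ) = (W.card : ℝ) * uexp W * (1 + mdev W) / 3 := by
  rw [mdev]; field_simp; ring

theorem tris_ne (h : Regular W η ρ m) (hη : η < 1) :
    (kn n).tris W ≠ ∅ := by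
  intro h0
  have h1 := h.mdev_le
  rw [mdev, h0, Finset.card_empty, abs_le] at h1
  simp at h1
  linarith [h1.1]

end Regular

end P046.Full
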