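import Vale.Agent.P046.Full.Defs

/-!
P046, towards `F_n / n^(3/2) → 1/(2√2)`: the statements of the independent modules, as propositions
(nothing is assumed here; each module proves one of them and `Full/Main` assembles them).
See notes/P046/FULL_helper5.md.
-/

namespace P046.Full

open Finset Filter

/-- Tolerance of the deviations. -/
noncomputable def eta (n : ℕ) (θ : ℝ) : ℝ := (n : ℝ) ^ (-(θ / 4))

/-- Tolerance of the links. -/
noncomputable def rho (n : ℕ) (θ : ℝ) : ℝ := (n : ℝ) ^ (-(θ / 8))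

/-- The number of slots. -/
def slots (n : ℕ) : ℕ := n ^ 20

/-- Regular for the parameters `θ, m`. -/
def Reg {n : ℕ} (θ : ℝ) (m : ℕ) (W : Finset (Finset (Fin n))) : Prop :=
  Regular W (eta n θ) (rho n θ) m

/-- The states at which the first stage hands over. -/
def AtLevel {n : ℕ} (θ : ℝ) (W : Finset (Finset (Fin n))) : Prop :=
  W ⊆ allPairs n ∧ level n θ ≤ W.card ∧ (W.card : ℝ) < level n θ + 3

/-- Part I: one supermartingale dominates the probability of leaving the regular states. -/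
def RegularityStmt : Prop :=
  ∀ θ : ℝ, 0 < θ → θ ≤ 1 / 10 → ∀ A : ℕ, ∃ m : ℕ, 1 ≤ m ∧ ∀ᶠ n : ℕ in atTop,
    ∃ H : Finset (Finset (Fin n)) → ℝ,
      (∀ W, W ⊆ allPairs n → 0 ≤ H W) ∧ H (allPairs n) ≤ 1 / (n : ℝ) ^ A ∧
      (∀ W, W ⊆ allPairs n → level n θ ≤ W.card → ¬Reg θ m W → 1 ≤ H W) ∧
      ∀ W, W ⊆ allPairs n → level n θ + 3 ≤ W.card → Reg θ m W →
        (kn n).tris W ≠ ∅ ∧ (kn n).avg H W ≤ H W

/-- Part I, the links half: dominates the probability of a link leaving its bound. -/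
def LinksStmt : Prop :=
  ∀ θ : ℝ, 0 < θ → θ ≤ 1 / 10 → ∀ A : ℕ, ∃ m : ℕ, 1 ≤ m ∧ ∀ᶠ n : ℕ in atTop,
    ∃ H : Finset (Finset (Fin n)) → ℝ,
      (∀ W, W ⊆ allPairs n → 0 ≤ H W) ∧ H (allPairs n) ≤ 1 / (n : ℝ) ^ A ∧
      (∀ W, W ⊆ allPairs n → level n θ ≤ W.card →
        (∃ x, (rho n θ * uexp W) ^ (2 * m) < Matrix.trace (link W x ^ (2 * m))) → 1 ≤ H W) ∧
      ∀ W, W ⊆ allPairs n → level n θ + 3 ≤ W.card → Reg θ m W → (kn n).avg H W ≤ H W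

/-- Part I, the deviations half. -/
def PotentialStmt : Prop :=
  ∀ θ : ℝ, 0 < θ → θ ≤ 1 / 10 → ∀ A m : ℕ, 1 ≤ m → ∀ᶠ n : ℕ in atTop,
    ∃ H : Finset (Finset (Fin n)) → ℝ,
      (∀ W, W ⊆ allPairs n → 0 ≤ H W) ∧ H (allPairs n) ≤ 1 / (n : ℝ) ^ A ∧
      (∀ W, W ⊆ allPairs n → level n θ ≤ W.card →
        ((∃ x y, eta n θ < |dev W x y|) ∨ (∃ x, eta n θ < |adev W x|) ∨
          (∃ x, eta n θ < |vdev W x|) ∨ eta n θ < |mdev W|) → 1 ≤ H W) ∧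
      ∀ W, W ⊆ allPairs n → level n θ + 3 ≤ W.card → Reg θ m W →
        (kn n).tris W ≠ ∅ ∧ (kn n).avg H W ≤ H W

/-- §2, short walks: a supermartingale on the regular states dominates their number. -/
def ShortStmt : Prop :=
  ∀ θ : ℝ, 0 < θ → θ ≤ 1 / 10 → ∀ l : ℕ, 2 ≤ l → ∀ m : ℕ, 1 ≤ m → ∃ C : ℝ, ∀ᶠ n : ℕ in atTop,
    ∃ Φ : Finset (Finset (Fin n)) → ℝ,
      (∀ W, W ⊆ allPairs n → 0 ≤ Φ W) ∧
      Φ (allPairs n) ≤ C * level n θ * ((n : ℝ) ^ θ) ^ l * (n : ℝ) ^ (-(1 / 2 : ℝ) + θ) ∧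
      (∀ W, AtLevel θ W → Reg θ m W → (((kn n).closed W l).card : ℝ) ≤ Φ W) ∧
      ∀ W, W ⊆ allPairs n → level n θ + 3 ≤ W.card → Reg θ m W → (kn n).avg Φ W ≤ Φ W

/-- §2, long walks: a deterministic bound on the regular states. -/
def LongStmt : Prop :=
  ∀ θ : ℝ, 0 < θ → θ ≤ 1 / 10 → ∀ m k : ℕ, 1 ≤ m → 1 ≤ k → ∃ C : ℝ, ∀ᶠ n : ℕ in atTop,
    ∀ W : Finset (Finset (Fin n)), AtLevel θ W → Reg θ m W → ∀ l, 2 * k ≤ l →
      (((kn n).closed W l).card : ℝ) ≤ (4 * uexp W) ^ (l - 2 * k)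
        * (C * uexp W ^ (2 * k) * ((W.card : ℝ) * rho n θ ^ (2 * k) + n))

/-- Part II: the tree recursion on a regular state. -/
def RecursionStmt : Prop :=
  ∀ θ : ℝ, 0 < θ → θ ≤ 1 / 10 → ∀ m : ℕ, 1 ≤ m → ∀ ε : ℝ, 0 < ε → ∀ᶠ n : ℕ in atTop,
    ∀ W : Finset (Finset (Fin n)), AtLevel θ W → Reg θ m W →
      ∀ a ∈ W, ∀ s : Finset (Finset (Fin n)),
        (∀ j, j ≤ slots n → (kn n).surv W (slots n) j s a
          ≤ 2 / Real.sqrt (1 + 2 * uexp W * j / slots n)) ∧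
        |(kn n).surv W (slots n) (slots n) s a * Real.sqrt (1 + 2 * uexp W) - 1| ≤ ε

end P046.Full

namespace P046.LH

open Finset

variable {α : Type} [DecidableEq α] (L : LH α)

/-- The collision error of part III. -/
noncomputable def collErr (W : Finset α) (M : ℕ) (u : ℝ) (C : ℕ) : ℝ :=
  u ^ C * ∑ l ∈ Finset.Ico 2 (2 * M + 3),
    ((C : ℝ) * Real.log (1 + 2 * u)) ^ l / l.factorial * ((L.closed W l).card / u ^ l)

/-- Part III: the slot model agrees with the tree recursion, singly and in pairs. -/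
def CouplingStmt : Prop :=
  ∃ C : ℕ, ∀ (α : Type) [DecidableEq α] (L : LH α) (W : Finset α) (M : ℕ) (u : ℝ),
    2 ≤ u → u ^ 3 ≤ M → (∀ a ∈ W, (L.deg W a : ℝ) ≤ 2 * u) →
    (∀ a ∈ W, ∀ s, ∀ j, j ≤ M → L.surv W M j s a ≤ 2 / Real.sqrt (1 + 2 * u * j / M)) →
    (∑ a ∈ W, |L.slotP W M (fun τ => L.alive W τ M a) - L.surv W M M ∅ a|
        ≤ L.collErr W M u C) ∧
      ∑ a ∈ W, ∑ b ∈ W, |L.slotP W M (fun τ => L.alive W τ M a ∧ L.alive W τ M b)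
          - L.surv W M M ∅ a * L.surv W M M ∅ b|
        ≤ 4 * (W.card : ℝ) * L.collErr W M u C + u ^ C * W.card

/-- The greedy process is the slot model, up to ties. -/
def OrderStmt : Prop :=
  ∀ (α : Type) [DecidableEq α] (L : LH α) (W : Finset α) (M : ℕ) (f : Finset α → ℝ) (B : ℝ),
    1 ≤ M → (∀ V, V ⊆ W → |f V| ≤ B) →
    |L.ex f W - L.slotE W M (fun τ => f (L.leftover W M τ))|
      ≤ 2 * B * (((L.tris W).card : ℝ) ^ 2 / M)

end P046.LH
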