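import Vale.Agent.P046.Full.Main

/-!
P046: convergence of `F_n / n^(3/2)` to `1/(2√2)`, in probability and in mean, from the bound on
`E |F_n - target n|`.
-/

namespace P046.Full

open Finset Filter
open scoped Topology

theorem limits
    (hmain : ∀ δ : ℝ, 0 < δ → ∀ᶠ n : ℕ in atTop,
      (kn n).ex (fun V => |(V.card : ℝ) - target n|) (allPairs n) ≤ δ * (n : ℝ) ^ (3/2 : ℝ)) :
    (∀ ε : ℝ, 0 < ε → Tendsto (fun n : ℕ =>
      (kn n).ex (fun V =>
        if ε < |(V.card : ℝ) / (n : ℝ) ^ (3/2 : ℝ) - 1 / (2 * Real.sqrt 2)| then 1 else 0)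
        (allPairs n)) atTop (𝓝 0)) ∧
    Tendsto (fun n : ℕ => (kn n).ex (fun V => (V.card : ℝ)) (allPairs n) / (n : ℝ) ^ (3/2 : ℝ))
      atTop (𝓝 (1 / (2 * Real.sqrt 2))) := by
  have hpt : ∀ n : ℕ, 0 < n → ∀ V : Finset (Finset (Fin n)),
      |(V.card : ℝ) / (n : ℝ) ^ (3/2 : ℝ) - 1 / (2 * Real.sqrt 2)|
        = |(V.card : ℝ) - target n| / (n : ℝ) ^ (3/2 : ℝ) := by
    intro n hn V
    have hq : 0 < (n : ℝ) ^ (3/2 : ℝ) := by positivity
    rw [eq_div_iff hq.ne']
    nth_rw 2 [← abs_of_pos hq]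
    rw [← abs_mul, target]
    congr 1
    field_simp
  constructor
  · intro ε hε
    rw [Metric.tendsto_nhds]
    intro r hr
    filter_upwards [hmain (ε * r / 2) (by positivity), eventually_gt_atTop 0] with n h hn
    have hq : 0 < (n : ℝ) ^ (3/2 : ℝ) := by positivity
    set X := (kn n).ex (fun V =>
      if ε < |(V.card : ℝ) / (n : ℝ) ^ (3/2 : ℝ) - 1 / (2 * Real.sqrt 2)| then 1 else 0) (allPairs n)
    have h0 : 0 ≤ X := by
      rw [← LH.ex_const (L := kn n) 0 (allPairs n)]
      exact LH.ex_mono fun V _ => by split_ifs <;> norm_num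
    have h1 : X ≤ (kn n).ex (fun V => 1 / (ε * (n : ℝ) ^ (3/2 : ℝ))
        * |(V.card : ℝ) - target n|) (allPairs n) := by
      refine LH.ex_mono fun V _ => ?_
      split_ifs with hc
      · rw [hpt n hn, lt_div_iff₀ hq] at hc
        rw [one_div, inv_mul_eq_div, one_le_div (by positivity)]
        exact hc.le
      · positivity
    rw [LH.ex_mul] at h1
    have h2 : X ≤ r / 2 := by
      refine h1.trans ((mul_le_mul_of_nonneg_left h (by positivity)).trans (le_of_eq ?_))
      field_simp
    rw [Real.dist_eq, sub_zero, abs_of_nonneg h0]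
    linarith
  · rw [Metric.tendsto_nhds]
    intro r hr
    filter_upwards [hmain (r / 2) (by positivity), eventually_gt_atTop 0] with n h hn
    have hq : 0 < (n : ℝ) ^ (3/2 : ℝ) := by positivity
    set X := (kn n).ex (fun V => (V.card : ℝ)) (allPairs n)
    set Y := (kn n).ex (fun V => |(V.card : ℝ) - target n|) (allPairs n)
    have hup : X ≤ Y + target n := by
      have : X ≤ (kn n).ex (fun V => |(V.card : ℝ) - target n| + target n) (allPairs n) :=
        LH.ex_mono fun V _ => by linarith [le_abs_self ((V.card : ℝ) - target n)]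
      rwa [LH.ex_add, LH.ex_const] at this
    have hlo : target n ≤ Y + X := by
      have : (kn n).ex (fun _ => target n) (allPairs n)
          ≤ (kn n).ex (fun V => |(V.card : ℝ) - target n| + (V.card : ℝ)) (allPairs n) :=
        LH.ex_mono fun V _ => by linarith [neg_abs_le ((V.card : ℝ) - target n)]
      rwa [LH.ex_add, LH.ex_const] at this
    have e : X / (n : ℝ) ^ (3/2 : ℝ) - 1 / (2 * Real.sqrt 2)
        = (X - target n) / (n : ℝ) ^ (3/2 : ℝ) := by
      rw [target]; field_simp
    rw [Real.dist_eq, e, abs_div, abs_of_pos hq, div_lt_iff₀ hq]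
    have h2 : |X - target n| ≤ Y := abs_le.2 ⟨by linarith, by linarith⟩
    nlinarith [mul_pos hr hq]

end P046.Full
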