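import Mathlib

/-!
P046, part I: traces of powers of a symmetric matrix after a perturbation of low rank.

`trace_pow_add_le` bounds the difference between `tr (R + ∑ a_k b_k^T) ^ N` and its first order
part by bounds on the entries `b_k ⬝ R ^ g a_k'`; the latter come from the log-convexity of
`i ↦ |R ^ i v|`.
-/

namespace P046.Full.Links

open Finset Matrix

variable {ι κ : Type} [Fintype ι] [DecidableEq ι] [Fintype κ]

/-! ### Scalars -/

theorem young {a b δ : ℝ} (ha : 0 ≤ a) (hb : 0 ≤ b) (hδ : 0 < δ) (hδ1 : δ ≤ 1) {e N : ℕ}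
    (he : e < N) : a ^ e * b ^ (N - e) ≤ δ * a ^ N + (1 / δ) ^ N * b ^ N := by
  have h1 : 0 ≤ δ * a ^ N := by positivity
  have h2 : 0 ≤ (1 / δ) ^ N * b ^ N := by positivity
  have hN : e + (N - e) = N := Nat.add_sub_of_le he.le
  by_cases h : b ≤ δ * a
  · calc a ^ e * b ^ (N - e) ≤ a ^ e * (δ * a) ^ (N - e) := by gcongr
      _ = δ ^ (N - e) * a ^ N := by rw [mul_pow, ← hN, pow_add, hN]; ring
      _ ≤ δ * a ^ N := by
          refine mul_le_mul_of_nonneg_right ?_ (by positivity)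
          exact pow_le_of_le_one hδ.le hδ1 (by omega)
      _ ≤ _ := le_add_of_nonneg_right h2
  · push Not at h
    have h3 : a ≤ 1 / δ * b := by
      rw [one_div_mul_eq_div, le_div_iff₀ hδ]; linarith
    calc a ^ e * b ^ (N - e) ≤ (1 / δ * b) ^ e * b ^ (N - e) := by gcongr
      _ = (1 / δ) ^ e * b ^ N := by rw [mul_pow, mul_assoc, ← pow_add, hN]
      _ ≤ (1 / δ) ^ N * b ^ N := by
          refine mul_le_mul_of_nonneg_right (pow_le_pow_right₀ ?_ he.le) (by positivity)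
          rw [le_div_iff₀ hδ]; linarith
      _ ≤ _ := le_add_of_nonneg_left h1

theorem exists_root {x s : ℝ} (hx : 0 ≤ x) (hs : 0 ≤ s) {h : ℕ} (hh : h ≠ 0) :
    ∃ M, s ≤ M ∧ x ≤ M ^ h ∧ M ^ h ≤ s ^ h + x := by
  have h0 : 0 ≤ x ^ ((h : ℝ)⁻¹) := Real.rpow_nonneg hx _
  have h1 : (x ^ ((h : ℝ)⁻¹)) ^ h = x := Real.rpow_inv_natCast_pow hx hh
  refine ⟨max s (x ^ ((h : ℝ)⁻¹)), le_max_left _ _, ?_, ?_⟩
  · exact h1.symm.le.trans (pow_le_pow_left₀ h0 (le_max_right _ _) h)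
  · rcases max_cases s (x ^ ((h : ℝ)⁻¹)) with ⟨e, -⟩ | ⟨e, -⟩ <;> rw [e]
    · exact le_add_of_nonneg_right hx
    · rw [h1]; exact le_add_of_nonneg_left (pow_nonneg hs h)

/-- A log-convex sequence lies below the geometric one through its ends. -/
theorem convex_le {b : ℕ → ℝ} {s M : ℝ} (hM : 0 < M) (hs : 0 ≤ s) {h : ℕ}
    (hconv : ∀ i, i + 1 < h + 1 → 0 < i → b i ^ 2 ≤ b (i - 1) * b (i + 1))
    (hb : ∀ i, 0 ≤ b i) (h0 : b 0 ≤ s) (hh : b h ≤ s * M ^ h) :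
    ∀ i ≤ h, b i ≤ s * M ^ i := by
  classical
  obtain ⟨i1, hi1, hmax⟩ := Finset.exists_max_image (Finset.range (h + 1)) (fun i => b i / M ^ i)
    ⟨0, by simp⟩
  suffices b i1 / M ^ i1 ≤ s by
    intro i hi
    have := (hmax i (by simp; omega)).trans this
    rwa [div_le_iff₀ (by positivity)] at this
  by_contra hc
  push Not at hc
  have hex : ∃ i, i ≤ h ∧ b i / M ^ i = b i1 / M ^ i1 :=
    ⟨i1, by simp at hi1; omega, rfl⟩
  obtain ⟨hi, heq⟩ := Nat.find_spec hex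
  have hlt := fun j => Nat.find_min hex (m := j)
  revert hi heq hlt
  generalize Nat.find hex = i
  intro hi heq hlt
  have hne0 : i ≠ 0 := by
    rintro rfl
    simp at heq; linarith
  have hneh : i ≠ h := by
    rintro rfl
    have : b i / M ^ i ≤ s := by rw [div_le_iff₀ (by positivity)]; exact hh
    linarith
  obtain ⟨j, rfl⟩ : ∃ j, i = j + 1 := ⟨i - 1, by omega⟩
  set c := b i1 / M ^ i1
  have hc0 : 0 < c := lt_of_le_of_lt hs hc
  have hl : b j / M ^ j < c := lt_of_le_of_ne (hmax j (by simp; omega))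
    fun e => hlt j (by omega) ⟨by omega, e⟩
  have hr : b (j + 2) / M ^ (j + 2) ≤ c := hmax (j + 2) (by simp; omega)
  have h2 := hconv (j + 1) (by omega) (by omega)
  simp only [add_tsub_cancel_right] at h2
  have h3 : c ^ 2 ≤ (b j / M ^ j) * (b (j + 2) / M ^ (j + 2)) := by
    rw [← heq, div_pow, div_mul_div_comm, ← pow_mul, ← pow_add,
      show (j + 1) * 2 = j + (j + 2) by ring]
    exact div_le_div_of_nonneg_right h2 (by positivity)
  have h4 : (b j / M ^ j) * (b (j + 2) / M ^ (j + 2)) ≤ (b j / M ^ j) * c :=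
    mul_le_mul_of_nonneg_left hr (div_nonneg (hb j) (by positivity))
  nlinarith

/-! ### Symmetric matrices -/

variable {R : Matrix ι ι ℝ}

omit [DecidableEq ι] in
theorem dot_sq_le (v w : ι → ℝ) : (v ⬝ᵥ w) ^ 2 ≤ (v ⬝ᵥ v) * (w ⬝ᵥ w) := by
  simp only [dotProduct, ← pow_two]
  exact Finset.sum_mul_sq_le_sq_mul_sq univ v w

omit [DecidableEq ι] in
theorem dot_self_nonneg (v : ι → ℝ) : 0 ≤ v ⬝ᵥ v :=
  Finset.sum_nonneg fun _ _ => mul_self_nonneg _

theorem dot_pow (hR : R.IsSymm) (v w : ι → ℝ) (i j : ℕ) :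
    v ⬝ᵥ (R ^ (i + j) *ᵥ w) = (R ^ i *ᵥ v) ⬝ᵥ (R ^ j *ᵥ w) := by
  rw [pow_add, ← Matrix.mulVec_mulVec, Matrix.dotProduct_mulVec, ← Matrix.mulVec_transpose,
    (hR.pow i).eq]

/-- The squared lengths of `R ^ i v` lie below the geometric sequence. -/
theorem sqlen_le (hR : R.IsSymm) {s M : ℝ} (hM : 0 < M) {h : ℕ} {v : ι → ℝ}
    (h0 : v ⬝ᵥ v ≤ s ^ 2) (hh : (R ^ h *ᵥ v) ⬝ᵥ (R ^ h *ᵥ v) ≤ (s * M ^ h) ^ 2) :
    ∀ i ≤ h, (R ^ i *ᵥ v) ⬝ᵥ (R ^ i *ᵥ v) ≤ (s * M ^ i) ^ 2 := by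
  intro i hi
  have := convex_le (b := fun i => (R ^ i *ᵥ v) ⬝ᵥ (R ^ i *ᵥ v)) (s := s ^ 2) (M := M ^ 2)
    (by positivity) (by positivity) (h := h) (fun j _ hj => ?_) (fun j => dot_self_nonneg _)
    (by simpa using h0) (by rw [← pow_mul, mul_comm 2 h, pow_mul, ← mul_pow]; exact hh) i hi
  · rwa [← pow_mul, mul_comm 2 i, pow_mul, ← mul_pow] at this
  · obtain ⟨k, rfl⟩ : ∃ k, j = k + 1 := ⟨j - 1, by omega⟩
    have e1 : (R ^ (k + 1) *ᵥ v) ⬝ᵥ (R ^ (k + 1) *ᵥ v)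
        = (R ^ k *ᵥ v) ⬝ᵥ (R ^ (k + 2) *ᵥ v) := by
      rw [← dot_pow hR, ← dot_pow hR]; congr 3; ring
    simp only [add_tsub_cancel_right]
    rw [e1]
    exact dot_sq_le _ _

/-- The entries of the powers of `R` between two bounded vectors. -/
theorem gap_le (hR : R.IsSymm) {s M : ℝ} (hM : 0 < M) {h : ℕ} {v w : ι → ℝ}
    (hv0 : v ⬝ᵥ v ≤ s ^ 2) (hvh : (R ^ h *ᵥ v) ⬝ᵥ (R ^ h *ᵥ v) ≤ (s * M ^ h) ^ 2)
    (hw0 : w ⬝ᵥ w ≤ s ^ 2) (hwh : (R ^ h *ᵥ w) ⬝ᵥ (R ^ h *ᵥ w) ≤ (s * M ^ h) ^ 2)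
    {g : ℕ} (hg : g ≤ 2 * h) : |v ⬝ᵥ (R ^ g *ᵥ w)| ≤ s ^ 2 * M ^ g := by
  obtain ⟨i, j, rfl, hi, hj⟩ : ∃ i j, g = i + j ∧ i ≤ h ∧ j ≤ h :=
    ⟨min g h, g - min g h, by omega, by omega, by omega⟩
  rw [dot_pow hR]
  refine abs_le_of_sq_le_sq ?_ (by positivity)
  refine (dot_sq_le _ _).trans ((mul_le_mul (sqlen_le hR hM hv0 hvh i hi)
    (sqlen_le hR hM hw0 hwh j hj) (dot_self_nonneg _) (sq_nonneg _)).trans_eq ?_)
  rw [pow_add]; ring

theorem sqlen_trace_le (hR : R.IsSymm) (v : ι → ℝ) (m : ℕ) :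
    (R ^ m *ᵥ v) ⬝ᵥ (R ^ m *ᵥ v) ≤ (v ⬝ᵥ v) * Matrix.trace (R ^ (2 * m)) := by
  rw [show R ^ (2 * m) = R ^ m * R ^ m by rw [← pow_add, two_mul], Matrix.trace, Finset.mul_sum]
  refine Finset.sum_le_sum fun i _ => ?_
  simp only [Matrix.diag, Matrix.mul_apply, Matrix.mulVec]
  have e : ∀ j, (R ^ m) j i = (R ^ m) i j := fun j => (hR.pow m).apply i j
  simp only [e]
  have := dot_sq_le ((R ^ m) i) v
  rw [pow_two] at this
  rw [mul_comm (v ⬝ᵥ v)]
  exact this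

theorem diag_sqlen (hR : R.IsSymm) (i : ι) (m : ℕ) :
    (R ^ (2 * m)) i i = (R ^ m *ᵥ Pi.single i 1) ⬝ᵥ (R ^ m *ᵥ Pi.single i 1) := by
  rw [← dot_pow hR, two_mul]
  simp

theorem diag_nonneg (hR : R.IsSymm) (i : ι) (m : ℕ) : 0 ≤ (R ^ (2 * m)) i i := by
  rw [diag_sqlen hR]; exact dot_self_nonneg _

theorem trace_nonneg (hR : R.IsSymm) (m : ℕ) : 0 ≤ Matrix.trace (R ^ (2 * m)) :=
  Finset.sum_nonneg fun i _ => diag_nonneg hR i m

/-! ### The expansion -/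

theorem pow_add_eq (R X : Matrix ι ι ℝ) (j : ℕ) :
    (R + X) ^ j = R ^ j + ∑ l ∈ range j, R ^ l * X * (R + X) ^ (j - 1 - l) := by
  induction j with
  | zero => simp
  | succ j ih =>
    rw [Finset.sum_range_succ', pow_succ' (R + X) j, add_mul]
    conv_lhs => arg 1; rw [ih, mul_add, Finset.mul_sum]
    simp only [add_tsub_cancel_right, pow_zero, one_mul, tsub_zero, pow_succ', add_assoc]
    congr 2
    refine Finset.sum_congr rfl fun l _ => ?_
    rw [show j - (l + 1) = j - 1 - l by omega]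
    simp only [mul_assoc]

theorem pow_add_eq' (R X : Matrix ι ι ℝ) (j : ℕ) :
    (R + X) ^ j = R ^ j + ∑ l ∈ range j, (R + X) ^ (j - 1 - l) * X * R ^ l := by
  induction j with
  | zero => simp
  | succ j ih =>
    rw [Finset.sum_range_succ', pow_succ (R + X) j, mul_add]
    conv_lhs => arg 1; rw [ih, add_mul, Finset.sum_mul]
    simp only [add_tsub_cancel_right, pow_zero, mul_one, tsub_zero, pow_succ, add_assoc]
    congr 2
    refine Finset.sum_congr rfl fun l _ => ?_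
    rw [show j - (l + 1) = j - 1 - l by omega]
    simp only [mul_assoc]

omit [DecidableEq ι] in
theorem trace_mul_rankOne (A B : Matrix ι ι ℝ) (a b : κ → ι → ℝ) :
    Matrix.trace (A * (∑ k, vecMulVec (a k) (b k)) * B) = ∑ k, b k ⬝ᵥ ((B * A) *ᵥ a k) := by
  rw [Matrix.trace_mul_cycle, Matrix.mul_sum, Matrix.trace_sum]
  refine Finset.sum_congr rfl fun k _ => ?_
  rw [Matrix.mul_vecMulVec, Matrix.trace_vecMulVec, dotProduct_comm]

theorem dot_pow_add (R : Matrix ι ι ℝ) (a b : κ → ι → ℝ) (v w : ι → ℝ) (g j : ℕ) :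
    v ⬝ᵥ ((R ^ g * (R + ∑ k, vecMulVec (a k) (b k)) ^ j) *ᵥ w)
      = v ⬝ᵥ (R ^ (g + j) *ᵥ w)
        + ∑ l ∈ range j, ∑ k, (v ⬝ᵥ (R ^ (g + l) *ᵥ a k))
            * (b k ⬝ᵥ ((R + ∑ k, vecMulVec (a k) (b k)) ^ (j - 1 - l) *ᵥ w)) := by
  conv_lhs => rw [pow_add_eq, mul_add, Finset.mul_sum, Matrix.add_mulVec, Matrix.sum_mulVec,
    dotProduct_add, dotProduct_sum, ← pow_add]
  congr 1
  refine Finset.sum_congr rfl fun l _ => ?_
  rw [← mul_assoc, ← mul_assoc, ← pow_add, ← Matrix.mulVec_mulVec, Matrix.mul_sum,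
    Matrix.sum_mulVec, dotProduct_sum]
  refine Finset.sum_congr rfl fun k _ => ?_
  rw [Matrix.mul_vecMulVec, Matrix.vecMulVec_mulVec, dotProduct_smul]
  simp

/-- The constant of the expansion. -/
def expConst (K N : ℕ) : ℝ := (N : ℝ) ^ 2 * (K : ℝ) ^ 2 * (1 + (K : ℝ)) ^ N

theorem expConst_nonneg (K N : ℕ) : 0 ≤ expConst K N := by unfold expConst; positivity

/-- The first order expansion of `tr (R + ∑ a_k b_k^T) ^ N`. -/
theorem trace_pow_add_le (R : Matrix ι ι ℝ) (a b : κ → ι → ℝ) {α β M : ℝ} {N : ℕ} (hN : 3 ≤ N)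
    (hα : 0 ≤ α) (hαM : α ≤ M) (hαβ : α ≤ β)
    (h1 : ∀ k k' g, g < N → |b k ⬝ᵥ (R ^ g *ᵥ a k')| ≤ α * M ^ g)
    (h2 : ∀ k k' g, g + 1 < N → |b k ⬝ᵥ (R ^ (g + 1) *ᵥ a k')| ≤ α * β * M ^ g) :
    |Matrix.trace ((R + ∑ k, vecMulVec (a k) (b k)) ^ N) - Matrix.trace (R ^ N)
        - N * ∑ k, b k ⬝ᵥ (R ^ (N - 1) *ᵥ a k)|
      ≤ expConst (Fintype.card κ) N * (α ^ 2 * β * M ^ (N - 3)) := by
  set K : ℝ := (Fintype.card κ : ℝ) with hK
  set Y := R + ∑ k, vecMulVec (a k) (b k) with hY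
  have hM : 0 ≤ M := hα.trans hαM
  have hβ : 0 ≤ β := hα.trans hαβ
  have rec_eq : ∀ k k' j, b k ⬝ᵥ (Y ^ j *ᵥ a k') = b k ⬝ᵥ (R ^ j *ᵥ a k')
      + ∑ l ∈ range j, ∑ i, (b k ⬝ᵥ (R ^ l *ᵥ a i)) * (b i ⬝ᵥ (Y ^ (j - 1 - l) *ᵥ a k')) := by
    intro k k' j
    have := dot_pow_add R a b (b k) (a k') 0 j
    simpa using this
  have geom : ∀ j, ∑ l ∈ range j, ∑ _i : κ, (1 + K) ^ (j - 1 - l) = (1 + K) ^ j - 1 := by
    intro j
    simp only [Finset.sum_const, Finset.card_univ, nsmul_eq_mul, ← hK, ← Finset.mul_sum]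
    rw [Finset.sum_range_reflect (fun l => (1 + K) ^ l) j, ← geom_sum_mul]
    ring
  have S1 : ∀ j, j < N → ∀ k k', |b k ⬝ᵥ (Y ^ j *ᵥ a k')| ≤ (1 + K) ^ j * (α * M ^ j) := by
    intro j
    induction j using Nat.strong_induction_on with
    | _ j ih =>
      intro hj k k'
      rw [rec_eq]
      refine (abs_add_le _ _).trans ?_
      have hsum : |∑ l ∈ range j, ∑ i, (b k ⬝ᵥ (R ^ l *ᵥ a i))
            * (b i ⬝ᵥ (Y ^ (j - 1 - l) *ᵥ a k'))|
          ≤ ∑ l ∈ range j, ∑ _i : κ, (1 + K) ^ (j - 1 - l) * (α * M ^ j) := by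
        refine (Finset.abs_sum_le_sum_abs _ _).trans (Finset.sum_le_sum fun l hl => ?_)
        rw [Finset.mem_range] at hl
        refine (Finset.abs_sum_le_sum_abs _ _).trans (Finset.sum_le_sum fun i _ => ?_)
        rw [abs_mul]
        refine (mul_le_mul (h1 _ _ _ (by omega)) (ih _ (by omega) (by omega) _ _)
          (abs_nonneg _) (by positivity)).trans ?_
        calc α * M ^ l * ((1 + K) ^ (j - 1 - l) * (α * M ^ (j - 1 - l)))
            = (1 + K) ^ (j - 1 - l) * (α * (α * M ^ (l + (j - 1 - l)))) := by rw [pow_add]; ring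
          _ ≤ (1 + K) ^ (j - 1 - l) * (α * (M * M ^ (l + (j - 1 - l)))) := by gcongr
          _ = _ := by rw [← pow_succ', show l + (j - 1 - l) + 1 = j by omega]
      refine (add_le_add (h1 _ _ _ hj) hsum).trans_eq ?_
      simp only [← Finset.sum_mul, geom]
      ring
  have S2 : ∀ j, j + 1 < N → ∀ k k',
      |b k ⬝ᵥ (Y ^ (j + 1) *ᵥ a k')| ≤ (1 + K) ^ (j + 1) * (α * β * M ^ j) := by
    intro j hj k k'
    rw [rec_eq]
    refine (abs_add_le _ _).trans ?_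
    have hsum : |∑ l ∈ range (j + 1), ∑ i, (b k ⬝ᵥ (R ^ l *ᵥ a i))
          * (b i ⬝ᵥ (Y ^ (j + 1 - 1 - l) *ᵥ a k'))|
        ≤ ∑ l ∈ range (j + 1), ∑ _i : κ, (1 + K) ^ (j + 1 - 1 - l) * (α * β * M ^ j) := by
      refine (Finset.abs_sum_le_sum_abs _ _).trans (Finset.sum_le_sum fun l hl => ?_)
      rw [Finset.mem_range] at hl
      refine (Finset.abs_sum_le_sum_abs _ _).trans (Finset.sum_le_sum fun i _ => ?_)
      rw [abs_mul]
      refine (mul_le_mul (h1 _ _ _ (by omega)) (S1 _ (by omega) _ _)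
        (abs_nonneg _) (by positivity)).trans ?_
      calc α * M ^ l * ((1 + K) ^ (j + 1 - 1 - l) * (α * M ^ (j + 1 - 1 - l)))
          = (1 + K) ^ (j + 1 - 1 - l) * (α * α * M ^ (l + (j + 1 - 1 - l))) := by
            rw [pow_add]; ring
        _ ≤ _ := by rw [show l + (j + 1 - 1 - l) = j by omega]; gcongr
    refine (add_le_add (h2 _ _ _ hj) hsum).trans_eq ?_
    simp only [← Finset.sum_mul, geom]
    ring
  have key : Matrix.trace (Y ^ N) - Matrix.trace (R ^ N)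
      - N * ∑ k, b k ⬝ᵥ (R ^ (N - 1) *ᵥ a k)
      = ∑ s ∈ range N, ∑ k, ∑ l ∈ range (N - 1 - s), ∑ i,
          (b k ⬝ᵥ (R ^ (s + l) *ᵥ a i)) * (b i ⬝ᵥ (Y ^ (N - 1 - s - 1 - l) *ᵥ a k)) := by
    rw [hY, pow_add_eq' R _ N, Matrix.trace_add, Matrix.trace_sum, add_sub_cancel_left]
    simp only [trace_mul_rankOne, dot_pow_add]
    rw [Finset.sum_congr rfl fun s hs => by
      rw [Finset.sum_add_distrib, show s + (N - 1 - s) = N - 1 by
        rw [Finset.mem_range] at hs; omega]]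
    rw [Finset.sum_add_distrib, Finset.sum_const, Finset.card_range, nsmul_eq_mul,
      add_sub_cancel_left]
  rw [key]
  have hB : ∀ s l, s + l + 1 < N → ∀ k i,
      |(b k ⬝ᵥ (R ^ (s + l) *ᵥ a i)) * (b i ⬝ᵥ (Y ^ (N - 1 - s - 1 - l) *ᵥ a k))|
        ≤ (1 + K) ^ N * (α ^ 2 * β * M ^ (N - 3)) := by
    intro s l hsl k i
    rw [abs_mul]
    have hp : (1 + K) ^ (N - 1 - s - 1 - l) ≤ (1 + K) ^ N :=
      pow_le_pow_right₀ (le_add_of_nonneg_right (by rw [hK]; positivity)) (by omega)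
    obtain hsl0 | ⟨g, hg⟩ : s + l = 0 ∨ ∃ g, s + l = g + 1 := by
      rcases Nat.eq_zero_or_pos (s + l) with h | h
      · exact .inl h
      · exact .inr ⟨s + l - 1, by omega⟩
    · obtain ⟨j, hj⟩ : ∃ j, N - 1 - s - 1 - l = j + 1 := ⟨N - 3, by omega⟩
      rw [hj] at hp ⊢
      rw [hsl0]
      refine (mul_le_mul (h1 _ _ _ (by omega)) (S2 j (by omega) _ _) (abs_nonneg _)
        (by positivity)).trans ?_
      rw [show N - 3 = j by omega]
      calc α * M ^ 0 * ((1 + K) ^ (j + 1) * (α * β * M ^ j))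
          = (1 + K) ^ (j + 1) * (α ^ 2 * β * M ^ j) := by ring
        _ ≤ _ := by gcongr
    · rw [hg]
      refine (mul_le_mul (h2 _ _ _ (by omega)) (S1 _ (by omega) _ _) (abs_nonneg _)
        (by positivity)).trans ?_
      rw [show N - 3 = g + (N - 1 - s - 1 - l) by omega, pow_add]
      calc α * β * M ^ g * ((1 + K) ^ (N - 1 - s - 1 - l) * (α * M ^ (N - 1 - s - 1 - l)))
          = (1 + K) ^ (N - 1 - s - 1 - l)
              * (α ^ 2 * β * (M ^ g * M ^ (N - 1 - s - 1 - l))) := by ring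
        _ ≤ _ := by gcongr
  set B := (1 + K) ^ N * (α ^ 2 * β * M ^ (N - 3)) with hBdef
  have hB0 : 0 ≤ B := by rw [hBdef, hK]; positivity
  calc |∑ s ∈ range N, ∑ k, ∑ l ∈ range (N - 1 - s), ∑ i, _|
      ≤ ∑ _s ∈ range N, ∑ _k : κ, ∑ _l ∈ range N, ∑ _i : κ, B := by
        refine (Finset.abs_sum_le_sum_abs _ _).trans (Finset.sum_le_sum fun s _ => ?_)
        refine (Finset.abs_sum_le_sum_abs _ _).trans (Finset.sum_le_sum fun k _ => ?_)
        refine (Finset.abs_sum_le_sum_abs _ _).trans ?_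
        refine le_trans (Finset.sum_le_sum fun l hl => ?_)
          (Finset.sum_le_sum_of_subset_of_nonneg (Finset.range_subset_range.2 (by omega))
            fun _ _ _ => Finset.sum_nonneg fun _ _ => hB0)
        rw [Finset.mem_range] at hl
        exact (Finset.abs_sum_le_sum_abs _ _).trans
          (Finset.sum_le_sum fun i _ => hB s l (by omega) k i)
    _ = _ := by
        simp only [Finset.sum_const, Finset.card_range, Finset.card_univ, nsmul_eq_mul, hBdef,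
          expConst, ← hK]
        ring

/-- Deleting rows and columns. -/
theorem trace_compress_pow (R P : Matrix ι ι ℝ) (hP : P * P = P) (j : ℕ) :
    Matrix.trace ((P * R * P) ^ (j + 1)) = Matrix.trace ((R * P) ^ (j + 1)) := by
  have h : ∀ j, (P * R * P) ^ (j + 1) = P * (R * P) ^ (j + 1) := by
    intro j
    induction j with
    | zero => simp [mul_assoc]
    | succ j ih =>
      rw [pow_succ, ih, pow_succ (R * P) (j + 1), pow_succ (R * P) j]
      simp only [mul_assoc]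
      rw [← mul_assoc P P, hP]
  rw [h j, Matrix.trace_mul_comm, pow_succ, mul_assoc, mul_assoc, hP]

end P046.Full.Links
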