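import Vale.Agent.P046.Full.Ident
import Vale.Agent.P046.Full.LinkExpand

/-!
P046, part I: what one triangle does to the trace of a power of a link matrix.

The base matrix is `lk W x q` with `q` the density after the step, so that a step only deletes two
rows and columns (triangles at `x`) or removes entries (the other triangles).
-/

namespace P046.Full.Links

open Finset Matrix

variable {n : ℕ} {W : Finset (Finset (Fin n))}

/-- The link matrix of `x` centred at `q`. -/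
def lk (W : Finset (Finset (Fin n))) (x : Fin n) (q : ℝ) : Matrix (Fin n) (Fin n) ℝ :=
  fun y z => adj W x y * adj W x z * (adj W y z - q)

/-- The indicator of an edge of the link of `x`. -/
noncomputable def ke (W : Finset (Finset (Fin n))) (x a b : Fin n) : ℝ :=
  adj W x a * adj W x b * adj W a b

theorem ke_cases (W : Finset (Finset (Fin n))) (x a b : Fin n) :
    ke W x a b = 0 ∨ ke W x a b = 1 := by
  rcases adj_cases W x a with h | h <;> rcases adj_cases W x b with h' | h' <;>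
    rcases adj_cases W a b with h'' | h'' <;> simp [ke, h, h', h'']

theorem ke_nonneg (W : Finset (Finset (Fin n))) (x a b : Fin n) : 0 ≤ ke W x a b := by
  rcases ke_cases W x a b with h | h <;> simp [h]

theorem link_eq (W : Finset (Finset (Fin n))) (x : Fin n) : link W x = lk W x (dens W) := rfl

theorem lk_symm (x : Fin n) (q : ℝ) : (lk W x q).IsSymm := by
  ext y z
  simp only [Matrix.transpose_apply, lk, adj_symm W z y]
  ring

theorem single_dot_mulVec (A : Matrix (Fin n) (Fin n) ℝ) (a b : Fin n) :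
    Pi.single a (1 : ℝ) ⬝ᵥ (A *ᵥ Pi.single b 1) = A a b := by
  simp

theorem pow_apply_zero {x y : Fin n} {q : ℝ} (h : adj W x y = 0) (g : ℕ) (z : Fin n) :
    (lk W x q ^ (g + 1)) y z = 0 := by
  rw [pow_succ', Matrix.mul_apply]
  exact Finset.sum_eq_zero fun w _ => by simp [lk, h]

theorem abs_lk_le {x : Fin n} {q : ℝ} (hq0 : 0 ≤ q) (hq1 : q ≤ 1) (a b : Fin n) :
    |lk W x q a b| ≤ 1 := by
  unfold lk
  rcases adj_cases W x a with h | h <;> rcases adj_cases W x b with h' | h' <;>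
    rcases adj_cases W a b with h'' | h'' <;> simp [h, h', h''] <;> rw [abs_le] <;>
    constructor <;> linarith

theorem lk_col_sq {x : Fin n} {q : ℝ} (hq0 : 0 ≤ q) (hq1 : q ≤ 1) (a : Fin n) :
    (lk W x q *ᵥ Pi.single a 1) ⬝ᵥ (lk W x q *ᵥ Pi.single a 1)
      ≤ adj W x a * (cd W x a + q * dg W x) := by
  rw [cd, dg, Finset.mul_sum, ← Finset.sum_add_distrib, Finset.mul_sum]
  simp only [dotProduct, Matrix.mulVec_single_one, Matrix.col_apply]
  refine Finset.sum_le_sum fun b _ => ?_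
  unfold lk
  rw [adj_symm W b a]
  rcases adj_cases W x a with h | h <;> rcases adj_cases W x b with h' | h' <;>
    rcases adj_cases W a b with h'' | h'' <;> simp [h, h', h''] <;> nlinarith

/-- Entries of powers of the base matrix, given a scale `M` for the two vertices. -/
theorem entries {x : Fin n} {q σ M : ℝ} {m : ℕ} (hq0 : 0 ≤ q) (hq1 : q ≤ 1) (hm : 2 ≤ m)
    (hσ : 1 ≤ σ) (hσM : σ ≤ M) (hcol : ∀ c, adj W x c * (cd W x c + q * dg W x) ≤ σ ^ 2) {a b : Fin n}
    (ha : (lk W x q ^ (2 * m)) a a ≤ σ ^ 2 * M ^ (2 * m - 2))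
    (hb : (lk W x q ^ (2 * m)) b b ≤ σ ^ 2 * M ^ (2 * m - 2)) :
    (∀ g, g ≤ 2 * m → |(lk W x q ^ g) a b| ≤ M ^ g) ∧
    (∀ g, g + 1 ≤ 2 * m → |(lk W x q ^ (g + 1)) a b| ≤ σ * M ^ g) ∧
    (∀ g, g + 2 ≤ 2 * m → |(lk W x q ^ (g + 2)) a b| ≤ σ ^ 2 * M ^ g) := by
  set R := lk W x q with hRdef
  have hR : R.IsSymm := lk_symm x q
  have hM : 0 < M := by linarith
  have hsq : ∀ c, (R ^ (2 * m)) c c ≤ σ ^ 2 * M ^ (2 * m - 2) →
      (R ^ (m - 1) *ᵥ (R *ᵥ Pi.single c 1)) ⬝ᵥ (R ^ (m - 1) *ᵥ (R *ᵥ Pi.single c 1))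
        ≤ (σ * M ^ (m - 1)) ^ 2 := by
    intro c hc
    rw [Matrix.mulVec_mulVec, ← pow_succ, show m - 1 + 1 = m by omega, ← diag_sqlen hR]
    refine hc.trans_eq ?_
    rw [mul_pow, ← pow_mul, show (m - 1) * 2 = 2 * m - 2 by omega]
  have h2 : ∀ g, g + 2 ≤ 2 * m → |(R ^ (g + 2)) a b| ≤ σ ^ 2 * M ^ g := by
    intro g hg
    have := gap_le hR hM ((lk_col_sq hq0 hq1 a).trans (hcol a)) (hsq a ha)
      ((lk_col_sq hq0 hq1 b).trans (hcol b)) (hsq b hb) (g := g) (by omega)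
    rwa [show (R *ᵥ Pi.single a 1) ⬝ᵥ (R ^ g *ᵥ (R *ᵥ Pi.single b 1)) = (R ^ (g + 2)) a b from ?_]
      at this
    rw [← single_dot_mulVec (R ^ (g + 2)) a b, show g + 2 = 1 + (g + 1) by ring,
      dot_pow hR (Pi.single a 1) (Pi.single b 1) 1 (g + 1), pow_one, pow_succ,
      ← Matrix.mulVec_mulVec]
  have h1 : ∀ g, g + 1 ≤ 2 * m → |(R ^ (g + 1)) a b| ≤ σ * M ^ g := by
    intro g hg
    rcases g with _ | g
    · rw [zero_add, pow_one, pow_zero, mul_one]
      exact (abs_lk_le hq0 hq1 a b).trans hσ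
    · refine (h2 g (by omega)).trans ?_
      rw [pow_succ M g]
      nlinarith [mul_le_mul_of_nonneg_right hσM (mul_nonneg (by linarith : (0 : ℝ) ≤ σ)
        (pow_nonneg hM.le g))]
  refine ⟨fun g hg => ?_, h1, h2⟩
  rcases g with _ | g
  · rw [pow_zero, pow_zero, Matrix.one_apply]
    split_ifs <;> simp
  · refine (h1 g hg).trans ?_
    rw [pow_succ' M g]
    exact mul_le_mul_of_nonneg_right hσM (by positivity)

theorem rm_left_eq_zero {t : Finset (Finset (Fin n))} (ht : t ∈ (kn n).tris W) {x : Fin n}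
    (hx : x ∉ verts t) (y : Fin n) : rm t x y = 0 := by
  simp [rm_verts ht, hx]

/-- A triangle at `x` deletes two rows and columns. -/
theorem link_del {t : Finset (Finset (Fin n))} (ht : t ∈ (kn n).tris W) {x : Fin n}
    (hx : x ∈ verts t) :
    link (W \ t) x = Matrix.diagonal (fun y => if y ∈ verts t then (0 : ℝ) else 1)
      * lk W x (dens (W \ t)) * Matrix.diagonal (fun y => if y ∈ verts t then (0 : ℝ) else 1) := by
  have h0 : ∀ y, adj (W \ t) x y = if y ∈ verts t then 0 else adj W x y := by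
    intro y
    rw [adj_sdiff ht, rm_verts ht]
    by_cases hy : y ∈ verts t
    · by_cases hxy : x = y
      · subst hxy; simp [adj_self, hy]
      · simp [hx, hy, hxy, adj_of_verts ht hx hy hxy]
    · simp [hy]
  ext y z
  rw [Matrix.mul_diagonal, Matrix.diagonal_mul]
  simp only [link, lk, h0]
  by_cases hy : y ∈ verts t
  · simp [hy]
  by_cases hz : z ∈ verts t
  · simp [hz]
  simp [hy, hz, adj_sdiff ht, rm_verts ht]

/-- A triangle away from `x` deletes entries. -/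
theorem link_edge {t : Finset (Finset (Fin n))} (ht : t ∈ (kn n).tris W) {x : Fin n}
    (hx : x ∉ verts t) :
    link (W \ t) x = lk W x (dens (W \ t)) + ∑ k : ↥(verts t).offDiag,
      vecMulVec (-(ke W x k.1.1 k.1.2) • Pi.single k.1.1 (1 : ℝ)) (Pi.single k.1.2 (1 : ℝ)) := by
  ext y z
  rw [Matrix.add_apply, Matrix.sum_apply,
    Finset.sum_coe_sort (verts t).offDiag (fun k : Fin n × Fin n => vecMulVec
      (-(ke W x k.1 k.2) • (Pi.single k.1 (1 : ℝ) : Fin n → ℝ))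
      (Pi.single k.2 (1 : ℝ) : Fin n → ℝ) y z)]
  have e : ∑ k ∈ (verts t).offDiag, vecMulVec
      (-(ke W x k.1 k.2) • Pi.single k.1 (1 : ℝ)) (Pi.single k.2 (1 : ℝ)) y z
      = -(ke W x y z) * rm t y z := by
    rw [rm_verts ht]
    by_cases h : (y, z) ∈ (verts t).offDiag
    · rw [Finset.sum_eq_single (y, z)]
      · rw [Finset.mem_offDiag] at h
        simp [Matrix.vecMulVec_apply, h.1, h.2.1, h.2.2]
      · intro k _ hne
        simp only [Matrix.vecMulVec_apply, Pi.smul_apply, Pi.single_apply, smul_eq_mul]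
        split_ifs with h1 h2 <;> simp_all
      · exact fun h' => absurd h h'
    · rw [Finset.sum_eq_zero]
      · rw [Finset.mem_offDiag] at h
        rw [if_neg fun hc => h ⟨hc.2.1, hc.2.2, hc.1⟩, mul_zero]
      · intro k hk
        simp only [Matrix.vecMulVec_apply, Pi.smul_apply, Pi.single_apply, smul_eq_mul]
        split_ifs with h1 h2 <;> simp_all
  rw [e]
  simp only [link, lk, ke, adj_sdiff ht, rm_left_eq_zero ht hx, sub_zero]
  rcases rm_cases t y z with h | h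
  · rw [h]; ring
  · have hA : adj W y z = 1 := by
      have := adj_mul_rm ht y z
      rw [h, mul_one] at this
      exact this
    rw [h, hA]; ring

theorem cube_le {σ M δ S : ℝ} {h : ℕ} (hσ : 1 ≤ σ) (hσM : σ ≤ M) (hδ : 0 < δ) (hδ1 : δ ≤ 1)
    (hh : 1 ≤ h) (hS : M ^ h ≤ σ ^ h + S / σ ^ 2) :
    σ ^ 3 * M ^ (h - 1) ≤ δ * S + 2 * (1 / δ) ^ h * σ ^ (h + 2) := by
  have h0 : 0 ≤ σ := by linarith
  have hy := young (e := h - 1) (N := h) (a := M) (b := σ) (δ := δ) (by linarith) h0 hδ hδ1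
    (by omega)
  rw [show h - (h - 1) = 1 by omega, pow_one] at hy
  have h1 : 1 ≤ (1 / δ) ^ h := one_le_pow₀ (by rw [le_div_iff₀ hδ]; linarith)
  calc σ ^ 3 * M ^ (h - 1) = σ ^ 2 * (M ^ (h - 1) * σ) := by ring
    _ ≤ σ ^ 2 * (δ * (σ ^ h + S / σ ^ 2) + (1 / δ) ^ h * σ ^ h) := by
        gcongr
        exact hy.trans (by gcongr)
    _ = δ * S + (δ + (1 / δ) ^ h) * σ ^ (h + 2) := by field_simp; ring
    _ ≤ _ := by
        gcongr
        linarith

/-- The trace after deleting the rows and columns of a triangle at `x`. -/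
theorem del_trace_le {t : Finset (Finset (Fin n))} (ht : t ∈ (kn n).tris W) {x : Fin n}
    (hx : x ∈ verts t) {q σ δ : ℝ} {m : ℕ} (hq : dens (W \ t) = q) (hq0 : 0 ≤ q) (hq1 : q ≤ 1)
    (hm : 2 ≤ m) (hσ : 1 ≤ σ) (hδ : 0 < δ) (hδ1 : δ ≤ 1)
    (hcol : ∀ c, adj W x c * (cd W x c + q * dg W x) ≤ σ ^ 2) :
    Matrix.trace (link (W \ t) x ^ (2 * m))
      ≤ Matrix.trace (lk W x q ^ (2 * m))
        - (2 * m : ℕ) * ∑ a ∈ verts t, (lk W x q ^ (2 * m)) a a
        + expConst 3 (2 * m) * (δ * ∑ a ∈ verts t, (lk W x q ^ (2 * m)) a a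
            + 2 * (1 / δ) ^ (2 * m - 2) * σ ^ (2 * m)) := by
  set R := lk W x q with hRdef
  have hR : R.IsSymm := lk_symm x q
  set P := Matrix.diagonal (fun y => if y ∈ verts t then (0 : ℝ) else 1) with hPdef
  have hPP : P * P = P := by
    rw [hPdef, Matrix.diagonal_mul_diagonal]
    congr 1; ext y; split_ifs <;> simp
  obtain ⟨j, hj⟩ : ∃ j, 2 * m = j + 1 := ⟨2 * m - 1, by omega⟩
  rw [link_del ht hx, hq, hj, trace_compress_pow _ _ hPP, ← hj]
  have hRP : R * P = R + ∑ k : ↥(verts t),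
      vecMulVec (-(R *ᵥ Pi.single k.1 (1 : ℝ))) (Pi.single k.1 (1 : ℝ)) := by
    ext y z
    rw [hPdef, Matrix.mul_diagonal, Matrix.add_apply, Matrix.sum_apply,
      Finset.sum_coe_sort (verts t) (fun k => vecMulVec (-(R *ᵥ Pi.single k (1 : ℝ)))
        (Pi.single k (1 : ℝ)) y z)]
    simp only [Matrix.vecMulVec_apply, Pi.neg_apply, Matrix.mulVec_single_one, Matrix.col_apply,
      Pi.single_apply, mul_ite, mul_one, mul_zero, Finset.sum_ite_eq]
    split_ifs <;> simp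
  set S := ∑ a ∈ verts t, (R ^ (2 * m)) a a with hSdef
  have hS0 : 0 ≤ S := Finset.sum_nonneg fun a _ => diag_nonneg hR a m
  obtain ⟨M, hσM, hxM, hMle⟩ := exists_root (x := S / σ ^ 2) (by positivity)
    (by linarith : 0 ≤ σ) (h := 2 * m - 2) (by omega)
  have hP : ∀ a ∈ verts t, (R ^ (2 * m)) a a ≤ σ ^ 2 * M ^ (2 * m - 2) := by
    intro a ha
    refine (Finset.single_le_sum (fun b _ => diag_nonneg hR b m) ha).trans ?_
    rw [← hSdef]
    rw [div_le_iff₀ (by positivity)] at hxM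
    linarith
  have hent : ∀ (k k' : ↥(verts t)) (g : ℕ),
      Pi.single k.1 (1 : ℝ) ⬝ᵥ (R ^ g *ᵥ -(R *ᵥ Pi.single k'.1 (1 : ℝ)))
        = -(R ^ (g + 1)) k.1 k'.1 := by
    intro k k' g
    rw [Matrix.mulVec_neg, dotProduct_neg, Matrix.mulVec_mulVec, ← pow_succ, single_dot_mulVec]
  have key := trace_pow_add_le R (fun k : ↥(verts t) => -(R *ᵥ Pi.single k.1 (1 : ℝ)))
    (fun k => Pi.single k.1 (1 : ℝ)) (α := σ) (β := σ) (M := M) (N := 2 * m) (by omega)
    (by linarith) hσM le_rfl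
    (fun k k' g hg => by
      rw [hent, abs_neg]
      exact (entries hq0 hq1 hm hσ hσM hcol (hP _ k.2) (hP _ k'.2)).2.1 g hg)
    (fun k k' g hg => by
      rw [hent, abs_neg, ← pow_two]
      exact (entries hq0 hq1 hm hσ hσM hcol (hP _ k.2) (hP _ k'.2)).2.2 g hg)
  rw [← hRP] at key
  simp only [hent, Fintype.card_coe, verts_card ht, show 2 * m - 1 + 1 = 2 * m by omega,
    Finset.sum_neg_distrib, mul_neg, sub_neg_eq_add] at key
  rw [Finset.sum_coe_sort (verts t) (fun k => (R ^ (2 * m)) k k), ← hSdef] at key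
  have hc := cube_le hσ hσM hδ hδ1 (by omega) hMle
  rw [show 2 * m - 2 - 1 = 2 * m - 3 by omega, show 2 * m - 2 + 2 = 2 * m by omega] at hc
  have h1 := (le_abs_self _).trans key
  have h2 := mul_le_mul_of_nonneg_left hc (expConst_nonneg 3 (2 * m))
  rw [show σ ^ 2 * σ * M ^ (2 * m - 3) = σ ^ 3 * M ^ (2 * m - 3) by ring] at h1
  linarith

/-- The trace after deleting the entries of a triangle away from `x`. -/
theorem edge_trace_le {t : Finset (Finset (Fin n))} (ht : t ∈ (kn n).tris W) {x : Fin n}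
    (hx : x ∉ verts t) {q σ δ : ℝ} {m : ℕ} (hq : dens (W \ t) = q) (hq0 : 0 ≤ q) (hq1 : q ≤ 1)
    (hm : 2 ≤ m) (hσ : 1 ≤ σ) (hδ : 0 < δ) (hδ1 : δ ≤ 1)
    (hcol : ∀ c, adj W x c * (cd W x c + q * dg W x) ≤ σ ^ 2) :
    Matrix.trace (link (W \ t) x ^ (2 * m))
      ≤ Matrix.trace (lk W x q ^ (2 * m))
        - (2 * m : ℕ) * ∑ k ∈ (verts t).offDiag, ke W x k.1 k.2 * (lk W x q ^ (2 * m - 1)) k.2 k.1
        + expConst 6 (2 * m) / σ ^ 2
          * (18 * δ * ∑ k ∈ (verts t).offDiag, ke W x k.1 k.2 * (lk W x q ^ (2 * m)) k.1 k.1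
            + 2 * (1 / δ) ^ (2 * m - 2) * σ ^ (2 * m)
              * ∑ k ∈ (verts t).offDiag, ke W x k.1 k.2) := by
  set R := lk W x q with hRdef
  have hR : R.IsSymm := lk_symm x q
  have hcard : (verts t).offDiag.card = 6 := by rw [Finset.offDiag_card, verts_card ht]
  rw [link_edge ht hx, hq, ← hRdef]
  set K := ∑ k ∈ (verts t).offDiag, ke W x k.1 k.2 with hKdef
  set S := ∑ a ∈ verts t, (R ^ (2 * m)) a a with hSdef
  set SK := ∑ k ∈ (verts t).offDiag, ke W x k.1 k.2 * (R ^ (2 * m)) k.1 k.1 with hSKdef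
  have hS0 : 0 ≤ S := Finset.sum_nonneg fun a _ => diag_nonneg hR a m
  obtain ⟨M, hσM, hxM, hMle⟩ := exists_root (x := S / σ ^ 2) (by positivity)
    (by linarith : 0 ≤ σ) (h := 2 * m - 2) (by omega)
  have hP : ∀ a ∈ verts t, (R ^ (2 * m)) a a ≤ σ ^ 2 * M ^ (2 * m - 2) := by
    intro a ha
    refine (Finset.single_le_sum (fun b _ => diag_nonneg hR b m) ha).trans ?_
    rw [← hSdef]
    rw [div_le_iff₀ (by positivity)] at hxM
    linarith
  have hent : ∀ (k k' : ↥(verts t).offDiag) (g : ℕ),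
      Pi.single k.1.2 (1 : ℝ) ⬝ᵥ (R ^ g *ᵥ (-(ke W x k'.1.1 k'.1.2) • Pi.single k'.1.1 (1 : ℝ)))
        = -(ke W x k'.1.1 k'.1.2 * (R ^ g) k.1.2 k'.1.1) := by
    intro k k' g
    rw [Matrix.mulVec_smul, dotProduct_smul, single_dot_mulVec, smul_eq_mul]
    ring
  obtain ⟨α, hα0, hα1, hαK, hkα⟩ : ∃ α : ℝ, 0 ≤ α ∧ α ≤ 1 ∧ α ≤ K ∧
      ∀ k ∈ (verts t).offDiag, ke W x k.1 k.2 ≤ α := by
    rcases eq_or_ne K 0 with h | h
    · exact ⟨0, le_rfl, zero_le_one, h.ge, fun k hk => le_of_eq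
        ((Finset.sum_eq_zero_iff_of_nonneg fun k _ => ke_nonneg W x k.1 k.2).1 h k hk)⟩
    · refine ⟨1, zero_le_one, le_rfl, ?_, fun k _ => ?_⟩
      · obtain ⟨k, hk, hk1⟩ := Finset.exists_ne_zero_of_sum_ne_zero h
        have h1 : ke W x k.1 k.2 = 1 := (ke_cases W x k.1 k.2).resolve_left hk1
        rw [← h1]
        exact Finset.single_le_sum (f := fun k : Fin n × Fin n => ke W x k.1 k.2)
          (fun k _ => ke_nonneg W x k.1 k.2) hk
      · rcases ke_cases W x k.1 k.2 with h | h <;> simp [h]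
  have key := trace_pow_add_le R
    (fun k : ↥(verts t).offDiag => -(ke W x k.1.1 k.1.2) • Pi.single k.1.1 (1 : ℝ))
    (fun k => Pi.single k.1.2 (1 : ℝ)) (α := α) (β := σ) (M := M) (N := 2 * m) (by omega)
    hα0 (by linarith) (by linarith)
    (fun k k' g hg => by
      rw [hent, abs_neg, abs_mul, abs_of_nonneg (ke_nonneg W x _ _)]
      exact mul_le_mul (hkα _ k'.2) ((entries hq0 hq1 hm hσ hσM hcol
        (hP _ (Finset.mem_offDiag.1 k.2).2.1) (hP _ (Finset.mem_offDiag.1 k'.2).1)).1 g hg.le)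
        (abs_nonneg _) hα0)
    (fun k k' g hg => by
      rw [hent, abs_neg, abs_mul, abs_of_nonneg (ke_nonneg W x _ _), mul_assoc]
      exact mul_le_mul (hkα _ k'.2) ((entries hq0 hq1 hm hσ hσM hcol
        (hP _ (Finset.mem_offDiag.1 k.2).2.1) (hP _ (Finset.mem_offDiag.1 k'.2).1)).2.1 g hg.le)
        (abs_nonneg _) hα0)
  simp only [hent, Fintype.card_coe, hcard, Finset.sum_neg_distrib, mul_neg,
    sub_neg_eq_add] at key
  rw [Finset.sum_coe_sort (verts t).offDiag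
    (fun k => ke W x k.1 k.2 * (R ^ (2 * m - 1)) k.2 k.1)] at key
  have h1 := (le_abs_self _).trans key
  have hKS : K * S ≤ 18 * SK := by
    rw [hKdef, hSdef, Finset.sum_mul_sum]
    refine (Finset.sum_le_card_nsmul _ _ (3 * SK) fun k hk => ?_).trans_eq
      (by rw [hcard, nsmul_eq_mul]; ring)
    refine (Finset.sum_le_card_nsmul _ _ SK fun c hc => ?_).trans_eq
      (by rw [verts_card ht, nsmul_eq_mul]; norm_num)
    have hnn : ∀ j ∈ (verts t).offDiag, 0 ≤ ke W x j.1 j.2 * (R ^ (2 * m)) j.1 j.1 :=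
      fun j _ => mul_nonneg (ke_nonneg W x _ _) (diag_nonneg hR _ _)
    rcases ke_cases W x k.1 k.2 with h | h
    · rw [h, zero_mul]; exact Finset.sum_nonneg hnn
    rcases adj_cases W x c with hc0 | hc0
    · rw [show 2 * m = 2 * m - 1 + 1 by omega, hRdef, pow_apply_zero hc0, mul_zero]
      rw [hSKdef, show 2 * m = 2 * m - 1 + 1 by omega] at *
      exact Finset.sum_nonneg hnn
    obtain ⟨hk1, hk2, hk12⟩ := Finset.mem_offDiag.1 hk
    by_cases hca : c = k.1
    · subst hca; exact Finset.single_le_sum hnn hk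
    · have hadj : adj W x k.1 = 1 := by
        rcases adj_cases W x k.1 with h' | h'
        · simp [ke, h'] at h
        · exact h'
      have := Finset.single_le_sum hnn (a := (c, k.1))
        (Finset.mem_offDiag.2 ⟨hc, hk1, hca⟩)
      have e : ke W x c k.1 = 1 := by simp [ke, hc0, hadj, adj_of_verts ht hc hk1 hca]
      rw [e, one_mul] at this
      rw [h, one_mul]
      exact this
  have hc := cube_le hσ hσM hδ hδ1 (by omega) hMle
  rw [show 2 * m - 2 - 1 = 2 * m - 3 by omega, show 2 * m - 2 + 2 = 2 * m by omega] at hc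
  have hK0 : 0 ≤ K := hα0.trans hαK
  have h2 : α ^ 2 * σ * M ^ (2 * m - 3)
      ≤ (18 * δ * SK + 2 * (1 / δ) ^ (2 * m - 2) * σ ^ (2 * m) * K) / σ ^ 2 := by
    have hM0 : 0 ≤ M := by linarith
    rw [le_div_iff₀ (by positivity)]
    calc α ^ 2 * σ * M ^ (2 * m - 3) * σ ^ 2 = α ^ 2 * (σ ^ 3 * M ^ (2 * m - 3)) := by ring
      _ ≤ K * (δ * S + 2 * (1 / δ) ^ (2 * m - 2) * σ ^ (2 * m)) :=
          mul_le_mul ((pow_le_of_le_one hα0 hα1 two_ne_zero).trans hαK) hc (by positivity) hK0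
      _ = δ * (K * S) + 2 * (1 / δ) ^ (2 * m - 2) * σ ^ (2 * m) * K := by ring
      _ ≤ _ := by nlinarith [mul_le_mul_of_nonneg_left hKS hδ.le]
  have h3 := mul_le_mul_of_nonneg_left h2 (expConst_nonneg 6 (2 * m))
  rw [mul_div_assoc'] at h3
  rw [div_mul_eq_mul_div]
  linarith

end P046.Full.Links
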