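import Vale.Agent.P046.Full.LinkStep

/-!
P046, part I: the expected change of the trace of a power of a link matrix in one step.
-/

namespace P046.Full.Links

open Finset Matrix

variable {n : ℕ} {W : Finset (Finset (Fin n))}

/-- The hypotheses on a state. -/
structure Hyp (W : Finset (Finset (Fin n))) (η ρ : ℝ) (m : ℕ) : Prop where
  sub : W ⊆ allPairs n
  large : 12 ≤ n
  reg : Regular W η ρ m
  eta_le : η ≤ 1 / 100
  eta_nonneg : 0 ≤ η
  eta_u : 1 ≤ η ^ 2 * uexp W

namespace Hyp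

variable {η ρ : ℝ} {m : ℕ} (h : Hyp W η ρ m)
include h

theorem npairs_pos : (0 : ℝ) < (n : ℝ) * (n - 1) / 2 := by
  have : (12 : ℝ) ≤ n := by exact_mod_cast h.large
  nlinarith

theorem u_pos : 0 < uexp W := by
  rcases lt_or_ge 0 (uexp W) with h1 | h1
  · exact h1
  · nlinarith [h.eta_u, sq_nonneg η]

theorem u_ge : 1 ≤ uexp W := by
  have h1 : η ^ 2 ≤ 1 := pow_le_one₀ h.eta_nonneg (by linarith [h.eta_le])
  nlinarith [h.eta_u, h.u_pos]

theorem eta_u_ge : 1 ≤ η * uexp W := by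
  have h1 : η ^ 2 ≤ η := by nlinarith [h.eta_nonneg, h.eta_le]
  nlinarith [h.eta_u, h.u_pos]

theorem dens_pos : 0 < dens W := by
  refine lt_of_le_of_ne (dens_nonneg (by have := h.large; omega)) fun e => ?_
  have := h.u_pos
  rw [uexp, ← e] at this
  norm_num at this

theorem dens_le_one : dens W ≤ 1 := by
  rw [dens, div_le_one h.npairs_pos]
  have h1 := Finset.card_le_card h.sub
  rw [allPairs, Finset.card_powersetCard, Finset.card_univ, Fintype.card_fin] at h1
  calc (W.card : ℝ) ≤ (n.choose 2 : ℕ) := by exact_mod_cast h1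
    _ = _ := Nat.cast_choose_two ℝ n

theorem card_pos : 0 < (W.card : ℝ) := by
  have := h.dens_pos
  rwa [dens, div_pos_iff_of_pos_right h.npairs_pos] at this

theorem six_u_le : 6 * uexp W ≤ W.card := by
  have hn : (12 : ℝ) ≤ n := by exact_mod_cast h.large
  have hE : (W.card : ℝ) = dens W * ((n : ℝ) * (n - 1) / 2) :=
    (div_mul_cancel₀ _ h.npairs_pos.ne').symm
  rw [hE, uexp]
  have hp := h.dens_pos
  have h1 : 6 * ((n : ℝ) - 2) ≤ (n : ℝ) * (n - 1) / 2 := by nlinarith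
  calc 6 * (((n : ℝ) - 2) * dens W ^ 2) = 6 * ((n : ℝ) - 2) * dens W * dens W := by ring
    _ ≤ 6 * ((n : ℝ) - 2) * dens W * 1 :=
        mul_le_mul_of_nonneg_left h.dens_le_one (by nlinarith)
    _ = dens W * (6 * ((n : ℝ) - 2)) := by ring
    _ ≤ _ := mul_le_mul_of_nonneg_left h1 hp.le

theorem dens_sdiff {t : Finset (Finset (Fin n))} (ht : t ∈ (kn n).tris W) :
    dens (W \ t) = dens W * (1 - 3 / (W.card : ℝ)) := by
  have h1 : ((W \ t).card : ℝ) = (W.card : ℝ) - 3 := by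
    rw [eq_sub_iff_add_eq]; exact_mod_cast LH.card_sdiff_tri ht
  have := h.card_pos
  rw [dens, dens, h1]
  field_simp

/-- The density after one step lies in `[0, p]`. -/
theorem next_bounds :
    0 ≤ dens W * (1 - 3 / (W.card : ℝ)) ∧ dens W * (1 - 3 / (W.card : ℝ)) ≤ dens W := by
  have h1 : 3 / (W.card : ℝ) ≤ 1 := by
    rw [div_le_one h.card_pos]
    linarith [h.six_u_le, h.u_ge]
  have h2 : (0 : ℝ) ≤ 3 / (W.card : ℝ) := div_nonneg (by norm_num) h.card_pos.le
  constructor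
  · exact mul_nonneg h.dens_pos.le (by linarith)
  · nlinarith [h.dens_pos]

theorem cd_le {x y : Fin n} (hxy : adj W x y = 1) : cd W x y ≤ 2 * uexp W :=
  (h.reg.cd_bounds h.u_pos hxy).2.trans (by nlinarith [h.eta_le, h.u_pos])

theorem dens_dg_le (x : Fin n) : dens W * dg W x ≤ 2 * uexp W := by
  have hn : (12 : ℝ) ≤ n := by exact_mod_cast h.large
  have hp := h.dens_pos
  calc dens W * dg W x ≤ dens W * ((1 + η) * (((n : ℝ) - 1) * dens W)) :=
        mul_le_mul_of_nonneg_left (h.reg.dg_bounds (by have := h.large; omega) hp x).2 hp.le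
    _ = (1 + η) * ((n : ℝ) - 1) * dens W ^ 2 := by ring
    _ ≤ 2 * ((n : ℝ) - 2) * dens W ^ 2 :=
        mul_le_mul_of_nonneg_right (by nlinarith [h.eta_le]) (sq_nonneg _)
    _ = _ := by rw [uexp]; ring

theorem col_le {x : Fin n} {q : ℝ} (hq : q ≤ dens W) (c : Fin n) :
    adj W x c * (cd W x c + q * dg W x) ≤ (2 * Real.sqrt (uexp W)) ^ 2 := by
  rw [mul_pow, Real.sq_sqrt h.u_pos.le]
  rcases adj_cases W x c with e | e
  · rw [e, zero_mul]; linarith [h.u_pos]
  · rw [e, one_mul]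
    have := mul_le_mul_of_nonneg_right hq (dg_nonneg W x)
    linarith [h.cd_le e, h.dens_dg_le x]

theorem ke_row (x a : Fin n) : ∑ b, ke W x a b ≤ 2 * uexp W := by
  have e : ∑ b, ke W x a b = adj W x a * cd W x a := by
    rw [cd, Finset.mul_sum]
    exact Finset.sum_congr rfl fun b _ => by rw [ke]; ring
  rw [e]
  rcases adj_cases W x a with e | e
  · rw [e, zero_mul]; linarith [h.u_pos]
  · rw [e, one_mul]; exact h.cd_le e

end Hyp

theorem ke_symm (W : Finset (Finset (Fin n))) (x a b : Fin n) : ke W x a b = ke W x b a := by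
  rw [ke, ke, adj_symm W b a]; ring

theorem sum_verts_diag {t : Finset (Finset (Fin n))} (ht : t ∈ (kn n).tris W) {x : Fin n}
    (hx : x ∈ verts t) (f : Fin n → ℝ) (hf : f x = 0) :
    ∑ a ∈ verts t, f a = ∑ a, rm t x a * f a := by
  rw [← Finset.sum_subset (Finset.subset_univ (verts t)) fun a _ ha => by simp [rm_verts ht, ha]]
  refine Finset.sum_congr rfl fun a ha => ?_
  by_cases hxa : x = a
  · subst hxa; simp [hf]
  · simp [rm_verts ht, hx, ha, hxa]

theorem sum_offDiag_rm {t : Finset (Finset (Fin n))} (ht : t ∈ (kn n).tris W)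
    (f : Fin n → Fin n → ℝ) :
    ∑ k ∈ (verts t).offDiag, f k.1 k.2 = ∑ a, ∑ b, rm t a b * f a b := by
  have e : ∀ a b, rm t a b * f a b = if (a, b) ∈ (verts t).offDiag then f a b else 0 := by
    intro a b
    rw [rm_verts ht]
    simp only [Finset.mem_offDiag, ite_mul, one_mul, zero_mul]
    exact if_congr (by tauto) rfl rfl
  simp only [e]
  rw [← Fintype.sum_prod_type', ← Finset.sum_filter]
  refine Finset.sum_congr ?_ fun _ _ => rfl
  ext k
  simp

theorem ke_rm_eq {t : Finset (Finset (Fin n))} (ht : t ∈ (kn n).tris W) {x : Fin n}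
    (hx : x ∈ verts t) (a b : Fin n) :
    ke W x a b * (rm t a b - rm t x a * rm t x b) = 0 := by
  rcases ke_cases W x a b with e | e
  · rw [e, zero_mul]
  · have hne : ∀ c, adj W x c = 1 → x ≠ c := fun c hc => (adj_eq_one.1 hc).1
    have h1 : adj W x a = 1 := by
      rcases adj_cases W x a with h' | h'
      · simp [ke, h'] at e
      · exact h'
    have h2 : adj W x b = 1 := by
      rcases adj_cases W x b with h' | h'
      · simp [ke, h'] at e
      · exact h'
    have h3 : adj W a b = 1 := by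
      rcases adj_cases W a b with h' | h'
      · simp [ke, h'] at e
      · exact h'
    rw [e, one_mul, rm_verts ht, rm_verts ht, rm_verts ht]
    by_cases ha : a ∈ verts t <;> by_cases hb : b ∈ verts t <;>
      simp [hx, ha, hb, hne a h1, hne b h2, (adj_eq_one.1 h3).1]

/-- The two cases of `LinkStep` in one formula. -/
theorem step_trace_le {t : Finset (Finset (Fin n))} (ht : t ∈ (kn n).tris W) (x : Fin n)
    {q σ δ : ℝ} {m : ℕ} (hq : dens (W \ t) = q) (hq0 : 0 ≤ q) (hq1 : q ≤ 1) (hm : 2 ≤ m)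
    (hσ : 1 ≤ σ) (hδ : 0 < δ) (hδ1 : δ ≤ 1)
    (hcol : ∀ c, adj W x c * (cd W x c + q * dg W x) ≤ σ ^ 2) :
    Matrix.trace (link (W \ t) x ^ (2 * m))
      ≤ Matrix.trace (lk W x q ^ (2 * m))
        - (2 * m : ℕ) * ((∑ a, rm t x a * (lk W x q ^ (2 * m)) a a)
          + ∑ a, ∑ b, ke W x a b * (rm t a b - rm t x a * rm t x b)
              * (lk W x q ^ (2 * m - 1)) b a)
        + (expConst 3 (2 * m) + expConst 6 (2 * m))
          * (δ * (∑ a, rm t x a * (lk W x q ^ (2 * m)) a a)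
            + 2 * (1 / δ) ^ (2 * m - 2) * σ ^ (2 * m) * (∑ a, rm t x a)
            + 1 / σ ^ 2 * (18 * δ * (∑ a, ∑ b, rm t a b * (ke W x a b * (lk W x q ^ (2 * m)) a a))
              + 2 * (1 / δ) ^ (2 * m - 2) * σ ^ (2 * m) * ∑ a, ∑ b, rm t a b * ke W x a b)) := by
  set R := lk W x q with hRdef
  have hR : R.IsSymm := lk_symm x q
  have hc3 := expConst_nonneg 3 (2 * m)
  have hc6 := expConst_nonneg 6 (2 * m)
  have hp0 : 0 ≤ ∑ a, rm t x a * (R ^ (2 * m)) a a :=
    Finset.sum_nonneg fun a _ => mul_nonneg (rm_nonneg t x a) (diag_nonneg hR a m)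
  have hp1 : 0 ≤ ∑ a, ∑ b, rm t a b * (ke W x a b * (R ^ (2 * m)) a a) :=
    Finset.sum_nonneg fun a _ => Finset.sum_nonneg fun b _ =>
      mul_nonneg (rm_nonneg t a b) (mul_nonneg (ke_nonneg W x a b) (diag_nonneg hR a m))
  have hp2 : 0 ≤ ∑ a, ∑ b, rm t a b * ke W x a b :=
    Finset.sum_nonneg fun a _ => Finset.sum_nonneg fun b _ =>
      mul_nonneg (rm_nonneg t a b) (ke_nonneg W x a b)
  have hQ : 0 ≤ (1 / δ) ^ (2 * m - 2) * σ ^ (2 * m) := by positivity
  by_cases hx : x ∈ verts t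
  · have h0 : (R ^ (2 * m)) x x = 0 := by
      rw [show 2 * m = 2 * m - 1 + 1 by omega]
      exact pow_apply_zero (adj_self W x) _ _
    have hd := del_trace_le ht hx hq hq0 hq1 hm hσ hδ hδ1 hcol
    rw [← hRdef, sum_verts_diag ht hx (fun a => (R ^ (2 * m)) a a) h0] at hd
    have h1 : ∑ a, ∑ b, ke W x a b * (rm t a b - rm t x a * rm t x b) * (R ^ (2 * m - 1)) b a = 0 :=
      Finset.sum_eq_zero fun a _ => Finset.sum_eq_zero fun b _ => by
        rw [ke_rm_eq ht hx, zero_mul]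
    have h2 : ∑ a, rm t x a = 2 := by rw [sum_rm ht, if_pos hx]
    rw [h1, add_zero, h2]
    refine hd.trans (add_le_add le_rfl ?_)
    refine mul_le_mul (le_add_of_nonneg_right hc6) ?_ (by positivity) (by positivity)
    have : 0 ≤ 1 / σ ^ 2 * (18 * δ * (∑ a, ∑ b, rm t a b * (ke W x a b * (R ^ (2 * m)) a a))
        + 2 * (1 / δ) ^ (2 * m - 2) * σ ^ (2 * m) * ∑ a, ∑ b, rm t a b * ke W x a b) := by
      positivity
    linarith
  · have hd := edge_trace_le ht hx hq hq0 hq1 hm hσ hδ hδ1 hcol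
    rw [← hRdef, sum_offDiag_rm ht (fun a b => ke W x a b * (R ^ (2 * m - 1)) b a),
      sum_offDiag_rm ht (fun a b => ke W x a b * (R ^ (2 * m)) a a),
      sum_offDiag_rm ht (fun a b => ke W x a b)] at hd
    simp only [rm_left_eq_zero ht hx, zero_mul, Finset.sum_const_zero, mul_zero, zero_add, sub_zero]
    have e : ∀ a b, ke W x a b * rm t a b * (R ^ (2 * m - 1)) b a
        = rm t a b * (ke W x a b * (R ^ (2 * m - 1)) b a) := fun a b => by ring
    simp only [e]
    refine hd.trans (add_le_add le_rfl ?_)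
    rw [div_mul_eq_mul_div, ← mul_one_div, mul_assoc, mul_comm _ (1 / σ ^ 2)]
    exact mul_le_mul_of_nonneg_right (le_add_of_nonneg_left hc3) (by positivity)

theorem sum_rm_diag (W : Finset (Finset (Fin n))) (x : Fin n) (f : Fin n → ℝ) :
    ∑ t ∈ (kn n).tris W, ∑ a, rm t x a * f a = ∑ a, adj W x a * cd W x a * f a := by
  rw [Finset.sum_comm]
  exact Finset.sum_congr rfl fun a _ => by rw [← Finset.sum_mul, sum_tris_rm]

theorem sum_rm_pairs (W : Finset (Finset (Fin n))) (x : Fin n) (f : Fin n → Fin n → ℝ) :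
    ∑ t ∈ (kn n).tris W, ∑ a, ∑ b, rm t a b * (ke W x a b * f a b)
      = ∑ a, ∑ b, cd W a b * (ke W x a b * f a b) := by
  rw [Finset.sum_comm]
  refine Finset.sum_congr rfl fun a _ => ?_
  rw [Finset.sum_comm]
  refine Finset.sum_congr rfl fun b _ => ?_
  rw [← Finset.sum_mul, sum_tris_rm]
  rcases adj_cases W a b with h | h
  · simp [ke, h]
  · rw [h, one_mul]

theorem sum_rm_first (W : Finset (Finset (Fin n))) (x : Fin n) (f : Fin n → Fin n → ℝ) :
    ∑ t ∈ (kn n).tris W, ∑ a, ∑ b, ke W x a b * (rm t a b - rm t x a * rm t x b) * f a b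
      = ∑ a, ∑ b, ke W x a b * (cd W a b - 1) * f a b := by
  rw [Finset.sum_comm]
  refine Finset.sum_congr rfl fun a _ => ?_
  rw [Finset.sum_comm]
  refine Finset.sum_congr rfl fun b _ => ?_
  rcases ke_cases W x a b with h | h
  · simp [h]
  · rw [h]
    simp only [one_mul, ← Finset.sum_mul, Finset.sum_sub_distrib, sum_tris_rm]
    have h' := h
    simp only [ke] at h'
    rcases adj_cases W a b with e | e
    · rw [e, mul_zero] at h'; exact absurd h' (by norm_num)
    · rw [e] at h'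
      rw [sum_tris_rm_rm (fun he => by rw [he, adj_self] at e; exact zero_ne_one e), e, one_mul, h']

/-- The entries of an odd power, against the diagonal of the next even one. -/
theorem entry_young {R : Matrix (Fin n) (Fin n) ℝ} (hR : R.IsSymm) {β δ : ℝ} {m : ℕ} (hm : 1 ≤ m)
    (hβ : 1 ≤ β) (hδ : 0 < δ) (hδ1 : δ ≤ 1) (a b : Fin n) :
    β * |(R ^ (2 * m - 1)) b a|
      ≤ δ * ((R ^ (2 * m)) a a + (R ^ (2 * m)) b b) + 2 * (1 / δ) ^ (2 * m) * β ^ (2 * m) := by
  have hPa := diag_nonneg hR a m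
  have hPb := diag_nonneg hR b m
  obtain ⟨M, hM1, hxM, hMle⟩ := exists_root (x := (R ^ (2 * m)) a a + (R ^ (2 * m)) b b)
    (by positivity) (zero_le_one' ℝ) (h := 2 * m) (by omega)
  have hM : 0 < M := by linarith
  have hv : ∀ c, (R ^ (2 * m)) c c ≤ M ^ (2 * m) →
      (R ^ m *ᵥ Pi.single c 1) ⬝ᵥ (R ^ m *ᵥ Pi.single c 1) ≤ (1 * M ^ m) ^ 2 := by
    intro c hc
    rw [← diag_sqlen hR, one_mul, ← pow_mul, mul_comm m 2]
    exact hc
  have h1 : ∀ c : Fin n, (Pi.single c (1 : ℝ) : Fin n → ℝ) ⬝ᵥ Pi.single c 1 ≤ 1 ^ 2 := by simp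
  have hg := gap_le hR hM (h1 b) (hv b (by linarith)) (h1 a) (hv a (by linarith))
    (g := 2 * m - 1) (by omega)
  rw [single_dot_mulVec, one_pow, one_mul] at hg
  have hy := young (a := M) (b := β) (δ := δ) (e := 2 * m - 1) (N := 2 * m) hM.le (by linarith)
    hδ hδ1 (by omega)
  rw [show 2 * m - (2 * m - 1) = 1 by omega, pow_one] at hy
  have hQ : δ ≤ (1 / δ) ^ (2 * m) * β ^ (2 * m) :=
    hδ1.trans (one_le_mul_of_one_le_of_one_le
      (one_le_pow₀ (by rw [le_div_iff₀ hδ]; linarith)) (one_le_pow₀ hβ))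
  rw [one_pow] at hMle
  have h2 := mul_le_mul_of_nonneg_left hg (by linarith : 0 ≤ β)
  have h3 := mul_le_mul_of_nonneg_left hMle hδ.le
  linarith

theorem diag_eq_adj_mul {x : Fin n} {q : ℝ} {m : ℕ} (hm : 1 ≤ m) (a : Fin n) :
    (lk W x q ^ (2 * m)) a a = adj W x a * (lk W x q ^ (2 * m)) a a := by
  rcases adj_cases W x a with h | h
  · rw [h, zero_mul, show 2 * m = 2 * m - 1 + 1 by omega, pow_apply_zero h]
  · rw [h, one_mul]

/-- The density after one step. -/
noncomputable def qn (W : Finset (Finset (Fin n))) : ℝ := dens W * (1 - 3 / (W.card : ℝ))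

/-- The sum of the entries of an odd power of the base matrix over the neighbours of `x`. -/
noncomputable def quad (W : Finset (Finset (Fin n))) (x : Fin n) (m : ℕ) : ℝ :=
  adj W x ⬝ᵥ (lk W x (qn W) ^ (2 * m - 1) *ᵥ adj W x)

/-- The first order term of the entries equals the trace and the rank one part. -/
theorem sum_ke_pow {x : Fin n} {q : ℝ} {m : ℕ} (hm : 1 ≤ m) :
    ∑ a, ∑ b, ke W x a b * (lk W x q ^ (2 * m - 1)) b a
      = Matrix.trace (lk W x q ^ (2 * m))
        + q * (adj W x ⬝ᵥ (lk W x q ^ (2 * m - 1) *ᵥ adj W x)) := by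
  set R := lk W x q with hRdef
  have hR : R.IsSymm := lk_symm x q
  rw [show R ^ (2 * m) = R * R ^ (2 * m - 1) by rw [← pow_succ', show 2 * m - 1 + 1 = 2 * m by omega]]
  simp only [Matrix.trace, Matrix.diag, Matrix.mul_apply, dotProduct, Matrix.mulVec, Finset.mul_sum]
  rw [← Finset.sum_add_distrib]
  refine Finset.sum_congr rfl fun a _ => ?_
  rw [← Finset.sum_add_distrib]
  refine Finset.sum_congr rfl fun b _ => ?_
  rw [(hR.pow (2 * m - 1)).apply b a]
  simp only [hRdef, lk, ke]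
  ring

/-- The drift relative to the base matrix. -/
theorem base_drift {η ρ : ℝ} {m0 : ℕ} (h : Hyp W η ρ m0) (x : Fin n) {m : ℕ} (hm : 2 ≤ m) {δ : ℝ}
    (hδ : 0 < δ) (hδ1 : δ ≤ 1) {N C : ℝ} (hN : N = (2 * m : ℕ))
    (hC : C = expConst 3 (2 * m) + expConst 6 (2 * m))
    (hδ2 : 6 * δ * (12 * N + 20 * C) ≤ 1 / 8) (hη2 : 6 * η * N ≤ 1 / 8) :
    (kn n).avg (fun V => Matrix.trace (link V x ^ (2 * m))) W
      ≤ Matrix.trace (lk W x (qn W) ^ (2 * m))
        - ((6 * N - 1 / 4) * Matrix.trace (lk W x (qn W) ^ (2 * m))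
            + 3 * N * (qn W * quad W x m)) / (W.card : ℝ)
        + 6 * (12 * N + 6 * 4 ^ m * C) * (1 / δ) ^ (2 * m) * (n : ℝ) * (η * uexp W) ^ (2 * m)
            / (W.card : ℝ) := by
  set R := lk W x (qn W) with hRdef
  have hR : R.IsSymm := lk_symm x _
  set V := Matrix.trace (R ^ (2 * m)) with hVdef
  have hV0 : 0 ≤ V := trace_nonneg hR m
  set u := uexp W with hudef
  have hu : 0 < u := h.u_pos
  set E := (W.card : ℝ) with hEdef
  have hE : 0 < E := h.card_pos
  set σ := 2 * Real.sqrt u with hσdef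
  have hσ : 1 ≤ σ := by
    have := Real.one_le_sqrt.2 h.u_ge
    linarith
  have hσ2 : σ ^ 2 = 4 * u := by rw [hσdef, mul_pow, Real.sq_sqrt hu.le]; norm_num
  have hσN : σ ^ (2 * m) ≤ 4 ^ m * (η * u) ^ (2 * m) := by
    rw [pow_mul, hσ2, pow_mul, ← mul_pow]
    refine pow_le_pow_left₀ (by positivity) ?_ m
    calc 4 * u = 4 * (1 * u) := by ring
      _ ≤ 4 * (η ^ 2 * u * u) := by gcongr; exact h.eta_u
      _ = 4 * (η * u) ^ 2 := by ring
  set B := (η * u) ^ (2 * m) with hBdef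
  have hB : 0 ≤ B := pow_nonneg (by linarith [h.eta_u_ge]) _
  set Q := (1 / δ) ^ (2 * m) with hQdef
  have hQ : 0 ≤ Q := by positivity
  have hQh : (1 / δ) ^ (2 * m - 2) ≤ Q :=
    pow_le_pow_right₀ (by rw [le_div_iff₀ hδ]; linarith) (by omega)
  set μ := mdev W with hμdef
  have hμ : -η ≤ μ ∧ μ ≤ η := abs_le.1 h.reg.mdev_le
  have hη := h.eta_le
  have hη0 := h.eta_nonneg
  have hT : (((kn n).tris W).card : ℝ) = E * u * (1 + μ) / 3 := Regular.tris_card hu hE
  have hμ1 : 0 < 1 + μ := by linarith [hμ.1]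
  have hT0 : 0 < (((kn n).tris W).card : ℝ) := by rw [hT]; positivity
  have hC0 : 0 ≤ C := by rw [hC]; exact add_nonneg (expConst_nonneg _ _) (expConst_nonneg _ _)
  have hN0 : 0 ≤ N := by rw [hN]; positivity
  have hn : (0 : ℝ) ≤ n := Nat.cast_nonneg n
  have hP : ∀ a, 0 ≤ (R ^ (2 * m)) a a := fun a => diag_nonneg hR a m
  have hPV : ∑ a, (R ^ (2 * m)) a a = V := rfl
  obtain ⟨hq0, hq1⟩ := h.next_bounds
  -- the four kinds of sums
  have a1 : (1 - η) * u * V ≤ ∑ a, adj W x a * cd W x a * (R ^ (2 * m)) a a := by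
    rw [← hPV, Finset.mul_sum]
    refine Finset.sum_le_sum fun a _ => ?_
    rw [diag_eq_adj_mul (by omega) a]
    rcases adj_cases W x a with e | e
    · simp [e]
    · rw [e, one_mul, one_mul]
      exact mul_le_mul_of_nonneg_right (h.reg.cd_bounds hu e).1 (hP a)
  have a2 : ∑ a, adj W x a * cd W x a * (R ^ (2 * m)) a a ≤ 2 * u * V := by
    rw [← hPV, Finset.mul_sum]
    refine Finset.sum_le_sum fun a _ => mul_le_mul_of_nonneg_right ?_ (hP a)
    rcases adj_cases W x a with e | e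
    · rw [e, zero_mul]; positivity
    · rw [e, one_mul]; exact h.cd_le e
  have a3 : ∑ a, adj W x a * cd W x a ≤ 2 * u * n := by
    refine (Finset.sum_le_card_nsmul _ _ (2 * u) fun a _ => ?_).trans_eq
      (by rw [Finset.card_univ, Fintype.card_fin, nsmul_eq_mul]; ring)
    rcases adj_cases W x a with e | e
    · rw [e, zero_mul]; positivity
    · rw [e, one_mul]; exact h.cd_le e
  have cdke : ∀ a b, cd W a b * ke W x a b ≤ 2 * u * ke W x a b := by
    intro a b
    rcases ke_cases W x a b with e | e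
    · simp [e]
    · rw [e, mul_one, mul_one]
      refine h.cd_le ?_
      rcases adj_cases W a b with e' | e'
      · simp [ke, e'] at e
      · exact e'
  have a4 : ∑ a, ∑ b, cd W a b * (ke W x a b * (R ^ (2 * m)) a a) ≤ 4 * u ^ 2 * V := by
    rw [← hPV, Finset.mul_sum]
    refine Finset.sum_le_sum fun a _ => ?_
    calc ∑ b, cd W a b * (ke W x a b * (R ^ (2 * m)) a a)
        = (∑ b, cd W a b * ke W x a b) * (R ^ (2 * m)) a a := by
          rw [Finset.sum_mul]; simp only [mul_assoc]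
      _ ≤ (2 * u * ∑ b, ke W x a b) * (R ^ (2 * m)) a a := by
          rw [Finset.mul_sum]
          exact mul_le_mul_of_nonneg_right (Finset.sum_le_sum fun b _ => cdke a b) (hP a)
      _ ≤ (2 * u * (2 * u)) * (R ^ (2 * m)) a a := by
          gcongr
          · exact hP a
          · exact h.ke_row x a
      _ = _ := by ring
  have a5 : ∑ a, ∑ b, cd W a b * (ke W x a b * 1) ≤ 4 * u ^ 2 * n := by
    refine (Finset.sum_le_card_nsmul _ _ (4 * u ^ 2) fun a _ => ?_).trans_eq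
      (by rw [Finset.card_univ, Fintype.card_fin, nsmul_eq_mul]; ring)
    simp only [mul_one]
    calc ∑ b, cd W a b * ke W x a b ≤ 2 * u * ∑ b, ke W x a b := by
          rw [Finset.mul_sum]; exact Finset.sum_le_sum fun b _ => cdke a b
      _ ≤ 2 * u * (2 * u) := mul_le_mul_of_nonneg_left (h.ke_row x a) (by positivity)
      _ = _ := by ring
  have a6 : u * (1 + μ) * (V + qn W * quad W x m) - 3 * (4 * δ * (u * V) + 4 * Q * B * (u * n))
      ≤ ∑ a, ∑ b, ke W x a b * (cd W a b - 1) * (R ^ (2 * m - 1)) b a := by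
    have e1 : ∑ a, ∑ b, ke W x a b * (R ^ (2 * m - 1)) b a = V + qn W * quad W x m :=
      sum_ke_pow (by omega)
    have e2 : ∑ a, ∑ b, ke W x a b * (δ * ((R ^ (2 * m)) a a + (R ^ (2 * m)) b b) + 2 * Q * B)
        ≤ 4 * δ * (u * V) + 4 * Q * B * (u * n) := by
      have s1 : ∑ a, ∑ b, ke W x a b * (R ^ (2 * m)) a a ≤ 2 * u * V := by
        rw [← hPV, Finset.mul_sum]
        refine Finset.sum_le_sum fun a _ => ?_
        rw [← Finset.sum_mul]
        exact mul_le_mul_of_nonneg_right (h.ke_row x a) (hP a)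
      have s2 : ∑ a, ∑ b, ke W x a b * (R ^ (2 * m)) b b
          = ∑ a, ∑ b, ke W x a b * (R ^ (2 * m)) a a := by
        rw [Finset.sum_comm]; simp only [ke_symm W x]
      have s3 : ∑ a, ∑ b, ke W x a b ≤ 2 * u * n :=
        (Finset.sum_le_card_nsmul _ _ (2 * u) fun a _ => h.ke_row x a).trans_eq
          (by rw [Finset.card_univ, Fintype.card_fin, nsmul_eq_mul]; ring)
      have s4 : ∑ a, ∑ b, ke W x a b * (δ * ((R ^ (2 * m)) a a + (R ^ (2 * m)) b b) + 2 * Q * B)
          = δ * (∑ a, ∑ b, ke W x a b * (R ^ (2 * m)) a a)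
            + δ * (∑ a, ∑ b, ke W x a b * (R ^ (2 * m)) b b)
            + 2 * Q * B * ∑ a, ∑ b, ke W x a b := by
        simp only [Finset.mul_sum, ← Finset.sum_add_distrib]
        exact Finset.sum_congr rfl fun a _ => Finset.sum_congr rfl fun b _ => by ring
      rw [s4, s2]
      have := mul_le_mul_of_nonneg_left s1 hδ.le
      have := mul_le_mul_of_nonneg_left s3 (by positivity : 0 ≤ 2 * Q * B)
      linarith
    refine le_trans ?_ (Finset.sum_le_sum fun a _ => Finset.sum_le_sum fun b _ =>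
      show u * (1 + μ) * (ke W x a b * (R ^ (2 * m - 1)) b a)
          - 3 * (ke W x a b * (δ * ((R ^ (2 * m)) a a + (R ^ (2 * m)) b b) + 2 * Q * B))
        ≤ ke W x a b * (cd W a b - 1) * (R ^ (2 * m - 1)) b a from ?_)
    · simp only [Finset.sum_sub_distrib, ← Finset.mul_sum, e1]
      linarith
    · rcases ke_cases W x a b with e | e
      · simp [e]
      · have hab : adj W a b = 1 := by
          rcases adj_cases W a b with e' | e'
          · simp [ke, e'] at e
          · exact e'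
        obtain ⟨hl, hr⟩ : (1 - η) * u ≤ cd W a b ∧ cd W a b ≤ (1 + η) * u :=
          h.reg.cd_bounds hu hab
        have hdiff : |cd W a b - 1 - u * (1 + μ)| ≤ 3 * (η * u) := by
          have h3 : 1 ≤ η * u := h.eta_u_ge
          have h4 := mul_le_mul_of_nonneg_right hμ.1 hu.le
          have h5 := mul_le_mul_of_nonneg_right hμ.2 hu.le
          rw [abs_le]
          constructor <;> linarith
        have hy := entry_young hR (m := m) (by omega) h.eta_u_ge hδ hδ1 a b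
        have h1 := neg_abs_le ((cd W a b - 1 - u * (1 + μ)) * (R ^ (2 * m - 1)) b a)
        rw [abs_mul] at h1
        have h2 := mul_le_mul_of_nonneg_right hdiff (abs_nonneg ((R ^ (2 * m - 1)) b a))
        rw [e, one_mul, one_mul, one_mul]
        linarith
  -- the sum over the triangles
  have hsum := Finset.sum_le_sum fun t (ht : t ∈ (kn n).tris W) =>
    step_trace_le ht x (h.dens_sdiff ht) hq0 (hq1.trans h.dens_le_one) hm hσ hδ hδ1
      (h.col_le hq1)
  simp only [Finset.sum_add_distrib, Finset.sum_sub_distrib, ← Finset.mul_sum, Finset.sum_const,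
    nsmul_eq_mul] at hsum
  rw [sum_rm_diag W x] at hsum
  rw [show ∑ t ∈ (kn n).tris W, ∑ a, rm t x a = ∑ a, adj W x a * cd W x a by
    simpa using sum_rm_diag W x (fun _ => 1)] at hsum
  rw [sum_rm_first W x (fun a b => (lk W x (dens W * (1 - 3 / (W.card : ℝ))) ^ (2 * m - 1)) b a),
    sum_rm_pairs W x] at hsum
  rw [show ∑ t ∈ (kn n).tris W, ∑ a, ∑ b, rm t a b * ke W x a b
      = ∑ a, ∑ b, cd W a b * (ke W x a b * 1) by
    simpa using sum_rm_pairs W x (fun _ _ => 1)] at hsum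
  change _ ≤ ((kn n).tris W).card * V - _ + _ at hsum
  rw [← hC, ← hN, hσ2] at hsum
  simp only [show dens W * (1 - 3 / (W.card : ℝ)) = qn W from rfl, ← hRdef] at hsum
  rw [LH.avg, div_le_iff₀ hT0]
  refine hsum.trans ?_
  -- main term
  have m1 : (1 - η) * u * V + (u * (1 + μ) * (V + qn W * quad W x m)
        - 3 * (4 * δ * (u * V) + 4 * Q * B * (u * n)))
      ≤ (∑ a, adj W x a * cd W x a * (R ^ (2 * m)) a a)
        + ∑ a, ∑ b, ke W x a b * (cd W a b - 1) * (R ^ (2 * m - 1)) b a := by linarith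
  have m2 := mul_le_mul_of_nonneg_left m1 hN0
  -- error term
  have m3 : δ * (∑ a, adj W x a * cd W x a * (R ^ (2 * m)) a a)
      + 2 * (1 / δ) ^ (2 * m - 2) * σ ^ (2 * m) * (∑ a, adj W x a * cd W x a)
      + 1 / (4 * u) * (18 * δ * (∑ a, ∑ b, cd W a b * (ke W x a b * (R ^ (2 * m)) a a))
        + 2 * (1 / δ) ^ (2 * m - 2) * σ ^ (2 * m) * ∑ a, ∑ b, cd W a b * (ke W x a b * 1))
      ≤ 20 * δ * (u * V) + 6 * 4 ^ m * Q * B * (u * n) := by
    have hQσ : 2 * (1 / δ) ^ (2 * m - 2) * σ ^ (2 * m) ≤ 2 * Q * (4 ^ m * B) :=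
      mul_le_mul (by linarith) hσN (by positivity) (by positivity)
    calc δ * _ + _ + _ ≤ δ * (2 * u * V) + 2 * Q * (4 ^ m * B) * (2 * u * n)
          + 1 / (4 * u) * (18 * δ * (4 * u ^ 2 * V) + 2 * Q * (4 ^ m * B) * (4 * u ^ 2 * n)) := by
          have b1 : 0 ≤ ∑ a, adj W x a * cd W x a :=
            Finset.sum_nonneg fun a _ => mul_nonneg (adj_nonneg _ _ _) (cd_nonneg _ _ _)
          have b2 : 0 ≤ ∑ a, ∑ b, cd W a b * (ke W x a b * 1) :=
            Finset.sum_nonneg fun a _ => Finset.sum_nonneg fun b _ =>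
              mul_nonneg (cd_nonneg _ _ _) (by rw [mul_one]; exact ke_nonneg _ _ _ _)
          gcongr
      _ = _ := by field_simp; ring
  have m4 := mul_le_mul_of_nonneg_left m3 hC0
  have key : -(N * ((1 - η) * u * V + u * (1 + μ) * (V + qn W * quad W x m)))
        + (12 * N + 20 * C) * δ * (u * V) + (12 * N + 6 * 4 ^ m * C) * Q * B * (u * n)
      ≤ (u * (1 + μ) / 3) * (-((6 * N - 1 / 4) * V + 3 * N * (qn W * quad W x m))
          + 6 * (12 * N + 6 * 4 ^ m * C) * Q * (n : ℝ) * B) := by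
    have k1 : N * (1 + μ) * V ≤ N * (1 + η) * V := by gcongr; linarith [hμ.2]
    have k2 : 0 ≤ (12 * N + 6 * 4 ^ m * C) * Q * B * (u * n) := by positivity
    have k3 : (12 * N + 6 * 4 ^ m * C) * Q * B * (u * n)
        ≤ 2 * (1 + μ) * ((12 * N + 6 * 4 ^ m * C) * Q * B * (u * n)) :=
      le_mul_of_one_le_left k2 (by linarith [hμ.1])
    have k4 : 6 * δ * (12 * N + 20 * C) * (u * V) ≤ 1 / 8 * (u * V) := by gcongr
    have k5 : 6 * η * N * (u * V) ≤ 1 / 8 * (u * V) := by gcongr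
    have k6 : (1 - η) * (u * V) ≤ (1 + μ) * (u * V) := by gcongr; linarith [hμ.1]
    have k7 := mul_le_mul_of_nonneg_left k1 hu.le
    have k8 : (3 / 4) * (u * V) ≤ (1 + μ) * (u * V) := by gcongr; linarith [hμ.1]
    linarith
  have e : (V - ((6 * N - 1 / 4) * V + 3 * N * (qn W * quad W x m)) / E
        + 6 * (12 * N + 6 * 4 ^ m * C) * Q * (n : ℝ) * B / E) * ((kn n).tris W).card
      = ((kn n).tris W).card * V + (u * (1 + μ) / 3)
        * (-((6 * N - 1 / 4) * V + 3 * N * (qn W * quad W x m))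
          + 6 * (12 * N + 6 * 4 ^ m * C) * Q * (n : ℝ) * B) := by
    rw [hT]; field_simp; ring
  rw [e]
  linarith

/-- The drift of the trace of a power of a link. -/
theorem drift (m : ℕ) (hm : 2 ≤ m) : ∃ K η₀ : ℝ, 0 ≤ K ∧ 0 < η₀ ∧
    ∀ (n : ℕ) (W : Finset (Finset (Fin n))) (η ρ : ℝ) (m0 : ℕ), Hyp W η ρ m0 → η ≤ η₀ →
      ∀ x, (kn n).avg (fun V => Matrix.trace (link V x ^ (2 * m))) W
        ≤ Matrix.trace (link W x ^ (2 * m))
          - (6 * ((2 * m : ℕ) : ℝ) - 1) * Matrix.trace (link W x ^ (2 * m)) / (W.card : ℝ)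
          + K * (n : ℝ) * (η * uexp W) ^ (2 * m) / (W.card : ℝ) := by
  obtain ⟨N, hN⟩ : ∃ N : ℝ, N = (2 * m : ℕ) := ⟨_, rfl⟩
  obtain ⟨C, hC⟩ : ∃ C, C = expConst 3 (2 * m) + expConst 6 (2 * m) := ⟨_, rfl⟩
  obtain ⟨C1, hC1⟩ : ∃ C1, C1 = expConst 1 (2 * m) := ⟨_, rfl⟩
  have hN4 : 4 ≤ N := by rw [hN]; exact_mod_cast (by omega : 4 ≤ 2 * m)
  have hC0 : 0 ≤ C := by rw [hC]; exact add_nonneg (expConst_nonneg _ _) (expConst_nonneg _ _)
  have hC10 : 0 ≤ C1 := by rw [hC1]; exact expConst_nonneg _ _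
  obtain ⟨D0, hD0⟩ : ∃ D0, D0 = 48 * (12 * N + 20 * C) + 8 * (3 * N + 36 * C1)
      + 12 * N * (N + C1) + 1 := ⟨_, rfl⟩
  have hD1 : 1 ≤ D0 := by rw [hD0]; nlinarith
  obtain ⟨δ, hδdef⟩ : ∃ δ, δ = 1 / D0 := ⟨_, rfl⟩
  have hδ : 0 < δ := by rw [hδdef]; positivity
  have hδD : δ * D0 = 1 := by rw [hδdef]; field_simp
  have hδ1 : δ ≤ 1 := by rw [hδdef, div_le_one (by linarith)]; exact hD1
  have hδ2 : 6 * δ * (12 * N + 20 * C) ≤ 1 / 8 := by
    rw [hD0] at hδD; nlinarith [mul_nonneg hδ.le (mul_nonneg (by linarith : 0 ≤ N)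
      (by linarith : 0 ≤ N + C1))]
  have hδ3 : δ * (3 * N + 36 * C1) ≤ 1 / 8 := by
    rw [hD0] at hδD; nlinarith [mul_nonneg hδ.le (mul_nonneg (by linarith : 0 ≤ N)
      (by linarith : 0 ≤ N + C1))]
  have hδ4 : 6 * N * ((N + C1) * δ) ≤ 1 / 2 := by rw [hD0] at hδD; nlinarith
  obtain ⟨Q, hQ⟩ : ∃ Q, Q = (1 / δ) ^ (2 * m) := ⟨_, rfl⟩
  have hQ0 : 0 ≤ Q := by rw [hQ]; positivity
  refine ⟨6 * (12 * N + 6 * 4 ^ m * C) * Q + (3 * N + 36 * C1) * (2 * Q)
    + 6 * N * ((N + C1) * (2 * Q)), 1 / (48 * N), by positivity, by positivity, ?_⟩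
  intro n W η ρ m0 h hη x
  have hη2 : 6 * η * N ≤ 1 / 8 := by
    rw [le_div_iff₀ (by positivity)] at hη; linarith
  have hbase := base_drift h x hm hδ hδ1 hN hC hδ2 hη2
  rw [← hQ] at hbase
  rw [← hN]
  set R := lk W x (qn W) with hRdef
  have hR : R.IsSymm := lk_symm x _
  set V' := Matrix.trace (R ^ (2 * m)) with hV'def
  set V := Matrix.trace (link W x ^ (2 * m)) with hVdef
  have hV'0 : 0 ≤ V' := trace_nonneg hR m
  have hV0 : 0 ≤ V := trace_nonneg (by rw [link_eq]; exact lk_symm x _) m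
  set u := uexp W with hudef
  set E := (W.card : ℝ) with hEdef
  have hE : 0 < E := h.card_pos
  set B := (η * u) ^ (2 * m) with hBdef
  have hB1 : 1 ≤ B := one_le_pow₀ h.eta_u_ge
  set v := adj W x with hvdef
  set Δ := dens W * (3 / E) with hΔdef
  have hΔ0 : 0 ≤ Δ := by have := h.dens_pos; positivity
  set s0 := Δ * dg W x with hs0def
  have hs0 : 0 ≤ s0 := mul_nonneg hΔ0 (dg_nonneg W x)
  have hs1 : s0 ≤ 6 * u / E := by
    rw [hs0def, hΔdef, le_div_iff₀ hE]
    calc dens W * (3 / E) * dg W x * E = 3 * (dens W * dg W x) := by field_simp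
      _ ≤ 3 * (2 * u) := by linarith [h.dens_dg_le x]
      _ = _ := by ring
  have hs01 : s0 ≤ 1 := hs1.trans (by rw [div_le_one hE]; exact h.six_u_le)
  obtain ⟨l, hl1, hxl, hlle⟩ := exists_root (x := V') hV'0 (zero_le_one' ℝ) (h := 2 * m) (by omega)
  rw [one_pow] at hlle
  have hl0 : 0 < l := by linarith
  have hvv : v ⬝ᵥ v = dg W x := by simp [hvdef, dotProduct, dg, adj_mul_self]
  have hgap : ∀ g, g ≤ 2 * m → |v ⬝ᵥ (R ^ g *ᵥ v)| ≤ dg W x * l ^ g := by
    intro g hg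
    have hs : Real.sqrt (dg W x) ^ 2 = dg W x := Real.sq_sqrt (dg_nonneg W x)
    have h1 : v ⬝ᵥ v ≤ Real.sqrt (dg W x) ^ 2 := by rw [hs, hvv]
    have h2 : (R ^ m *ᵥ v) ⬝ᵥ (R ^ m *ᵥ v) ≤ (Real.sqrt (dg W x) * l ^ m) ^ 2 := by
      rw [mul_pow, hs, ← pow_mul, mul_comm m 2]
      refine (sqlen_trace_le hR v m).trans ?_
      rw [hvv]
      exact mul_le_mul_of_nonneg_left hxl (dg_nonneg W x)
    have := gap_le hR hl0 h1 h2 h1 h2 hg
    rwa [hs] at this
  have hlink : link W x = R + ∑ _k : Unit, vecMulVec ((-Δ) • v) v := by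
    ext y z
    simp only [Finset.univ_unique, Finset.sum_singleton, Matrix.add_apply, Matrix.vecMulVec_apply,
      Pi.smul_apply, smul_eq_mul, hRdef, link, lk, qn, hvdef, hΔdef, ← hEdef]
    ring
  have hexp := trace_pow_add_le R (fun _ : Unit => (-Δ) • v) (fun _ => v) (α := s0) (β := l)
    (M := l) (N := 2 * m) (by omega) hs0 (hs01.trans hl1) (hs01.trans hl1)
    (fun _ _ g hg => by
      rw [Matrix.mulVec_smul, dotProduct_smul, smul_eq_mul, abs_mul, abs_neg, abs_of_nonneg hΔ0]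
      exact (mul_le_mul_of_nonneg_left (hgap g (by omega)) hΔ0).trans_eq (mul_assoc Δ _ _).symm)
    (fun _ _ g hg => by
      rw [Matrix.mulVec_smul, dotProduct_smul, smul_eq_mul, abs_mul, abs_neg, abs_of_nonneg hΔ0]
      refine (mul_le_mul_of_nonneg_left (hgap (g + 1) (by omega)) hΔ0).trans_eq ?_
      simp only [hs0def, pow_succ]
      ring)
  rw [← hlink, Fintype.card_unit, ← hC1, ← hV'def, ← hVdef, ← hN] at hexp
  simp only [Finset.univ_unique, Finset.sum_singleton, Matrix.mulVec_smul, dotProduct_smul,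
    smul_eq_mul] at hexp
  have hquad : v ⬝ᵥ (R ^ (2 * m - 1) *ᵥ v) = quad W x m := rfl
  rw [hquad] at hexp
  set q := quad W x m
  -- the two small quantities
  have hyA : s0 * l ^ (2 * m - 1) ≤ δ * V' + 2 * Q * B := by
    have hy := young (a := l) (b := η * u) (δ := δ) (e := 2 * m - 1) (N := 2 * m) hl0.le
      (by linarith [h.eta_u_ge]) hδ hδ1 (by omega)
    rw [show 2 * m - (2 * m - 1) = 1 by omega, pow_one, ← hBdef, ← hQ] at hy
    have h1 : s0 * l ^ (2 * m - 1) ≤ l ^ (2 * m - 1) * (η * u) := by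
      rw [mul_comm]
      exact mul_le_mul_of_nonneg_left (hs01.trans h.eta_u_ge) (by positivity)
    have h3 := mul_le_mul_of_nonneg_left hlle hδ.le
    have h4 : δ ≤ Q * B := hδ1.trans (one_le_mul_of_one_le_of_one_le
      (by rw [hQ]; exact one_le_pow₀ (by rw [le_div_iff₀ hδ]; linarith)) hB1)
    linarith
  have hyA2 : s0 ^ 2 * l ^ (2 * m - 2) ≤ 36 / E * (δ * V' + 2 * Q * B) := by
    have hy := young (a := l) (b := η * u) (δ := δ) (e := 2 * m - 2) (N := 2 * m) hl0.le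
      (by linarith [h.eta_u_ge]) hδ hδ1 (by omega)
    rw [show 2 * m - (2 * m - 2) = 2 by omega, ← hBdef, ← hQ] at hy
    have h1 : s0 ^ 2 ≤ 36 / E * (η * u) ^ 2 := by
      refine (pow_le_pow_left₀ hs0 hs1 2).trans ?_
      rw [div_pow, div_mul_eq_mul_div, div_le_div_iff₀ (by positivity) hE]
      have h2 : 1 ≤ η ^ 2 * E :=
        h.eta_u.trans (mul_le_mul_of_nonneg_left
          (by linarith [h.six_u_le, h.u_pos]) (sq_nonneg η))
      calc (6 * u) ^ 2 * E = 36 * u ^ 2 * E * 1 := by ring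
        _ ≤ 36 * u ^ 2 * E * (η ^ 2 * E) := mul_le_mul_of_nonneg_left h2 (by positivity)
        _ = _ := by ring
    have h3 := mul_le_mul_of_nonneg_left hlle hδ.le
    have h4 : δ ≤ Q * B := hδ1.trans (one_le_mul_of_one_le_of_one_le
      (by rw [hQ]; exact one_le_pow₀ (by rw [le_div_iff₀ hδ]; linarith)) hB1)
    calc s0 ^ 2 * l ^ (2 * m - 2) ≤ 36 / E * (η * u) ^ 2 * l ^ (2 * m - 2) :=
          mul_le_mul_of_nonneg_right h1 (by positivity)
      _ = 36 / E * (l ^ (2 * m - 2) * (η * u) ^ 2) := by ring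
      _ ≤ _ := mul_le_mul_of_nonneg_left (by linarith) (by positivity)
  have hq : |Δ * q| ≤ s0 * l ^ (2 * m - 1) := by
    rw [abs_mul, abs_of_nonneg hΔ0]
    exact (mul_le_mul_of_nonneg_left (hgap (2 * m - 1) (by omega)) hΔ0).trans_eq
      (mul_assoc Δ _ _).symm
  have hsl : s0 ^ 2 * l * l ^ (2 * m - 3) = s0 ^ 2 * l ^ (2 * m - 2) := by
    rw [mul_assoc, ← pow_succ', show 2 * m - 3 + 1 = 2 * m - 2 by omega]
  rw [hsl] at hexp
  obtain ⟨hlo, hhi⟩ := abs_le.1 hexp
  obtain ⟨hqlo, hqhi⟩ := abs_le.1 hq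
  -- `V'` is at least a multiple of `V`
  have hs2 : s0 ^ 2 * l ^ (2 * m - 2) ≤ s0 * l ^ (2 * m - 1) := by
    rw [show 2 * m - 1 = 2 * m - 2 + 1 by omega, pow_succ l (2 * m - 2), pow_two]
    calc s0 * s0 * l ^ (2 * m - 2) ≤ s0 * l * l ^ (2 * m - 2) := by
          gcongr; linarith
      _ = _ := by ring
  have hVle : V ≤ V' + (N + C1) * (δ * V' + 2 * Q * B) := by
    have := mul_le_mul_of_nonneg_left (hs2.trans hyA) hC10
    have := mul_le_mul_of_nonneg_left (hqlo.trans' (neg_le_neg hyA)) (by linarith : 0 ≤ N)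
    linarith
  -- assemble
  have hmain : (kn n).avg (fun Z => Matrix.trace (link Z x ^ (2 * m))) W
      ≤ V + (-(6 * N - 1 / 4) * V' + (3 * N + 36 * C1) * (δ * V' + 2 * Q * B)
        + 6 * (12 * N + 6 * 4 ^ m * C) * Q * (n : ℝ) * B) / E := by
    refine hbase.trans ?_
    have e1 : qn W = dens W * (1 - 3 / E) := rfl
    have h1 := mul_le_mul_of_nonneg_left hyA2 hC10
    have h2 : N * (3 / E) * (Δ * q) ≤ N * (3 / E) * (δ * V' + 2 * Q * B) :=
      mul_le_mul_of_nonneg_left (hqhi.trans hyA) (by positivity)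
    have e2 : 3 * N * (qn W * q) / E = N * (Δ * q) - N * (3 / E) * (Δ * q) := by
      rw [e1, hΔdef]; field_simp
    have e3 : (-(6 * N - 1 / 4) * V' + (3 * N + 36 * C1) * (δ * V' + 2 * Q * B)
        + 6 * (12 * N + 6 * 4 ^ m * C) * Q * (n : ℝ) * B) / E
        = -((6 * N - 1 / 4) * V' / E) + N * (3 / E) * (δ * V' + 2 * Q * B)
          + C1 * (36 / E * (δ * V' + 2 * Q * B))
          + 6 * (12 * N + 6 * 4 ^ m * C) * Q * (n : ℝ) * B / E := by ring
    rw [e3, add_div, e2]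
    linarith
  refine hmain.trans ?_
  have hn1 : (1 : ℝ) ≤ n := by exact_mod_cast (show 1 ≤ n by have := h.large; omega)
  have hfin : -(6 * N - 1 / 4) * V' + (3 * N + 36 * C1) * (δ * V' + 2 * Q * B)
        + 6 * (12 * N + 6 * 4 ^ m * C) * Q * (n : ℝ) * B
      ≤ -((6 * N - 1) * V) + (6 * (12 * N + 6 * 4 ^ m * C) * Q + (3 * N + 36 * C1) * (2 * Q)
        + 6 * N * ((N + C1) * (2 * Q))) * (n : ℝ) * B := by
    have f1 := mul_le_mul_of_nonneg_left hVle (by linarith : 0 ≤ 6 * N - 1)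
    have f2 : (6 * N - 1) * ((N + C1) * δ) * V' ≤ 6 * N * ((N + C1) * δ) * V' := by
      gcongr; linarith
    have f3 : 6 * N * ((N + C1) * δ) * V' ≤ 1 / 2 * V' := mul_le_mul_of_nonneg_right hδ4 hV'0
    have f4 : δ * (3 * N + 36 * C1) * V' ≤ 1 / 8 * V' := mul_le_mul_of_nonneg_right hδ3 hV'0
    have f5 : (6 * N - 1) * ((N + C1) * (2 * Q) * B) ≤ 6 * N * ((N + C1) * (2 * Q) * B) := by
      gcongr; linarith
    have f6 : (3 * N + 36 * C1) * (2 * Q) * B ≤ (3 * N + 36 * C1) * (2 * Q) * B * n :=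
      le_mul_of_one_le_right (by positivity) hn1
    have f7 : 6 * N * ((N + C1) * (2 * Q) * B) ≤ 6 * N * ((N + C1) * (2 * Q) * B) * n :=
      le_mul_of_one_le_right (by positivity) hn1
    linarith
  have := div_le_div_of_nonneg_right hfin hE.le
  rw [show ∀ a b : ℝ, (-a + b) / E = -(a / E) + b / E from fun a b => by ring] at this
  linarith

end P046.Full.Links
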