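import Vale.Agent.P046.Full.LinkSum
import Vale.Agent.P046.Full.Interfaces

/-!
P046, part I: the links stay below their bounds (`LinksStmt`).

The supermartingale is `|W| ∑_x tr (link W x) ^ 2m / (ρ u) ^ 2m + κ |W|`.
-/

namespace P046.Full.Links

open Finset Matrix Filter

variable {n : ℕ} {W : Finset (Finset (Fin n))}

/-- The supermartingale of the links. -/
noncomputable def pot (ρ κ : ℝ) (m : ℕ) (W : Finset (Finset (Fin n))) : ℝ :=
  (W.card : ℝ) * (∑ x, Matrix.trace (link W x ^ (2 * m))) / (ρ * uexp W) ^ (2 * m)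
    + κ * (W.card : ℝ)

theorem link_trace_nonneg (W : Finset (Finset (Fin n))) (x : Fin n) (m : ℕ) :
    0 ≤ Matrix.trace (link W x ^ (2 * m)) :=
  trace_nonneg (by rw [link_eq]; exact lk_symm x _) m

theorem pot_nonneg {ρ κ : ℝ} (hκ : 0 ≤ κ) (m : ℕ) (W : Finset (Finset (Fin n))) :
    0 ≤ pot ρ κ m W := by
  refine add_nonneg (div_nonneg (mul_nonneg (Nat.cast_nonneg _) (Finset.sum_nonneg fun x _ =>
    link_trace_nonneg W x m)) ?_) (mul_nonneg hκ (Nat.cast_nonneg _))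
  rw [pow_mul]; positivity

/-- One step of the supermartingale. -/
theorem pot_step {η ρ K : ℝ} {m m0 : ℕ} (hρ : 0 < ρ) (hK : 0 ≤ K) (h : Hyp W η ρ m0)
    (hE : 36 * (m : ℝ) ≤ W.card)
    (hdrift : ∀ x, (kn n).avg (fun V => Matrix.trace (link V x ^ (2 * m))) W
        ≤ Matrix.trace (link W x ^ (2 * m))
          - (6 * ((2 * m : ℕ) : ℝ) - 1) * Matrix.trace (link W x ^ (2 * m)) / (W.card : ℝ)
          + K * (n : ℝ) * (η * uexp W) ^ (2 * m) / (W.card : ℝ)) :
    (kn n).avg (pot ρ (2 * K * (n : ℝ) ^ 2 * (η / ρ) ^ (2 * m) / 3) m) W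
      ≤ pot ρ (2 * K * (n : ℝ) ^ 2 * (η / ρ) ^ (2 * m) / 3) m W := by
  set κ := 2 * K * (n : ℝ) ^ 2 * (η / ρ) ^ (2 * m) / 3 with hκ
  set E := (W.card : ℝ) with hEdef
  set u := uexp W with hudef
  have hu : 0 < u := h.u_pos
  have hE0 : 0 < E := h.card_pos
  have hE6 : 6 ≤ E := by linarith [h.six_u_le, h.u_ge]
  obtain ⟨r, hr⟩ : ∃ r, r = (1 - 3 / E) ^ 2 := ⟨_, rfl⟩
  set N : ℝ := ((2 * m : ℕ) : ℝ) with hN
  have hNm : N = 2 * (m : ℝ) := by rw [hN]; push_cast; ring
  have hr0 : 0 < r := by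
    have : 3 / E < 1 := by rw [div_lt_one hE0]; linarith
    rw [hr]; exact pow_pos (by linarith) 2
  have hrN : 1 - 6 * N / E ≤ r ^ (2 * m) := by
    have h1 : -2 ≤ -(3 / E) := by
      have : 3 / E ≤ 1 := by rw [div_le_one hE0]; linarith
      linarith
    have h2 := one_add_mul_le_pow h1 (2 * (2 * m))
    rw [hr, ← pow_mul, sub_eq_add_neg 1 (3 / E)]
    refine le_trans (le_of_eq ?_) h2
    rw [hN]; push_cast; ring
  have hhalf : 1 / 2 ≤ r ^ (2 * m) := by
    refine le_trans ?_ hrN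
    have : 6 * N / E ≤ 1 / 2 := by rw [div_le_iff₀ hE0]; linarith
    linarith
  have hT : (kn n).tris W ≠ ∅ := h.reg.tris_ne (by linarith [h.eta_le])
  have hT0 := LH.card_pos hT
  have hstep : ∀ t ∈ (kn n).tris W, pot ρ κ m (W \ t)
      = ((E - 3) / ((ρ * u) ^ (2 * m) * r ^ (2 * m)))
          * (∑ x, Matrix.trace (link (W \ t) x ^ (2 * m))) + κ * (E - 3) := by
    intro t ht
    have h1 : ((W \ t).card : ℝ) = E - 3 := by
      rw [eq_sub_iff_add_eq, hEdef]; exact_mod_cast LH.card_sdiff_tri ht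
    have h2 : uexp (W \ t) = u * r := by
      rw [uexp, h.dens_sdiff ht, hudef, uexp, hr, ← hEdef]; ring
    rw [pot, h1, h2, ← mul_assoc ρ u r, mul_pow (ρ * u) r]
    ring
  have havg : (kn n).avg (pot ρ κ m) W = ((E - 3) / ((ρ * u) ^ (2 * m) * r ^ (2 * m)))
      * (∑ x, (kn n).avg (fun V => Matrix.trace (link V x ^ (2 * m))) W) + κ * (E - 3) := by
    simp only [LH.avg]
    rw [Finset.sum_congr rfl hstep, Finset.sum_add_distrib, ← Finset.mul_sum, Finset.sum_comm,
      ← Finset.sum_div, Finset.sum_const, nsmul_eq_mul]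
    field_simp
  have hx : ∀ x, (E - 3) * (kn n).avg (fun V => Matrix.trace (link V x ^ (2 * m))) W
      ≤ r ^ (2 * m) * (E * Matrix.trace (link W x ^ (2 * m))
          + 2 * K * (n : ℝ) * (η * u) ^ (2 * m)) := by
    intro x
    set V := Matrix.trace (link W x ^ (2 * m)) with hVdef
    have hV : 0 ≤ V := link_trace_nonneg W x m
    have hB : 0 ≤ (η * u) ^ (2 * m) := by rw [pow_mul]; positivity
    have hKB : 0 ≤ K * (n : ℝ) * (η * u) ^ (2 * m) := by positivity
    refine (mul_le_mul_of_nonneg_left (hdrift x) (by linarith)).trans ?_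
    calc (E - 3) * (V - (6 * N - 1) * V / E + K * (n : ℝ) * (η * u) ^ (2 * m) / E)
        = (E - 3 - (6 * N - 1) + 3 * (6 * N - 1) / E) * V
          + (E - 3) / E * (K * (n : ℝ) * (η * u) ^ (2 * m)) := by field_simp; ring
      _ ≤ (E - 6 * N) * V + 1 * (K * (n : ℝ) * (η * u) ^ (2 * m)) := by
          refine add_le_add (mul_le_mul_of_nonneg_right ?_ hV)
            (mul_le_mul_of_nonneg_right ?_ hKB)
          · have : 3 * (6 * N - 1) / E ≤ 2 := by rw [div_le_iff₀ hE0]; linarith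
            linarith
          · rw [div_le_one hE0]; linarith
      _ = (1 - 6 * N / E) * (E * V) + (1 / 2) * (2 * K * (n : ℝ) * (η * u) ^ (2 * m)) := by
          field_simp
      _ ≤ _ := by rw [mul_add]; gcongr
  have hsum := Finset.sum_le_sum fun x (_ : x ∈ univ) => hx x
  rw [← Finset.mul_sum, ← Finset.mul_sum, Finset.sum_add_distrib, ← Finset.mul_sum,
    Finset.sum_const, Finset.card_univ, Fintype.card_fin, nsmul_eq_mul] at hsum
  rw [havg, pot, ← hEdef, ← hudef]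
  set S := ∑ x, Matrix.trace (link W x ^ (2 * m))
  set S' := ∑ x, (kn n).avg (fun V => Matrix.trace (link V x ^ (2 * m))) W
  have hD : 0 < (ρ * u) ^ (2 * m) := by positivity
  have hR : 0 < r ^ (2 * m) := by positivity
  have h3 : (E - 3) / ((ρ * u) ^ (2 * m) * r ^ (2 * m)) * S'
      ≤ E * S / (ρ * u) ^ (2 * m) + 3 * κ := by
    rw [div_mul_eq_mul_div, div_le_iff₀ (by positivity)]
    refine hsum.trans_eq ?_
    rw [hκ, div_pow, mul_pow, mul_pow]
    field_simp
  linarith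

theorem trace_link_allPairs (x : Fin n) (hn : 2 ≤ n) (m : ℕ) :
    Matrix.trace (link (allPairs n) x ^ (2 * m)) ≤ n := by
  have hadj : ∀ y z : Fin n, adj (allPairs n) y z = if y = z then 0 else 1 := by
    intro y z
    by_cases h : y = z
    · simp [adj, h]
    · simp [adj, h, mem_allPairs]
  have hd : dens (allPairs n) = 1 := by
    have h2 : (2 : ℝ) ≤ n := by exact_mod_cast hn
    rw [dens, allPairs, Finset.card_powersetCard, Finset.card_univ, Fintype.card_fin,
      Nat.cast_choose_two, div_self]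
    nlinarith
  have hl : link (allPairs n) x = Matrix.diagonal (fun y => if y = x then (0 : ℝ) else -1) := by
    ext y z
    simp only [link, hd, hadj, Matrix.diagonal_apply]
    by_cases hy : y = x
    · subst hy; simp
    by_cases hyz : y = z
    · subst hyz; simp [hy, Ne.symm hy]
    · by_cases hz : z = x
      · subst hz; simp [hyz]
      · simp [hyz, Ne.symm hy, Ne.symm hz]
  rw [hl, Matrix.diagonal_pow, Matrix.trace_diagonal]
  refine (Finset.sum_le_card_nsmul _ _ 1 fun y _ => ?_).trans_eq (by simp)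
  simp only [Pi.pow_apply]
  split_ifs
  · exact pow_le_one₀ le_rfl zero_le_one
  · rw [pow_mul]; norm_num

/-- The start of the supermartingale. -/
theorem pot_start {η ρ K : ℝ} {m : ℕ} (hn : 4 ≤ n) (hρ : 0 < ρ) (hK : 0 ≤ K)
    (hη : 1 / (n : ℝ) ≤ η) :
    pot ρ (2 * K * (n : ℝ) ^ 2 * (η / ρ) ^ (2 * m) / 3) m (allPairs n)
      ≤ (2 ^ (2 * m) + K) * (n : ℝ) ^ 4 * (η / ρ) ^ (2 * m) := by
  have h4 : (4 : ℝ) ≤ n := by exact_mod_cast hn
  have hN : ((allPairs n).card : ℝ) = (n : ℝ) * (n - 1) / 2 := by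
    rw [allPairs, Finset.card_powersetCard, Finset.card_univ, Fintype.card_fin,
      Nat.cast_choose_two]
  have hu : uexp (allPairs n) = (n : ℝ) - 2 := by
    rw [uexp, dens, hN, div_self (by nlinarith)]; ring
  have hE : ((allPairs n).card : ℝ) ≤ (n : ℝ) ^ 2 := by rw [hN]; nlinarith
  have hη0 : 0 ≤ η := le_trans (by positivity) hη
  have hS : ∑ x, Matrix.trace (link (allPairs n) x ^ (2 * m)) ≤ (n : ℝ) * n :=
    (Finset.sum_le_card_nsmul _ _ (n : ℝ) fun x _ => trace_link_allPairs x (by omega) m).trans_eq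
      (by rw [Finset.card_univ, Fintype.card_fin, nsmul_eq_mul])
  have hS0 : 0 ≤ ∑ x, Matrix.trace (link (allPairs n) x ^ (2 * m)) :=
    Finset.sum_nonneg fun x _ => link_trace_nonneg _ x m
  have hinv : 1 / (ρ * uexp (allPairs n)) ≤ 2 * (η / ρ) := by
    rw [hu, one_div, mul_inv, div_eq_mul_inv, ← mul_assoc, mul_comm (2 * η) ρ⁻¹]
    refine mul_le_mul_of_nonneg_left ?_ (inv_nonneg.2 hρ.le)
    calc ((n : ℝ) - 2)⁻¹ ≤ ((n : ℝ) / 2)⁻¹ := inv_anti₀ (by positivity) (by linarith)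
      _ = 2 * (1 / (n : ℝ)) := by rw [inv_div]; ring
      _ ≤ _ := by linarith
  have hu0 : 0 ≤ 1 / (ρ * uexp (allPairs n)) := by
    have : 0 < (n : ℝ) - 2 := by linarith
    rw [hu]; positivity
  rw [pot, div_eq_mul_inv, ← inv_pow, ← one_div]
  have h1 : ((allPairs n).card : ℝ) * (∑ x, Matrix.trace (link (allPairs n) x ^ (2 * m)))
        * (1 / (ρ * uexp (allPairs n))) ^ (2 * m)
      ≤ (n : ℝ) ^ 2 * ((n : ℝ) * n) * (2 * (η / ρ)) ^ (2 * m) := by gcongr
  have h2 : 2 * K * (n : ℝ) ^ 2 * (η / ρ) ^ (2 * m) / 3 * ((allPairs n).card : ℝ)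
      ≤ K * (n : ℝ) ^ 2 * (η / ρ) ^ (2 * m) * (n : ℝ) ^ 2 := by
    have : 0 ≤ (η / ρ) ^ (2 * m) := by positivity
    refine mul_le_mul ?_ hE (Nat.cast_nonneg _) (by positivity)
    have : 0 ≤ K * (n : ℝ) ^ 2 * (η / ρ) ^ (2 * m) := by positivity
    linarith
  refine (add_le_add h1 h2).trans_eq ?_
  rw [mul_pow 2 (η / ρ)]
  ring

end P046.Full.Links

namespace P046.Full

open Finset Matrix Filter Links

/-- The links half of part I. -/
theorem linksStmt : LinksStmt := by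
  intro θ hθ0 hθ1 A
  obtain ⟨m, hm2, hmθ⟩ : ∃ m : ℕ, 2 ≤ m ∧ 4 * ((A : ℝ) + 7) ≤ θ * m := by
    refine ⟨⌈4 * ((A : ℝ) + 7) / θ⌉₊ + 2, by omega, ?_⟩
    rw [mul_comm θ, ← div_le_iff₀ hθ0]
    push_cast
    linarith [Nat.le_ceil (4 * ((A : ℝ) + 7) / θ)]
  obtain ⟨K, η₀, hK, hη₀, hdrift⟩ := drift m hm2
  refine ⟨m, by omega, ?_⟩
  have hlim : Tendsto (fun n : ℕ => eta n θ) atTop (nhds 0) :=
    (tendsto_rpow_neg_atTop (by positivity : 0 < θ / 4)).comp tendsto_natCast_atTop_atTop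
  have hsmall : ∀ c : ℝ, 0 < c → ∀ᶠ n : ℕ in atTop, eta n θ ≤ c := fun c hc =>
    hlim.eventually (ge_mem_nhds hc)
  filter_upwards [eventually_ge_atTop 12, hsmall (1 / 100) (by norm_num), hsmall η₀ hη₀,
    hsmall (1 / (6 * m)) (by have : (2 : ℝ) ≤ m := by exact_mod_cast hm2
                             positivity),
    tendsto_natCast_atTop_atTop.eventually (eventually_ge_atTop ((2 : ℝ) ^ (2 * m) + K))]
    with n hn hη1 hη2 hη3 hnK
  have hn0 : (0 : ℝ) < n := by exact_mod_cast (by omega : 0 < n)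
  have hn1 : (1 : ℝ) ≤ n := by exact_mod_cast (by omega : 1 ≤ n)
  have hρ : 0 < rho n θ := Real.rpow_pos_of_pos hn0 _
  have hη : 0 < eta n θ := Real.rpow_pos_of_pos hn0 _
  refine ⟨pot (rho n θ) (2 * K * (n : ℝ) ^ 2 * (eta n θ / rho n θ) ^ (2 * m) / 3) m,
    fun W _ => pot_nonneg (by positivity) m W, ?_, ?_, ?_⟩
  · refine (pot_start (by omega) hρ hK ?_).trans ?_
    · rw [eta, one_div, ← Real.rpow_neg_one]
      exact Real.rpow_le_rpow_of_exponent_le hn1 (by linarith)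
    have hratio : (eta n θ / rho n θ) ^ (2 * m) = (n : ℝ) ^ (-(θ * m / 4)) := by
      rw [eta, rho, ← Real.rpow_sub hn0, ← Real.rpow_natCast _ (2 * m), ← Real.rpow_mul hn0.le]
      congr 1
      push_cast
      ring
    have hle : (n : ℝ) ^ (-(θ * m / 4)) ≤ 1 / (n : ℝ) ^ (A + 7) := by
      rw [one_div, ← Real.rpow_natCast (n : ℝ) (A + 7), ← Real.rpow_neg hn0.le]
      refine Real.rpow_le_rpow_of_exponent_le hn1 ?_
      push_cast
      linarith
    rw [hratio]
    calc (2 ^ (2 * m) + K) * (n : ℝ) ^ 4 * (n : ℝ) ^ (-(θ * m / 4))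
        ≤ (n : ℝ) * (n : ℝ) ^ 4 * (1 / (n : ℝ) ^ (A + 7)) := by gcongr
      _ = 1 / ((n : ℝ) ^ A * (n : ℝ) ^ 2) := by rw [pow_add]; field_simp
      _ ≤ 1 / (n : ℝ) ^ A := by
          refine div_le_div_of_nonneg_left zero_le_one (by positivity) ?_
          exact le_mul_of_one_le_right (by positivity) (one_le_pow₀ hn1)
  · intro W _ hlev ⟨x, hx⟩
    have hu : 0 < uexp W := uexp_pos (by omega) hlev
    have hE : 1 ≤ (W.card : ℝ) := by
      exact_mod_cast Nat.cast_pos.1 (card_pos_of_level (by omega) hlev)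
    have hS : Matrix.trace (link W x ^ (2 * m)) ≤ ∑ y, Matrix.trace (link W y ^ (2 * m)) :=
      Finset.single_le_sum (fun y _ => link_trace_nonneg W y m) (Finset.mem_univ x)
    refine le_add_of_le_of_nonneg ?_ (by positivity)
    rw [le_div_iff₀ (by positivity), one_mul]
    have h0 := Finset.sum_nonneg fun y (_ : y ∈ univ) => link_trace_nonneg W y m
    calc (rho n θ * uexp W) ^ (2 * m) ≤ 1 * ∑ y, Matrix.trace (link W y ^ (2 * m)) := by
          rw [one_mul]; exact hx.le.trans hS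
      _ ≤ _ := mul_le_mul_of_nonneg_right hE h0
  · intro W hW hlev hreg
    have hu : (n : ℝ) ^ θ ≤ uexp W := level_le_uexp (by omega) (by linarith)
    have h2 : 1 ≤ eta n θ ^ 2 * uexp W := by
      refine le_trans ?_ (mul_le_mul_of_nonneg_left hu (sq_nonneg _))
      rw [eta, ← Real.rpow_natCast _ 2, ← Real.rpow_mul hn0.le, ← Real.rpow_add hn0]
      exact Real.one_le_rpow hn1 (by push_cast; linarith)
    have h : Hyp W (eta n θ) (rho n θ) m := ⟨hW, hn, hreg, hη1, hη.le, h2⟩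
    refine pot_step hρ hK h ?_ (hdrift n W _ _ m h hη2)
    have hm : (2 : ℝ) ≤ m := by exact_mod_cast hm2
    have h6 : 6 * (m : ℝ) * eta n θ ≤ 1 := by
      rw [le_div_iff₀ (by positivity)] at hη3; linarith
    have h7 := h.six_u_le
    have h8 : eta n θ ^ 2 * uexp W ≤ eta n θ * uexp W := by
      refine mul_le_mul_of_nonneg_right ?_ h.u_pos.le
      nlinarith
    have h9 := mul_le_mul_of_nonneg_left (h2.trans h8) (by positivity : (0 : ℝ) ≤ 36 * (m : ℝ))
    have h10 := mul_le_mul_of_nonneg_right h6 h.u_pos.le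
    linarith

end P046.Full
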