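import Vale.Agent.P046.Full.Interfaces
import Vale.Agent.P046.Full.Ident
import Vale.Agent.P046.Full.Tools

/-!
P046, §2 of notes/P046/FULL_helper5.md: long closed walks on a regular state, by traces.

`inc` sends the ordered pairs at a vertex to the nodes, `blocks f` is the block diagonal operator
with the blocks `f x`; the node adjacency is below `incᵀ * blocks (links) * inc`.
-/

namespace P046.Full

open Finset Matrix Filter

variable {n : ℕ} (W : Finset (Finset (Fin n)))

/-- Ordered pairs against nodes. -/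
def inc : Matrix (Fin n × Fin n) (Finset (Fin n)) ℝ :=
  fun p a => if a = {p.1, p.2} then adj W p.1 p.2 else 0

/-- Block diagonal operator on ordered pairs. -/
def blocks (f : Fin n → Matrix (Fin n) (Fin n) ℝ) : Matrix (Fin n × Fin n) (Fin n × Fin n) ℝ :=
  fun p q => if p.1 = q.1 then f p.1 p.2 q.2 else 0

/-- The uncentred link of `x`. -/
def linkA (x : Fin n) : Matrix (Fin n) (Fin n) ℝ :=
  fun y z => adj W x y * adj W x z * adj W y z

/-- The rank one part of the link of `x`. -/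
noncomputable def linkJ (x : Fin n) : Matrix (Fin n) (Fin n) ℝ :=
  fun y z => adj W x y * adj W x z * dens W

/-- The adjacency of the nodes, counted at the common vertex. -/
def nodeAdj : Matrix (Finset (Fin n)) (Finset (Fin n)) ℝ :=
  (inc W)ᵀ * blocks (linkA W) * inc W

variable {W}

theorem inc_mulVec (v : Finset (Fin n) → ℝ) (p : Fin n × Fin n) :
    (inc W *ᵥ v) p = adj W p.1 p.2 * v {p.1, p.2} := by
  simp [inc, Matrix.mulVec, dotProduct]

theorem opLe_inc (hW : W ⊆ allPairs n) : OpLe (inc W) (Real.sqrt 2) := fun v => by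
  simp only [nsq, inc_mulVec, mul_pow, sq (adj W _ _), adj_mul_self]
  rw [Fintype.sum_prod_type, sum_adj_mul hW (fun e => v e ^ 2), Real.sq_sqrt (by norm_num)]
  exact mul_le_mul_of_nonneg_left (Finset.sum_le_univ_sum_of_nonneg fun e => sq_nonneg (v e))
    (by norm_num)

theorem opLe_blocks {f : Fin n → Matrix (Fin n) (Fin n) ℝ} {c : ℝ} (h : ∀ x, OpLe (f x) c) :
    OpLe (blocks f) c := fun v => by
  have e : ∀ x y, (blocks f *ᵥ v) (x, y) = (f x *ᵥ fun z => v (x, z)) y := by
    intro x y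
    simp [blocks, Matrix.mulVec, dotProduct, Fintype.sum_prod_type]
  simp only [nsq, Fintype.sum_prod_type, e, Finset.mul_sum]
  refine Finset.sum_le_sum fun x _ => ?_
  rw [← Finset.mul_sum]
  exact h x fun z => v (x, z)

theorem opLe_sandwich (hW : W ⊆ allPairs n) {X : Matrix (Fin n × Fin n) (Fin n × Fin n) ℝ}
    {c : ℝ} (h : OpLe X c) : OpLe ((inc W)ᵀ * X * inc W) (2 * c) := by
  have := ((opLe_inc hW).transpose.mul h).mul (opLe_inc hW)
  have e : Real.sqrt 2 * c * Real.sqrt 2 = 2 * c := by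
    rw [mul_right_comm, Real.mul_self_sqrt (by norm_num)]
  rwa [e] at this

theorem frob_sandwich (hW : W ⊆ allPairs n) (X : Matrix (Fin n × Fin n) (Fin n × Fin n) ℝ) :
    frob ((inc W)ᵀ * X * inc W) ≤ 4 * frob X := by
  refine ((opLe_inc hW).frob_le_mul _).trans ?_
  have h := (opLe_inc hW).transpose.frob_mul_le X
  rw [Real.sq_sqrt (by norm_num)] at h ⊢
  linarith

theorem nodeAdj_nonneg (a b : Finset (Fin n)) : 0 ≤ nodeAdj W a b := by
  simp only [nodeAdj, Matrix.mul_apply, Matrix.transpose_apply]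
  refine Finset.sum_nonneg fun q _ => mul_nonneg (Finset.sum_nonneg fun p _ => mul_nonneg ?_ ?_) ?_
  · unfold inc; split_ifs <;> simp [adj_nonneg]
  · unfold blocks linkA
    split_ifs
    · exact mul_nonneg (mul_nonneg (adj_nonneg _ _ _) (adj_nonneg _ _ _)) (adj_nonneg _ _ _)
    · exact le_rfl
  · unfold inc; split_ifs <;> simp [adj_nonneg]

/-- Two nodes of a common triangle are adjacent. -/
theorem one_le_nodeAdj {s : Finset (Finset (Fin n))} (hs : s ∈ (kn n).tris W)
    {a b : Finset (Fin n)} (ha : a ∈ s) (hb : b ∈ s) (hab : a ≠ b) : 1 ≤ nodeAdj W a b := by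
  obtain ⟨V, hV, rfl, hsub⟩ := mem_tris_kn.1 hs
  obtain ⟨hav, ha2⟩ := Finset.mem_powersetCard.1 ha
  obtain ⟨hbv, hb2⟩ := Finset.mem_powersetCard.1 hb
  obtain ⟨x, hx⟩ : (a ∩ b).Nonempty := by
    rw [← Finset.card_pos]
    have := Finset.card_le_card (Finset.union_subset hav hbv)
    have := Finset.card_union_add_card_inter a b
    omega
  obtain ⟨hxa, hxb⟩ := Finset.mem_inter.1 hx
  obtain ⟨y, hy⟩ := Finset.card_eq_one.1 (show (a.erase x).card = 1 by
    rw [Finset.card_erase_of_mem hxa, ha2])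
  obtain ⟨z, hz⟩ := Finset.card_eq_one.1 (show (b.erase x).card = 1 by
    rw [Finset.card_erase_of_mem hxb, hb2])
  obtain rfl : a = {x, y} := by rw [← Finset.insert_erase hxa, hy]
  obtain rfl : b = {x, z} := by rw [← Finset.insert_erase hxb, hz]
  obtain ⟨-, hyx⟩ : x ∈ V ∧ y ∈ V ∧ x ≠ y := pair_mem_pairs.1 ha
  obtain ⟨-, hzV, hxz⟩ := pair_mem_pairs.1 hb
  have hyz : y ≠ z := fun e => hab (by rw [e])
  have h1 : adj W x y = 1 := adj_eq_one.2 ⟨hyx.2, hsub ha⟩
  have h2 : adj W x z = 1 := adj_eq_one.2 ⟨hxz, hsub hb⟩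
  have h3 : adj W y z = 1 :=
    adj_eq_one.2 ⟨hyz, hsub (pair_mem_pairs.2 ⟨hyx.1, hzV, hyz⟩)⟩
  have hnn : ∀ p q, 0 ≤ inc W p {x, y} * blocks (linkA W) p q := fun p q => by
    refine mul_nonneg ?_ ?_
    · unfold inc; split_ifs <;> simp [adj_nonneg]
    · unfold blocks linkA
      split_ifs
      · exact mul_nonneg (mul_nonneg (adj_nonneg _ _ _) (adj_nonneg _ _ _)) (adj_nonneg _ _ _)
      · exact le_rfl
  simp only [nodeAdj, Matrix.mul_apply, Matrix.transpose_apply]
  refine le_trans ?_ (Finset.single_le_sum (fun q _ => mul_nonneg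
    (Finset.sum_nonneg fun p _ => hnn p q) (show 0 ≤ inc W q {x, z} by
      unfold inc; split_ifs <;> simp [adj_nonneg])) (Finset.mem_univ (x, z)))
  rw [show inc W (x, z) {x, z} = 1 by simp [inc, h2], mul_one]
  refine le_trans ?_ (Finset.single_le_sum (fun p _ => hnn p (x, z)) (Finset.mem_univ (x, y)))
  simp [inc, blocks, linkA, h1, h2, h3]

/-- Sequences of adjacent entries are counted by powers. -/
theorem count_le_pow {ι : Type*} [Fintype ι] [DecidableEq ι] (N : Matrix ι ι ℝ)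
    (hN : ∀ a b, 0 ≤ N a b) : ∀ (l : ℕ) (a b : ι) (S : Finset (Fin (l + 1) → ι)),
    (∀ v ∈ S, v 0 = a ∧ v (Fin.last l) = b ∧ ∀ i : Fin l, 1 ≤ N (v i.castSucc) (v i.succ)) →
    (S.card : ℝ) ≤ (N ^ l) a b := by
  intro l
  induction l with
  | zero =>
    intro a b S hS
    rcases S.eq_empty_or_nonempty with rfl | ⟨v, hv⟩
    · simp [Matrix.one_apply]; split_ifs <;> norm_num
    · have hab : a = b := (hS v hv).1.symm.trans (hS v hv).2.1
      have h1 : S.card ≤ 1 := Finset.card_le_one.2 fun u hu w hw => funext fun i => by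
        rw [Subsingleton.elim (α := Fin 1) i 0, (hS u hu).1, (hS w hw).1]
      simpa [hab] using (show (S.card : ℝ) ≤ 1 by exact_mod_cast h1)
  | succ l ih =>
    intro a b S hS
    have hpow : ∀ c, 0 ≤ (N ^ l) a c := fun c => le_trans (by simp) (ih a c ∅ (by simp))
    set f : (Fin (l + 1 + 1) → ι) → ι := fun v => v (Fin.last l).castSucc
    rw [Finset.card_eq_sum_card_fiberwise (f := f) (t := Finset.univ) fun _ _ => Finset.mem_univ _,
      Nat.cast_sum, pow_succ, Matrix.mul_apply]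
    refine Finset.sum_le_sum fun c _ => ?_
    set T := S.filter fun v => f v = c
    have hinj : Set.InjOn (Fin.init : (Fin (l + 1 + 1) → ι) → Fin (l + 1) → ι) T := by
      intro u hu w hw he
      rw [← Fin.snoc_init_self u, ← Fin.snoc_init_self w, he,
        (hS u (Finset.mem_filter.1 hu).1).2.1, (hS w (Finset.mem_filter.1 hw).1).2.1]
    rcases T.eq_empty_or_nonempty with hT | ⟨v, hv⟩
    · rw [hT, Finset.card_empty, Nat.cast_zero]
      exact mul_nonneg (hpow c) (hN c b)
    rw [← Finset.card_image_of_injOn hinj]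
    refine le_trans (ih a c (T.image Fin.init) ?_) ?_
    · intro u hu
      obtain ⟨v, hv, rfl⟩ := Finset.mem_image.1 hu
      obtain ⟨hvS, hvc⟩ := Finset.mem_filter.1 hv
      exact ⟨(hS v hvS).1, hvc, fun i => (hS v hvS).2.2 i.castSucc⟩
    · obtain ⟨hvS, hvc⟩ := Finset.mem_filter.1 hv
      have h1 := (hS v hvS).2.2 (Fin.last l)
      rw [Fin.succ_last, (hS v hvS).2.1] at h1
      exact le_mul_of_one_le_right (hpow c) (hvc ▸ h1)

/-- Closed walks are counted by the trace. -/
theorem closed_card_le_trace {l : ℕ} (hl : 1 ≤ l) :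
    (((kn n).closed W l).card : ℝ) ≤ trace (nodeAdj W ^ l) := by
  classical
  set F : (Fin l → Finset (Fin n) × Finset (Finset (Fin n))) → Fin (l + 1) → Finset (Fin n) :=
    fun w i => (w ⟨i % l, Nat.mod_lt _ (by omega)⟩).1
  have hstep : ∀ w ∈ (kn n).closed W l, ∀ i : Fin l,
      (w i).2 ∈ (kn n).tris W ∧ F w i.castSucc ∈ (w i).2 ∧ F w i.succ ∈ (w i).2
        ∧ F w i.castSucc ≠ F w i.succ := by
    intro w hw i
    simp only [LH.closed, Finset.mem_filter, Fintype.mem_piFinset, Finset.mem_product] at hw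
    have h := hw.2 i ⟨((i : ℕ) + 1) % l, Nat.mod_lt _ (by omega)⟩ rfl
    have e1 : F w i.castSucc = (w i).1 := by
      simp [F, Nat.mod_eq_of_lt i.2]
    have e2 : F w i.succ = (w ⟨((i : ℕ) + 1) % l, Nat.mod_lt _ (by omega)⟩).1 := by
      simp [F]
    exact ⟨(hw.1 i).2, e1 ▸ h.1, e2 ▸ h.2.1, by rw [e1, e2]; exact h.2.2.1⟩
  have hinj : Set.InjOn F ((kn n).closed W l) := by
    intro w hw w' hw' he
    funext i
    obtain ⟨h1, h2, h3, h4⟩ := hstep w hw i
    obtain ⟨h1', h2', h3', -⟩ := hstep w' hw' i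
    refine Prod.ext ?_ ?_
    · have := congrFun he i.castSucc
      simpa [F, Nat.mod_eq_of_lt i.2] using this
    · rw [← he] at h2' h3'
      exact (kn n).linear _ (LH.mem_tris.1 h1).1 _ (LH.mem_tris.1 h1').1 _ h2 _ h3 h2' h3' h4
  rw [← Finset.card_image_of_injOn hinj,
    Finset.card_eq_sum_card_fiberwise (f := fun v => v 0) (t := Finset.univ)
      fun _ _ => Finset.mem_univ _, Nat.cast_sum, Matrix.trace]
  refine Finset.sum_le_sum fun a _ => count_le_pow _ nodeAdj_nonneg l a a _ fun v hv => ?_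
  obtain ⟨hv, hv0⟩ := Finset.mem_filter.1 hv
  obtain ⟨w, hw, rfl⟩ := Finset.mem_image.1 hv
  refine ⟨hv0, ?_, fun i => ?_⟩
  · rw [← hv0]
    simp [F]
  · obtain ⟨h1, h2, h3, h4⟩ := hstep w hw i
    exact one_le_nodeAdj h1 h2 h3 h4

theorem trace_pow_le {ι : Type*} [Fintype ι] [DecidableEq ι] {N : Matrix ι ι ℝ} {c : ℝ}
    (hN : Nᵀ = N) (hc : 0 ≤ c) (h : OpLe N c) (k j : ℕ) :
    trace (N ^ (j + 2 * k)) ≤ c ^ j * frob (N ^ k) := by
  have hP : (N ^ k)ᵀ = N ^ k := by rw [transpose_pow, hN]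
  rw [show j + 2 * k = k + (j + k) by omega, pow_add, Matrix.trace]
  simp only [Matrix.diag_apply, Matrix.mul_apply]
  have h2 := (h.pow j).frob_mul_le (N ^ k)
  rw [← pow_add] at h2
  rw [← Finset.sum_product']
  refine abs_le_of_sq_le_sq ?_ (mul_nonneg (pow_nonneg hc j) (frob_nonneg _)) |>.trans' (le_abs_self _)
  refine (Finset.sum_mul_sq_le_sq_mul_sq _ _ _).trans ?_
  calc (∑ p ∈ univ ×ˢ univ, (N ^ k) p.1 p.2 ^ 2) * ∑ p ∈ univ ×ˢ univ, (N ^ (j + k)) p.2 p.1 ^ 2
      = frob (N ^ k) * frob (N ^ (j + k)) := by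
        rw [Finset.sum_product, Finset.sum_product_right]; rfl
    _ ≤ frob (N ^ k) * ((c ^ j) ^ 2 * frob (N ^ k)) :=
        mul_le_mul_of_nonneg_left h2 (frob_nonneg _)
    _ = _ := by ring

theorem frob_pow_sub_le {ι : Type*} [Fintype ι] [DecidableEq ι] {N R : Matrix ι ι ℝ} {u F : ℝ}
    (hu : 0 ≤ u) (hN : OpLe N (4 * u)) (hR : OpLe R (4 * u)) (hF : frob (N - R) ≤ F * u ^ 2)
    (hF0 : 0 ≤ F) (i : ℕ) : frob (N ^ i - R ^ i) ≤ i * 32 ^ i * F * u ^ (2 * i) := by
  induction i with
  | zero => simp [frob]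
  | succ i ih =>
    have e : N ^ (i + 1) - R ^ (i + 1) = N * (N ^ i - R ^ i) + (N - R) * R ^ i := by
      rw [pow_succ', pow_succ', Matrix.mul_sub, Matrix.sub_mul]; abel
    rw [e]
    refine (frob_add_le _ _).trans ?_
    have h1 := (hN.frob_mul_le (N ^ i - R ^ i)).trans (mul_le_mul_of_nonneg_left ih (sq_nonneg _))
    have h2 := ((hR.pow i).frob_le_mul (N - R)).trans (mul_le_mul_of_nonneg_left hF (sq_nonneg _))
    have h3 : (4 : ℝ) ^ (2 * i) ≤ 32 ^ i := by
      rw [pow_mul]; exact pow_le_pow_left₀ (by norm_num) (by norm_num) i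
    have h4 : ((4 * u) ^ i) ^ 2 * (F * u ^ 2) ≤ 32 ^ i * F * u ^ (2 * (i + 1)) := by
      calc ((4 * u) ^ i) ^ 2 * (F * u ^ 2) = (4 : ℝ) ^ (2 * i) * (F * u ^ (2 * (i + 1))) := by ring
        _ ≤ 32 ^ i * (F * u ^ (2 * (i + 1))) := mul_le_mul_of_nonneg_right h3 (by positivity)
        _ = _ := by ring
    have h5 : (0 : ℝ) ≤ 32 ^ i * F * u ^ (2 * (i + 1)) := by positivity
    calc 2 * (frob (N * (N ^ i - R ^ i)) + frob ((N - R) * R ^ i))
        ≤ 2 * ((4 * u) ^ 2 * (i * 32 ^ i * F * u ^ (2 * i)) + 32 ^ i * F * u ^ (2 * (i + 1))) := by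
          linarith
      _ = (32 * i + 2) * (32 ^ i * F * u ^ (2 * (i + 1))) := by ring
      _ ≤ (32 * ((i : ℝ) + 1)) * (32 ^ i * F * u ^ (2 * (i + 1))) :=
          mul_le_mul_of_nonneg_right (by linarith) h5
      _ = _ := by push_cast; ring

theorem long_walks : LongStmt := by
  intro θ hθ _ m k hm hk
  refine ⟨128 * ((k : ℝ) + 1) * 32 ^ k, ?_⟩
  filter_upwards [Filter.eventually_ge_atTop 3] with n hn W hW hreg l hl
  obtain ⟨hW0, hlev, -⟩ := hW
  have hn2 : 2 ≤ n := by omega
  have hn3 : (3 : ℝ) ≤ n := by exact_mod_cast hn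
  set u := uexp W with hu_def
  set ρ := rho n θ with hρ_def
  have hu : 0 < u := uexp_pos hn hlev
  have hp0 : 0 < dens W := by
    refine lt_of_le_of_ne (dens_nonneg hn2) fun e => ?_
    have := hu
    rw [hu_def, uexp, ← e] at this
    simp at this
  have hρ0 : 0 ≤ ρ := Real.rpow_nonneg (by linarith) _
  have hρ1 : ρ ≤ 1 := Real.rpow_le_one_of_one_le_of_nonpos (by linarith) (by linarith)
  have hη1 : eta n θ ≤ 1 := Real.rpow_le_one_of_one_le_of_nonpos (by linarith) (by linarith)
  set R := (inc W)ᵀ * blocks (link W) * inc W with hR_def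
  set V := (inc W)ᵀ * blocks (linkJ W) * inc W with hV_def
  have hsplit : nodeAdj W = R + V := by
    rw [hR_def, hV_def, ← Matrix.add_mul, ← Matrix.mul_add, nodeAdj]
    congr 2
    ext p q
    simp only [blocks, linkA, link, linkJ, Matrix.add_apply]
    split_ifs <;> ring
  have hsymm : (nodeAdj W)ᵀ = nodeAdj W := by
    have : (blocks (linkA W))ᵀ = blocks (linkA W) := by
      ext p q
      by_cases h : p.1 = q.1
      · simp only [Matrix.transpose_apply, blocks, h, if_pos, linkA, adj_symm W q.2 p.2]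
        ring
      · simp [Matrix.transpose_apply, blocks, h, Ne.symm h]
    rw [nodeAdj, Matrix.transpose_mul, Matrix.transpose_mul, Matrix.transpose_transpose, this,
      Matrix.mul_assoc]
  have hN : OpLe (nodeAdj W) (4 * u) := by
    rw [show 4 * u = 2 * (2 * u) by ring]
    refine opLe_sandwich hW0 (opLe_blocks fun x => ?_)
    have hrow : ∀ y, ∑ z, |linkA W x y z| ≤ 2 * u := by
      intro y
      have e : ∀ z, |linkA W x y z| = adj W x y * (adj W x z * adj W y z) := fun z => by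
        rw [linkA, abs_of_nonneg (mul_nonneg (mul_nonneg (adj_nonneg _ _ _) (adj_nonneg _ _ _))
          (adj_nonneg _ _ _))]
        ring
      rw [Finset.sum_congr rfl fun z _ => e z, ← Finset.mul_sum]
      change adj W x y * cd W x y ≤ _
      refine (hreg.adj_cd_le hu x y).trans ((mul_le_mul_of_nonneg_right (adj_le_one W x y)
        (mul_nonneg ?_ hu.le)).trans ?_)
      · linarith [abs_nonneg (mdev W), hreg.mdev_le]
      · rw [one_mul]; exact mul_le_mul_of_nonneg_right (by linarith) hu.le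
    refine opLe_of_sums (by linarith) hrow fun z => ?_
    refine le_trans (le_of_eq (Finset.sum_congr rfl fun y _ => ?_)) (hrow z)
    simp only [linkA, adj_symm W y z]
    congr 1
    ring
  have hR : OpLe R (2 * (ρ * u)) := opLe_sandwich hW0 (opLe_blocks fun x =>
    opLe_of_trace (Matrix.ext fun y z => (link_symm W x z y)) hm (hreg.link_le x))
  have hVfrob : frob V ≤ 64 * (n : ℝ) * u ^ 2 := by
    refine (frob_sandwich hW0 _).trans ?_
    have hblk : frob (blocks (linkJ W)) = ∑ x, (dens W * dg W x) ^ 2 := by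
      simp only [frob, Fintype.sum_prod_type]
      refine Finset.sum_congr rfl fun x _ => ?_
      have e : ∀ y, ∑ x', ∑ z, blocks (linkJ W) (x, y) (x', z) ^ 2
          = adj W x y * (dens W ^ 2 * dg W x) := by
        intro y
        rw [Finset.sum_eq_single x (fun x' _ h => by simp [blocks, Ne.symm h])
          (fun h => absurd (Finset.mem_univ x) h), dg, Finset.mul_sum, Finset.mul_sum]
        refine Finset.sum_congr rfl fun z _ => ?_
        simp only [blocks, linkJ, if_true, mul_pow, sq (adj W _ _), adj_mul_self]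
        ring
      rw [Finset.sum_congr rfl fun y _ => e y, ← Finset.sum_mul]
      show dg W x * _ = _
      ring
    rw [hblk]
    have hb : ∀ x, (dens W * dg W x) ^ 2 ≤ 16 * u ^ 2 := by
      intro x
      have h1 : dg W x ≤ 4 * (((n : ℝ) - 2) * dens W) := by
        refine (hreg.dg_bounds hn hp0 x).2.trans ?_
        calc (1 + eta n θ) * (((n : ℝ) - 1) * dens W) ≤ 2 * (((n : ℝ) - 1) * dens W) :=
              mul_le_mul_of_nonneg_right (by linarith) (mul_nonneg (by linarith) hp0.le)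
          _ ≤ 2 * (2 * ((n : ℝ) - 2) * dens W) := by gcongr; linarith
          _ = _ := by ring
      have h2 : dens W * dg W x ≤ 4 * u := by
        refine (mul_le_mul_of_nonneg_left h1 hp0.le).trans (le_of_eq ?_)
        rw [hu_def, uexp]; ring
      have := pow_le_pow_left₀ (mul_nonneg hp0.le (dg_nonneg W x)) h2 2
      linarith [mul_pow (4 : ℝ) u 2]
    have := Finset.sum_le_sum (s := Finset.univ) fun x _ => hb x
    rw [Finset.sum_const, Finset.card_univ, Fintype.card_fin, nsmul_eq_mul] at this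
    linarith
  -- the power of `R` is supported on the graph
  set Pw : Matrix (Finset (Fin n)) (Finset (Fin n)) ℝ :=
    Matrix.diagonal fun a => if a ∈ W then 1 else 0 with hPw
  have hincP : inc W * Pw = inc W := by
    ext p a
    rw [hPw, Matrix.mul_diagonal]
    simp only [inc]
    split_ifs with h1 h2 <;> try simp
    subst h1
    simp [adj, h2]
  have hRk : frob (R ^ k) ≤ ((2 * (ρ * u)) ^ k) ^ 2 * W.card := by
    have e : R ^ k = R ^ k * Pw := by
      obtain ⟨k', rfl⟩ : ∃ k', k = k' + 1 := ⟨k - 1, by omega⟩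
      rw [pow_succ, Matrix.mul_assoc]
      congr 1
      rw [hR_def, Matrix.mul_assoc _ (inc W) Pw, hincP]
    rw [e]
    refine ((hR.pow k).frob_mul_le _).trans (le_of_eq ?_)
    congr 1
    simp [frob, hPw, Matrix.diagonal_apply, Finset.sum_ite_eq]
  have hdiff : frob (nodeAdj W ^ k - R ^ k) ≤ k * 32 ^ k * (64 * n) * u ^ (2 * k) := by
    refine frob_pow_sub_le hu.le hN (hR.mono (by positivity) ?_) ?_ (by positivity) k
    · nlinarith
    · rw [hsplit, add_sub_cancel_left]; exact hVfrob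
  have hfrob : frob (nodeAdj W ^ k)
      ≤ 128 * ((k : ℝ) + 1) * 32 ^ k * u ^ (2 * k) * ((W.card : ℝ) * ρ ^ (2 * k) + n) := by
    rw [← add_sub_cancel (R ^ k) (nodeAdj W ^ k)]
    refine (frob_add_le _ _).trans ?_
    have e1 : ((2 * (ρ * u)) ^ k) ^ 2 * (W.card : ℝ)
        = 4 ^ k * (u ^ (2 * k) * ((W.card : ℝ) * ρ ^ (2 * k))) := by
      rw [show (4 : ℝ) = 2 * 2 by norm_num, mul_pow (2 : ℝ) 2]; ring
    have h4 : (4 : ℝ) ^ k ≤ 32 ^ k := pow_le_pow_left₀ (by norm_num) (by norm_num) k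
    have hA : (0 : ℝ) ≤ u ^ (2 * k) * ((W.card : ℝ) * ρ ^ (2 * k)) := by positivity
    have hB : (0 : ℝ) ≤ u ^ (2 * k) * n := by positivity
    have h32 : (0 : ℝ) ≤ 32 ^ k := by positivity
    have h5 := mul_le_mul_of_nonneg_right h4 hA
    have h6 := mul_nonneg h32 hA
    have h7 := mul_nonneg (mul_nonneg h32 hB) (show (0 : ℝ) ≤ k by positivity)
    have h8 := mul_nonneg h32 hB
    nlinarith [hRk, hdiff, e1]
  obtain ⟨j, rfl⟩ : ∃ j, l = j + 2 * k := ⟨l - 2 * k, by omega⟩
  rw [Nat.add_sub_cancel]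
  refine (closed_card_le_trace (by omega)).trans ?_
  refine (trace_pow_le hsymm (by linarith) hN k j).trans ?_
  exact mul_le_mul_of_nonneg_left hfrob (pow_nonneg (by linarith) j)

end P046.Full
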