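import Vale.Agent.P046.Full.Interfaces

/-!
P046, assembly: the six module statements give `E |F_n - n^(3/2)/(2√2)| = o(n^(3/2))`.
-/

namespace P046

open Finset Filter

namespace LH

variable {α : Type} [DecidableEq α] {L : LH α}

theorem ex_le_stop {f Φ : Finset α → ℝ} {R : Finset α → Prop} {U : Finset α} (hU : R U)
    (h : ∀ W, W ⊆ U → R W → L.ex f W ≤ Φ W
      ∨ (L.tris W ≠ ∅ ∧ (∀ t ∈ L.tris W, R (W \ t)) ∧ L.avg Φ W ≤ Φ W)) :
    L.ex f U ≤ Φ U := by
  refine ex_induction (L := L) (P := fun W => W ⊆ U → R W → L.ex f W ≤ Φ W)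
    (fun W ih hW hR => ?_) U subset_rfl hU
  rcases h W hW hR with h' | ⟨h1, h2, h3⟩
  · exact h'
  · rw [ex_step h1]
    exact (avg_mono fun t ht => ih t ht (Finset.sdiff_subset.trans hW) (h2 t ht)).trans h3

section slot

variable {W : Finset α} {M : ℕ}

theorem slotE_mono {f g : (Finset α → ℕ) → ℝ} (h : ∀ τ, f τ ≤ g τ) :
    L.slotE W M f ≤ L.slotE W M g :=
  div_le_div_of_nonneg_right (Finset.sum_le_sum fun _ _ => h _) (by positivity)

theorem slotE_add (f g : (Finset α → ℕ) → ℝ) :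
    L.slotE W M (fun τ => f τ + g τ) = L.slotE W M f + L.slotE W M g := by
  simp only [slotE, Finset.sum_add_distrib, add_div]

theorem slotE_mul (c : ℝ) (f : (Finset α → ℕ) → ℝ) :
    L.slotE W M (fun τ => c * f τ) = c * L.slotE W M f := by
  simp only [slotE, ← Finset.mul_sum, mul_div_assoc]

theorem slotE_sum {ι : Type} (s : Finset ι) (f : ι → (Finset α → ℕ) → ℝ) :
    L.slotE W M (fun τ => ∑ i ∈ s, f i τ) = ∑ i ∈ s, L.slotE W M (f i) := by
  simp only [slotE]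
  rw [Finset.sum_comm, Finset.sum_div]

theorem slotE_const (hM : 0 < M) (c : ℝ) : L.slotE W M (fun _ => c) = c := by
  simp only [slotE, Finset.sum_const, Finset.card_univ, Fintype.card_fun, Fintype.card_fin,
    Fintype.card_coe, nsmul_eq_mul, Nat.cast_pow]
  field_simp

/-- The second moment about the tree prediction. -/
theorem second_moment (hM : 0 < M) {B P : ℝ}
    (hy : ∀ a ∈ W, 0 ≤ L.surv W M M ∅ a ∧ L.surv W M M ∅ a ≤ 2)
    (h1 : ∑ a ∈ W, |L.slotP W M (fun τ => L.alive W τ M a) - L.surv W M M ∅ a| ≤ B)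
    (h2 : ∑ a ∈ W, ∑ b ∈ W, |L.slotP W M (fun τ => L.alive W τ M a ∧ L.alive W τ M b)
      - L.surv W M M ∅ a * L.surv W M M ∅ b| ≤ P) :
    L.slotE W M (fun τ => (((L.leftover W M τ).card : ℝ) - ∑ a ∈ W, L.surv W M M ∅ a) ^ 2)
      ≤ P + 4 * W.card * B := by
  classical
  set y : α → ℝ := fun a => L.surv W M M ∅ a with hy_def
  let I : α → (Finset α → ℕ) → ℝ := fun a τ => if L.alive W τ M a then 1 else 0
  have hcard : ∀ τ, ((L.leftover W M τ).card : ℝ) = ∑ a ∈ W, I a τ := by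
    intro τ
    rw [leftover, Finset.card_filter, Nat.cast_sum]
    simp [I]
  have hPa : ∀ a, L.slotP W M (fun τ => L.alive W τ M a) = L.slotE W M (I a) := by
    intro a; simp only [slotP, I]
  have hPab : ∀ a b, L.slotP W M (fun τ => L.alive W τ M a ∧ L.alive W τ M b)
      = L.slotE W M (fun τ => I a τ * I b τ) := by
    intro a b; simp only [slotP, I]; congr 1; funext τ
    by_cases ha : L.alive W τ M a <;> by_cases hb : L.alive W τ M b <;> simp [ha, hb]
  have e : ∀ τ, (((L.leftover W M τ).card : ℝ) - ∑ a ∈ W, y a) ^ 2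
      = ∑ a ∈ W, ∑ b ∈ W, (I a τ * I b τ + (-(y b)) * I a τ + (-(y a)) * I b τ + y a * y b) := by
    intro τ
    rw [hcard, sq, ← Finset.sum_sub_distrib, Finset.sum_mul_sum]
    exact Finset.sum_congr rfl fun a _ => Finset.sum_congr rfl fun b _ => by ring
  rw [show (fun τ => (((L.leftover W M τ).card : ℝ) - ∑ a ∈ W, y a) ^ 2)
      = fun τ => ∑ a ∈ W, ∑ b ∈ W,
        (I a τ * I b τ + (-(y b)) * I a τ + (-(y a)) * I b τ + y a * y b) from funext e]
  simp only [slotE_sum, slotE_add, slotE_mul, slotE_const hM, ← hPa, ← hPab]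
  calc _ ≤ ∑ a ∈ W, ∑ b ∈ W,
        (|L.slotP W M (fun τ => L.alive W τ M a ∧ L.alive W τ M b) - y a * y b|
          + 2 * |L.slotP W M (fun τ => L.alive W τ M a) - y a|
          + 2 * |L.slotP W M (fun τ => L.alive W τ M b) - y b|) := by
        refine Finset.sum_le_sum fun a ha => Finset.sum_le_sum fun b hb => ?_
        obtain ⟨a0, a2⟩ := hy a ha
        obtain ⟨b0, b2⟩ := hy b hb
        have k1 : (-(y b)) * (L.slotP W M (fun τ => L.alive W τ M a) - y a)
            ≤ 2 * |L.slotP W M (fun τ => L.alive W τ M a) - y a| := by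
          refine (le_abs_self _).trans ?_
          rw [abs_mul, abs_neg, abs_of_nonneg b0]
          exact mul_le_mul_of_nonneg_right b2 (abs_nonneg _)
        have k2 : (-(y a)) * (L.slotP W M (fun τ => L.alive W τ M b) - y b)
            ≤ 2 * |L.slotP W M (fun τ => L.alive W τ M b) - y b| := by
          refine (le_abs_self _).trans ?_
          rw [abs_mul, abs_neg, abs_of_nonneg a0]
          exact mul_le_mul_of_nonneg_right a2 (abs_nonneg _)
        have := le_abs_self (L.slotP W M (fun τ => L.alive W τ M a ∧ L.alive W τ M b) - y a * y b)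
        linarith
    _ ≤ _ := by
        simp only [Finset.sum_add_distrib, Finset.sum_const, nsmul_eq_mul, ← Finset.mul_sum]
        have hW : (0 : ℝ) ≤ W.card := Nat.cast_nonneg _
        have := mul_le_mul_of_nonneg_left h1 hW
        simp only [hy_def] at h2 ⊢
        linarith

end slot

end LH

namespace Full

variable {n : ℕ}

theorem card_allPairs_le (n : ℕ) : ((allPairs n).card : ℝ) ≤ (n : ℝ) ^ 2 := by
  rw [allPairs, Finset.card_powersetCard, Finset.card_univ, Fintype.card_fin]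
  exact_mod_cast Nat.choose_le_pow n 2

theorem tris_card_le (W : Finset (Finset (Fin n))) :
    (((kn n).tris W).card : ℝ) ≤ (n : ℝ) ^ 3 := by
  have h1 : ((kn n).tris W).card ≤ n.choose 3 := by
    rw [kn_tris]
    refine Finset.card_image_le.trans ((Finset.card_filter_le _ _).trans (le_of_eq ?_))
    rw [Finset.card_powersetCard, Finset.card_univ, Fintype.card_fin]
  exact_mod_cast h1.trans (Nat.choose_le_pow n 3)

/-- The codegree bounds the degree of the edge as a node. -/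
theorem deg_le_cd (W : Finset (Finset (Fin n))) {x y : Fin n} (hxy : x ≠ y) :
    ((kn n).deg W {x, y} : ℝ) ≤ cd W x y := by
  classical
  have hcd : cd W x y
      = ((Finset.univ.filter fun z => (x ≠ z ∧ {x, z} ∈ W) ∧ (y ≠ z ∧ {y, z} ∈ W)).card : ℝ) := by
    rw [Finset.card_filter, Nat.cast_sum, cd]
    refine Finset.sum_congr rfl fun z _ => ?_
    by_cases h1 : (x ≠ z ∧ {x, z} ∈ W) <;> by_cases h2 : (y ≠ z ∧ {y, z} ∈ W) <;> simp [adj, h1, h2]
  rw [hcd]
  norm_cast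
  refine le_trans (Finset.card_le_card ?_)
    (Finset.card_image_le (f := fun z => ({x, y, z} : Finset (Fin n)).powersetCard 2))
  intro r hr
  obtain ⟨hr, hxr⟩ := Finset.mem_filter.1 hr
  rw [kn_tris] at hr
  obtain ⟨t, ht, rfl⟩ := Finset.mem_image.1 hr
  obtain ⟨ht3, hW⟩ := Finset.mem_filter.1 ht
  rw [Finset.mem_powersetCard] at ht3 hxr
  obtain ⟨z, hz⟩ := Finset.card_eq_one.1 (by
    rw [Finset.card_sdiff_of_subset hxr.1, ht3.2, Finset.card_pair hxy] :
      (t \ {x, y}).card = 1)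
  have hzt : z ∈ t ∧ z ∉ ({x, y} : Finset (Fin n)) :=
    Finset.mem_sdiff.1 (hz ▸ Finset.mem_singleton_self z)
  have hzxy : z ≠ x ∧ z ≠ y := by simpa [not_or] using hzt.2
  have hx : x ∈ t := hxr.1 (by simp)
  have hy : y ∈ t := hxr.1 (by simp)
  have mem : ∀ v ∈ t, v ≠ z → ({v, z} : Finset (Fin n)) ∈ W := fun v hv hvz =>
    hW _ (Finset.mem_powersetCard.2
      ⟨by simp [Finset.insert_subset_iff, hv, hzt.1], Finset.card_pair hvz⟩)
  refine Finset.mem_image.2 ⟨z, Finset.mem_filter.2 ⟨Finset.mem_univ _,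
    ⟨Ne.symm hzxy.1, mem x hx (Ne.symm hzxy.1)⟩, ⟨Ne.symm hzxy.2, mem y hy (Ne.symm hzxy.2)⟩⟩, ?_⟩
  congr 1
  refine Finset.eq_of_subset_of_card_le (by simp [Finset.insert_subset_iff, hx, hy, hzt.1]) ?_
  rw [ht3.2, Finset.card_insert_of_notMem (by simp [hxy, Ne.symm hzxy.1]),
    Finset.card_pair (Ne.symm hzxy.2)]

theorem deg_le_two {W : Finset (Finset (Fin n))} {η ρ : ℝ} {m : ℕ} (hW : W ⊆ allPairs n)
    (h : Regular W η ρ m) (hη : η ≤ 1) (hu : 0 < uexp W) {a : Finset (Fin n)} (ha : a ∈ W) :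
    ((kn n).deg W a : ℝ) ≤ 2 * uexp W := by
  obtain ⟨x, y, hxy, rfl⟩ := Finset.card_eq_two.1 (Finset.mem_powersetCard.1 (hW ha)).2
  refine (deg_le_cd W hxy).trans ?_
  have h1 := (abs_le.1 (h.dev_le x y)).2
  rw [dev, adj, if_pos ⟨hxy, ha⟩, one_mul] at h1
  have : cd W x y / uexp W ≤ 2 := by linarith
  rwa [div_le_iff₀ hu] at this

/-- The leading term. -/
noncomputable def target (n : ℕ) : ℝ := (n : ℝ) ^ (3/2 : ℝ) / (2 * Real.sqrt 2)

theorem target_sq (hn : 0 ≤ (n : ℝ)) : target n ^ 2 = (n : ℝ) ^ 3 / 8 := by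
  rw [target, div_pow, mul_pow, Real.sq_sqrt (by norm_num), ← Real.rpow_natCast (_ ^ (3/2 : ℝ)),
    ← Real.rpow_mul hn]
  norm_num

theorem level_bounds (hn : 16 ≤ n) {θ : ℝ} (hθ : 0 < θ) (hθ1 : θ ≤ 1 / 10) :
    6 ≤ level n θ ∧ level n θ ≤ (n : ℝ) ^ (3/2 + θ/2) ∧ level n θ ≤ (n : ℝ) ^ 2 := by
  have h5 : (16 : ℝ) ≤ n := by exact_mod_cast hn
  have hN : 100 ≤ (n : ℝ) * (n - 1) / 2 := by nlinarith
  have h1 : 1 / (n : ℝ) ≤ (n : ℝ) ^ θ / ((n : ℝ) - 2) :=
    div_le_div₀ (by positivity) (Real.one_le_rpow (by linarith) hθ.le) (by linarith) (by linarith)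
  have h2 : (n : ℝ) ^ θ / ((n : ℝ) - 2) ≤ 2 * (n : ℝ) ^ θ / n := by
    rw [div_le_div_iff₀ (by linarith) (by linarith)]
    have : 0 ≤ (n : ℝ) ^ θ := by positivity
    nlinarith
  have hsn : 0 < Real.sqrt n := Real.sqrt_pos.2 (by linarith)
  have hlo : 6 ≤ level n θ := by
    refine le_trans ?_ (mul_le_mul_of_nonneg_left (Real.sqrt_le_sqrt h1) (by linarith))
    rw [Real.sqrt_div zero_le_one, Real.sqrt_one, ← mul_div_assoc, mul_one, le_div_iff₀ hsn]
    have : Real.sqrt n ≤ n := by rw [Real.sqrt_le_left] <;> nlinarith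
    nlinarith
  have hhi : level n θ ≤ (n : ℝ) ^ (3/2 + θ/2) := by
    refine le_trans (mul_le_mul_of_nonneg_left (Real.sqrt_le_sqrt h2) (by linarith)) ?_
    rw [Real.sqrt_div (by positivity), Real.sqrt_mul (by norm_num : (0:ℝ) ≤ 2),
      Real.sqrt_eq_rpow ((n : ℝ) ^ θ), ← Real.rpow_mul (by linarith), show θ * (1/2) = θ / 2 by ring,
      ← mul_div_assoc, div_le_iff₀ hsn, Real.sqrt_eq_rpow (n : ℝ), ← Real.rpow_add (by linarith),
      show 3/2 + θ/2 + 1/2 = θ/2 + (2 : ℕ) by push_cast; ring, Real.rpow_add (by linarith),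
      Real.rpow_natCast]
    have : Real.sqrt 2 ≤ 2 := by rw [Real.sqrt_le_left] <;> norm_num
    have : 0 ≤ (n : ℝ) ^ (θ / 2) := by positivity
    calc (n : ℝ) * (n - 1) / 2 * (Real.sqrt 2 * (n : ℝ) ^ (θ / 2))
        ≤ (n : ℝ) * n / 2 * (2 * (n : ℝ) ^ (θ / 2)) := by gcongr; nlinarith
      _ = _ := by ring
  refine ⟨hlo, hhi, hhi.trans ?_⟩
  rw [← Real.rpow_two]
  exact Real.rpow_le_rpow_of_exponent_le (by linarith) (by linarith)

theorem atLevel_bounds (hn : 16 ≤ n) {θ : ℝ} (hθ : 0 < θ) (hθ1 : θ ≤ 1 / 10)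
    {W : Finset (Finset (Fin n))} (hW : AtLevel θ W) :
    (n : ℝ) ^ θ ≤ uexp W ∧ uexp W ≤ 4 * (n : ℝ) ^ θ ∧ (W.card : ℝ) ≤ 2 * level n θ := by
  obtain ⟨-, h1, h2⟩ := hW
  obtain ⟨h6, -, -⟩ := level_bounds hn hθ hθ1
  have h5 : (16 : ℝ) ≤ n := by exact_mod_cast hn
  have hN : 0 < (n : ℝ) * (n - 1) / 2 := by nlinarith
  have e : ((n : ℝ) - 2) * (level n θ / ((n : ℝ) * (n - 1) / 2)) ^ 2 = (n : ℝ) ^ θ := by
    rw [level, mul_div_cancel_left₀ _ hN.ne', Real.sq_sqrt (div_nonneg (by positivity) (by linarith))]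
    have : (n : ℝ) - 2 ≠ 0 := by linarith
    field_simp
  refine ⟨e ▸ ?_, ?_, by linarith⟩
  · unfold uexp dens
    gcongr
    linarith
  · rw [← e, uexp, dens, show 4 * (((n : ℝ) - 2) * (level n θ / ((n : ℝ) * (n - 1) / 2)) ^ 2)
      = ((n : ℝ) - 2) * (2 * level n θ / ((n : ℝ) * (n - 1) / 2)) ^ 2 by ring]
    gcongr <;> linarith

/-- `E / √(1 + 2u)` is the target up to `1/u` and `1/n`. -/
theorem scale_close (hn : 16 ≤ n) {W : Finset (Finset (Fin n))} (hu : 1 ≤ uexp W) :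
    |(W.card : ℝ) / Real.sqrt (1 + 2 * uexp W) - target n|
      ≤ target n * (1 / uexp W + 4 / n) := by
  have h5 : (16 : ℝ) ≤ n := by exact_mod_cast hn
  have hT : 0 ≤ target n := by rw [target]; positivity
  have hT2 := target_sq (n := n) (by linarith)
  set u := uexp W with hu_def
  set X := (W.card : ℝ) / Real.sqrt (1 + 2 * u) with hX_def
  have hX : 0 ≤ X := by positivity
  have hX2 : X ^ 2 * (1 + 2 * u)
      = u * ((n : ℝ) * (n - 1) / 2) ^ 2 / ((n : ℝ) - 2) := by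
    rw [hX_def, div_pow, Real.sq_sqrt (by linarith), div_mul_cancel₀ _ (by positivity), hu_def,
      uexp, dens]
    have : (n : ℝ) - 2 ≠ 0 := by linarith
    have : (n : ℝ) ≠ 0 := by linarith
    have : (n : ℝ) - 1 ≠ 0 := by linarith
    field_simp
  have hup : X ^ 2 ≤ (target n * (1 + 4 / n)) ^ 2 := by
    have h1 : X ^ 2 * (2 * u) ≤ u * ((n : ℝ) * (n - 1) / 2) ^ 2 / ((n : ℝ) - 2) := by
      have := sq_nonneg X
      linarith
    rw [le_div_iff₀ (by linarith)] at h1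
    have h3 : X ^ 2 * (2 * ((n : ℝ) - 2)) ≤ ((n : ℝ) * (n - 1) / 2) ^ 2 := by
      refine le_of_mul_le_mul_left ?_ (show 0 < u by linarith)
      linarith
    rw [mul_pow, hT2]
    have h4 : ((n : ℝ) * (n - 1) / 2) ^ 2
        ≤ (n : ℝ) ^ 3 / 8 * (1 + 4 / n) ^ 2 * (2 * ((n : ℝ) - 2)) := by
      have : (n : ℝ) ^ 3 / 8 * (1 + 4 / n) ^ 2 * (2 * ((n : ℝ) - 2))
          = (n : ℝ) * ((n : ℝ) + 4) ^ 2 * ((n : ℝ) - 2) / 4 := by field_simp; ring
      rw [this]
      nlinarith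
    nlinarith
  have hlow : (target n * (1 - (1 / u + 4 / n))) ^ 2 ≤ X ^ 2 ∨ 1 ≤ 1 / u + 4 / n := by
    by_cases hc : 1 ≤ 1 / u + 4 / n
    · exact .inr hc
    left
    have hu0 : 0 ≤ 1 / u := by positivity
    have hn0 : (0:ℝ) ≤ 4 / n := by positivity
    have h1 : (1 - (1 / u + 4 / n)) ^ 2 ≤ 1 - 1 / u := by nlinarith [not_le.1 hc]
    have h2 : (n : ℝ) ^ 3 / 8 ≤ ((n : ℝ) * (n - 1) / 2) ^ 2 / (2 * ((n : ℝ) - 2)) := by
      rw [le_div_iff₀ (by linarith)]
      nlinarith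
    rw [mul_pow, hT2]
    have h3 : X ^ 2 = ((n : ℝ) * (n - 1) / 2) ^ 2 / (2 * ((n : ℝ) - 2))
        * (2 * u / (1 + 2 * u)) := by
      have : (n : ℝ) - 2 ≠ 0 := by linarith
      have : 1 + 2 * u ≠ 0 := by linarith
      rw [eq_div_iff (by linarith) |>.2 hX2]
      field_simp
    have h4 : 1 - 1 / u ≤ 2 * u / (1 + 2 * u) := by
      rw [one_sub_div (by linarith), div_le_div_iff₀ (by linarith) (by linarith)]
      nlinarith
    rw [h3]
    calc (n : ℝ) ^ 3 / 8 * (1 - (1 / u + 4 / n)) ^ 2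
        ≤ (n : ℝ) ^ 3 / 8 * (2 * u / (1 + 2 * u)) :=
          mul_le_mul_of_nonneg_left (h1.trans h4) (by positivity)
      _ ≤ _ := mul_le_mul_of_nonneg_right h2 (by positivity)
  rw [abs_le]
  constructor
  · rcases hlow with h | h
    · nlinarith [pow_le_pow_left₀ (n := 2) hX (le_refl X), abs_le_of_sq_le_sq' h hX]
    · nlinarith [mul_le_mul_of_nonneg_left h hT]
  · have := (abs_le_of_sq_le_sq' hup (by positivity)).2
    have : 0 ≤ target n * (1 / u) := by positivity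
    linarith

/-- The collision error in terms of the short walks. -/
theorem coll_le {α : Type} [DecidableEq α] {L : LH α} {W : Finset α} {M C k : ℕ} {u x K X : ℝ}
    (hx : 0 < x) (hul : x ≤ u) (hK : 0 ≤ K) (hX0 : 0 ≤ X) (_hk : 1 ≤ k)
    (hlong : ∀ l, 2 * k ≤ l → ((L.closed W l).card : ℝ)
      ≤ (4 * u) ^ (l - 2 * k) * (K * u ^ (2 * k) * X)) :
    L.collErr W M u C ≤ u ^ C * (1 + 2 * u) ^ (4 * C)
      * ((∑ l ∈ Finset.Ico 2 (2 * k), ((L.closed W l).card : ℝ) / x ^ l) + K * X) := by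
  have hu : 0 < u := hx.trans_le hul
  set S : ℝ := ∑ l ∈ Finset.Ico 2 (2 * k), ((L.closed W l).card : ℝ) / x ^ l
  set P : ℝ := (1 + 2 * u) ^ (4 * C) with hP
  set a : ℝ := (C : ℝ) * Real.log (1 + 2 * u) with ha_def
  have ha : 0 ≤ a := mul_nonneg (Nat.cast_nonneg _) (Real.log_nonneg (by linarith))
  have hPe : Real.exp (4 * a) = P := by
    rw [hP, ha_def, show 4 * ((C : ℝ) * Real.log (1 + 2 * u))
      = ((4 * C : ℕ) : ℝ) * Real.log (1 + 2 * u) by push_cast; ring, Real.exp_nat_mul,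
      Real.exp_log (by linarith)]
  rw [LH.collErr, mul_assoc]
  refine mul_le_mul_of_nonneg_left ?_ (by positivity)
  rw [← ha_def, ← Finset.sum_filter_add_sum_filter_not _ (fun l => l < 2 * k), mul_add P]
  refine add_le_add ?_ ?_
  · calc ∑ l ∈ (Finset.Ico 2 (2 * M + 3)).filter (fun l => l < 2 * k),
          a ^ l / l.factorial * (((L.closed W l).card : ℝ) / u ^ l)
        ≤ ∑ l ∈ (Finset.Ico 2 (2 * M + 3)).filter (fun l => l < 2 * k),
          P * (((L.closed W l).card : ℝ) / x ^ l) := by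
          refine Finset.sum_le_sum fun l _ => ?_
          gcongr
          rw [← hPe]
          exact (Real.pow_div_factorial_le_exp a ha l).trans (Real.exp_le_exp.2 (by linarith))
      _ ≤ ∑ l ∈ Finset.Ico 2 (2 * k), P * (((L.closed W l).card : ℝ) / x ^ l) :=
          Finset.sum_le_sum_of_subset_of_nonneg (fun l hl => by
            simp only [Finset.mem_filter, Finset.mem_Ico] at hl ⊢; omega)
            fun l _ _ => by positivity
      _ = P * S := (Finset.mul_sum _ _ _).symm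
  · calc ∑ l ∈ (Finset.Ico 2 (2 * M + 3)).filter (fun l => ¬ l < 2 * k),
          a ^ l / l.factorial * (((L.closed W l).card : ℝ) / u ^ l)
        ≤ ∑ l ∈ (Finset.Ico 2 (2 * M + 3)).filter (fun l => ¬ l < 2 * k),
          K * X * ((4 * a) ^ l / l.factorial) := by
          refine Finset.sum_le_sum fun l hl => ?_
          obtain ⟨-, hl⟩ := Finset.mem_filter.1 hl
          have h := hlong l (by omega)
          have hu0 : 0 < u := by linarith
          have e : (4 * u) ^ (l - 2 * k) * (K * u ^ (2 * k) * X) ≤ 4 ^ l * u ^ l * (K * X) := by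
            calc (4 * u) ^ (l - 2 * k) * (K * u ^ (2 * k) * X)
                = 4 ^ (l - 2 * k) * (u ^ (l - 2 * k) * u ^ (2 * k)) * (K * X) := by
                  rw [mul_pow]; ring
              _ ≤ _ := by
                  rw [← pow_add, show l - 2 * k + 2 * k = l by omega]
                  gcongr
                  · norm_num
                  · omega
          calc a ^ l / l.factorial * (((L.closed W l).card : ℝ) / u ^ l)
              ≤ a ^ l / l.factorial * (4 ^ l * u ^ l * (K * X) / u ^ l) := by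
                gcongr; exact h.trans e
            _ = _ := by rw [ha_def, mul_pow, mul_pow, mul_pow]; field_simp
      _ ≤ ∑ l ∈ Finset.range (2 * M + 3), K * X * ((4 * a) ^ l / l.factorial) :=
          Finset.sum_le_sum_of_subset_of_nonneg (fun l hl => by
            simp only [Finset.mem_filter, Finset.mem_Ico, Finset.mem_range] at hl ⊢; omega)
            fun l _ _ => by positivity
      _ ≤ K * X * P := by
          rw [← Finset.mul_sum, ← hPe]
          exact mul_le_mul_of_nonneg_left (Real.sum_le_exp_of_nonneg (by positivity) _)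
            (by positivity)
      _ = P * (K * X) := mul_comm _ _

/-- The tree prediction is the target. -/
theorem pred_close {n : ℕ} (hn : 16 ≤ n) {W : Finset (Finset (Fin n))}
    {y : Finset (Fin n) → ℝ} {δ x : ℝ} (hδ : 0 < δ) (hx : 1 ≤ x) (hul : x ≤ uexp W)
    (hy : ∀ b ∈ W, |y b * Real.sqrt (1 + 2 * uexp W) - 1| ≤ min δ 1) :
    |(∑ b ∈ W, y b) - target n| ≤ target n * (2 * δ + 3 * (1 / x + 4 / n)) := by
  have hx0 : 0 < x := by linarith
  set u := uexp W with hu_def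
  set Y : ℝ := ∑ b ∈ W, y b with hY
  have hsq : 0 < Real.sqrt (1 + 2 * u) := Real.sqrt_pos.2 (by linarith)
  set R := (W.card : ℝ) / Real.sqrt (1 + 2 * u)
  have h1 : |Y - R| ≤ min δ 1 * R := by
    have e : R = ∑ _a ∈ W, 1 / Real.sqrt (1 + 2 * u) := by
      rw [Finset.sum_const, nsmul_eq_mul, ← mul_div_assoc, mul_one]
    rw [hY, e, ← Finset.sum_sub_distrib, Finset.mul_sum]
    refine (Finset.abs_sum_le_sum_abs _ _).trans (Finset.sum_le_sum fun b hb => ?_)
    have h : |(y b * Real.sqrt (1 + 2 * u) - 1)| ≤ min δ 1 := hy b hb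
    rw [← mul_div_assoc, mul_one, le_div_iff₀ hsq]
    calc |y b - 1 / Real.sqrt (1 + 2 * u)| * Real.sqrt (1 + 2 * u)
        = |(y b - 1 / Real.sqrt (1 + 2 * u)) * Real.sqrt (1 + 2 * u)| := by
          rw [abs_mul, abs_of_pos hsq]
      _ = |y b * Real.sqrt (1 + 2 * u) - 1| := by rw [sub_mul, div_mul_cancel₀ _ hsq.ne']
      _ ≤ _ := h
  have h2 := scale_close hn (W := W) (by linarith : 1 ≤ u)
  have hq : 1 / u + 4 / n ≤ 1 / x + 4 / n := by gcongr
  have hT : 0 ≤ target n := by rw [target]; positivity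
  have hR : 0 ≤ R := by positivity
  have h3 := mul_le_mul_of_nonneg_left hq hT
  have h4 := abs_sub_le Y R (target n)
  have hd : 0 ≤ min δ 1 := le_min hδ.le zero_le_one
  have h5 : min δ 1 * R ≤ δ * target n + target n * (1 / x + 4 / n) := by
    have hR' : R ≤ target n + target n * (1 / x + 4 / n) := by
      have := (abs_le.1 h2).2
      linarith
    have : 0 ≤ target n * (1 / x + 4 / n) := mul_nonneg hT (by positivity)
    calc min δ 1 * R ≤ min δ 1 * target n + min δ 1 * (target n * (1 / x + 4 / n)) := by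
          rw [← mul_add]; exact mul_le_mul_of_nonneg_left hR' hd
      _ ≤ _ := add_le_add (mul_le_mul_of_nonneg_right (min_le_left _ _) hT)
          (mul_le_of_le_one_left this (min_le_right _ _))
  have : 0 ≤ target n * (1 / x + 4 / n) := mul_nonneg hT (by positivity)
  have : 0 ≤ target n * δ := mul_nonneg hT hδ.le
  have h6 : |R - target n| ≤ target n * (1 / x + 4 / n) := h2.trans h3
  linarith

/-- The variance term. -/
theorem noise_le {E q δ x u P Z : ℝ} {C : ℕ} (hq : 0 < q) (hδ : 0 < δ) (hx : 2 ≤ x) (hu : 0 ≤ u)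
    (hE : 0 ≤ E) (hP1 : 1 ≤ P) (hZ : 0 ≤ Z) (hErat : E / q ≤ x ^ 2)
    (hpow : u ^ C * P ≤ x ^ (23 * C)) :
    1 / (2 * (2 * δ * q)) * (8 * E * (u ^ C * P * Z) + u ^ C * E)
      ≤ x ^ (23 * C + 4) / δ * (Z + 1) := by
  have hu0 : 0 ≤ u ^ C := pow_nonneg hu _
  have hx0 : 0 ≤ x := by linarith
  have h2 := le_mul_of_one_le_right hu0 hP1
  calc 1 / (2 * (2 * δ * q)) * (8 * E * (u ^ C * P * Z) + u ^ C * E)
      ≤ 1 / (2 * (2 * δ * q)) * (8 * E * (u ^ C * P * (Z + 1))) := by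
        refine mul_le_mul_of_nonneg_left ?_ (by positivity)
        have := mul_le_mul_of_nonneg_left h2 hE
        have : 0 ≤ E * (u ^ C * P) := mul_nonneg hE (hu0.trans h2)
        linarith
    _ = 2 * (E / q) * (u ^ C * P) / δ * (Z + 1) := by field_simp; ring
    _ ≤ x ^ 2 * x ^ 2 * x ^ (23 * C) / δ * (Z + 1) := by
        refine mul_le_mul_of_nonneg_right (div_le_div_of_nonneg_right ?_ hδ.le) (by linarith)
        refine mul_le_mul (mul_le_mul ?_ hErat (div_nonneg hE hq.le) (by positivity)) hpow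
          (hu0.trans h2) (by positivity)
        calc (2:ℝ) ≤ x := hx
          _ ≤ x ^ 2 := le_self_pow₀ (by linarith) (by norm_num)
    _ = _ := by ring

theorem abs_le_half {lam : ℝ} (hlam0 : 0 < lam) (V Y T : ℝ) :
    |V - T| ≤ (|Y - T| + lam / 2) + 1 / (2 * lam) * (V - Y) ^ 2 := by
  have h1 := abs_sub_le V Y T
  have h2 : |V - Y| ≤ lam / 2 + 1 / (2 * lam) * (V - Y) ^ 2 := by
    rw [← sq_abs (V - Y), ← sub_nonneg]
    have : lam / 2 + 1 / (2 * lam) * |V - Y| ^ 2 - |V - Y|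
        = 1 / (2 * lam) * (|V - Y| - lam) ^ 2 := by field_simp; ring
    rw [this]; positivity
  linarith

theorem tie_le {n T M : ℝ} (h16 : 16 ≤ n) (hMr : M = n ^ 20) (hT : 0 ≤ T) (hT3 : T ≤ n ^ 3) :
    2 * (2 * n ^ 2) * (T ^ 2 / M) ≤ 1 := by
  rw [hMr, ← mul_div_assoc, div_le_one (by positivity)]
  calc 2 * (2 * n ^ 2) * T ^ 2 ≤ 2 * (2 * n ^ 2) * (n ^ 3) ^ 2 := by gcongr
    _ = 4 * n ^ 8 := by ring
    _ ≤ n ^ 12 * n ^ 8 := by
        refine mul_le_mul_of_nonneg_right (le_trans ?_ (le_self_pow₀ (by linarith) (by norm_num)))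
          (by positivity)
        linarith
    _ = _ := by ring

theorem pow_le {u x : ℝ} {C : ℕ} (h2x : 2 ≤ x) (hu : 0 ≤ u) (huu : u ≤ 4 * x) :
    u ^ C * (1 + 2 * u) ^ (4 * C) ≤ x ^ (23 * C) := by
  have h1 : u ≤ x ^ 3 := by
    refine huu.trans ?_
    calc 4 * x ≤ x * x * x := mul_le_mul_of_nonneg_right (by nlinarith) (by linarith)
      _ = _ := by ring
  have h2 : 1 + 2 * u ≤ x ^ 5 := by
    have : (16 : ℝ) ≤ x ^ 4 := by
      calc (16 : ℝ) = 2 ^ 4 := by norm_num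
        _ ≤ _ := pow_le_pow_left₀ (by norm_num) h2x 4
    calc 1 + 2 * u ≤ 16 * x := by linarith
      _ ≤ x ^ 4 * x := mul_le_mul_of_nonneg_right this (by linarith)
      _ = _ := by ring
  calc u ^ C * (1 + 2 * u) ^ (4 * C) ≤ (x ^ 3) ^ C * (x ^ 5) ^ (4 * C) := by
        refine mul_le_mul (pow_le_pow_left₀ (by linarith) h1 C)
          (pow_le_pow_left₀ (by linarith) h2 _) ?_ (by positivity)
        exact pow_nonneg (by linarith) _
    _ = _ := by rw [← pow_mul, ← pow_mul, ← pow_add]; congr 1; ring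

theorem erat_le {n : ℕ} {θ E x : ℝ} (h16 : 16 ≤ (n : ℝ)) (hθ : 0 < θ) (hx : 2 ≤ (n : ℝ) ^ θ)
    (hcard : E ≤ 2 * level n θ) (hlev : level n θ ≤ (n : ℝ) ^ (3/2 + θ/2))
    (hx_def : x = (n : ℝ) ^ θ) :
    E / (n : ℝ) ^ (3/2 : ℝ) ≤ x ^ 2 := by
  have hn32 : 0 < (n : ℝ) ^ (3/2 : ℝ) := by positivity
  subst hx_def
  rw [div_le_iff₀ hn32]
  refine hcard.trans ?_
  have : (n : ℝ) ^ (3/2 + θ/2) ≤ (n : ℝ) ^ (3/2 + θ) :=
    Real.rpow_le_rpow_of_exponent_le (by linarith) (by linarith)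
  rw [Real.rpow_add (by linarith) (3/2 : ℝ) θ] at this
  calc 2 * level n θ ≤ 2 * ((n : ℝ) ^ (3/2 : ℝ) * (n : ℝ) ^ θ) := by linarith
    _ ≤ (n : ℝ) ^ θ * ((n : ℝ) ^ (3/2 : ℝ) * (n : ℝ) ^ θ) :=
        mul_le_mul_of_nonneg_right hx (mul_nonneg hn32.le (by linarith))
    _ = _ := by ring

theorem dev_target_le {n : ℕ} (h16 : 16 ≤ (n : ℝ)) {V : Finset (Finset (Fin n))}
    (hV : V ⊆ allPairs n) : |(V.card : ℝ) - target n| ≤ 2 * (n : ℝ) ^ 2 := by
  have h1 : (V.card : ℝ) ≤ (n : ℝ) ^ 2 :=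
    le_trans (by exact_mod_cast Finset.card_le_card hV) (card_allPairs_le n)
  have h2 : target n ≤ (n : ℝ) ^ 2 := by
    rw [target]
    refine (div_le_self (by positivity) ?_).trans ?_
    · have : 1 ≤ Real.sqrt 2 := Real.one_le_sqrt.2 (by norm_num)
      linarith
    · rw [← Real.rpow_two]
      exact Real.rpow_le_rpow_of_exponent_le (by linarith) (by norm_num)
  have hT : 0 ≤ target n := by rw [target]; positivity
  have : (0 : ℝ) ≤ V.card := Nat.cast_nonneg _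
  rw [abs_le]; constructor <;> linarith

/-- The bound at the hand-over state. -/
theorem at_level (hC : LH.CouplingStmt) (hO : LH.OrderStmt) :
    ∃ C : ℕ, ∀ (n : ℕ) (θ δ : ℝ) (m k : ℕ) (K : ℝ), 16 ≤ n → 0 < θ → θ ≤ 1 / 10 → 1 ≤ k →
      0 < δ → 0 ≤ K →
      ∀ W : Finset (Finset (Fin n)), AtLevel θ W → Reg θ m W → eta n θ ≤ 1 → 2 ≤ (n : ℝ) ^ θ →
      (∀ a ∈ W, ∀ s : Finset (Finset (Fin n)),
        (∀ j, j ≤ slots n → (kn n).surv W (slots n) j s a
          ≤ 2 / Real.sqrt (1 + 2 * uexp W * j / slots n)) ∧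
        |(kn n).surv W (slots n) (slots n) s a * Real.sqrt (1 + 2 * uexp W) - 1| ≤ min δ 1) →
      (∀ l, 2 * k ≤ l → (((kn n).closed W l).card : ℝ) ≤ (4 * uexp W) ^ (l - 2 * k)
        * (K * uexp W ^ (2 * k) * ((W.card : ℝ) * rho n θ ^ (2 * k) + n))) →
      (kn n).ex (fun V => |(V.card : ℝ) - target n|) W
        ≤ target n * (2 * δ + 3 * (1 / (n : ℝ) ^ θ + 4 / n)) + δ * (n : ℝ) ^ (3/2 : ℝ) + 1
          + ((n : ℝ) ^ θ) ^ C / δ * ((∑ l ∈ Finset.Ico 2 (2 * k),
                (((kn n).closed W l).card : ℝ) / ((n : ℝ) ^ θ) ^ l)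
              + K * ((W.card : ℝ) * rho n θ ^ (2 * k) + n) + 1) := by
  obtain ⟨C, hC⟩ := hC
  refine ⟨23 * C + 4, fun n θ δ m k K hn hθ hθ1 hk hδ hK W hW hReg hη hx hrec hlong => ?_⟩
  obtain ⟨hul, huu, hcard⟩ := atLevel_bounds hn hθ hθ1 hW
  obtain ⟨h6, hlev, hlev2⟩ := level_bounds hn hθ hθ1
  have h16 : (16 : ℝ) ≤ n := by exact_mod_cast hn
  set x := (n : ℝ) ^ θ with hx_def
  set u := uexp W with hu_def
  set M := slots n with hM_def
  have hM : 0 < M := by
    rw [hM_def, slots]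
    exact pow_pos (by omega) 20
  have hMr : (M : ℝ) = (n : ℝ) ^ 20 := by rw [hM_def, slots, Nat.cast_pow]
  have hxn : x ≤ n := by
    rw [hx_def]
    exact (Real.rpow_le_rpow_of_exponent_le (by linarith) (by linarith)).trans_eq (Real.rpow_one _)
  have hu3 : u ^ 3 ≤ M := by
    rw [hMr]
    calc u ^ 3 ≤ (4 * (n : ℝ)) ^ 3 := pow_le_pow_left₀ (by linarith) (huu.trans (by linarith)) 3
      _ ≤ (n : ℝ) ^ 6 := by
        have : (64 : ℝ) ≤ (n : ℝ) ^ 3 := by
          calc (64 : ℝ) ≤ 16 ^ 3 := by norm_num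
            _ ≤ _ := pow_le_pow_left₀ (by norm_num) h16 3
        nlinarith [pow_nonneg (by linarith : (0:ℝ) ≤ n) 3]
      _ ≤ _ := pow_le_pow_right₀ (by linarith) (by norm_num)
  have hsq : 0 < Real.sqrt (1 + 2 * u) := Real.sqrt_pos.2 (by linarith)
  set y : Finset (Fin n) → ℝ := fun a => (kn n).surv W M M ∅ a with hy_def
  have hy : ∀ a ∈ W, 0 ≤ y a ∧ y a ≤ 2 := by
    intro a ha
    obtain ⟨h1, h2⟩ := hrec a ha ∅
    constructor
    · have h := (abs_le.1 (h2.trans (min_le_right _ _))).1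
      refine nonneg_of_mul_nonneg_left ?_ hsq
      show 0 ≤ (kn n).surv W M M ∅ a * Real.sqrt (1 + 2 * u)
      linarith
    · refine (h1 M le_rfl).trans (div_le_self (by norm_num) ?_)
      refine Real.one_le_sqrt.2 (le_add_of_nonneg_right ?_)
      have : 0 ≤ u := by linarith
      positivity
  obtain ⟨hc1, hc2⟩ := hC _ (kn n) W M u (by linarith) hu3
    (fun a ha => deg_le_two hW.1 hReg hη (by linarith) ha) (fun a ha s j hj => (hrec a ha s).1 j hj)
  -- the collision error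
  set S : ℝ := ∑ l ∈ Finset.Ico 2 (2 * k), (((kn n).closed W l).card : ℝ) / x ^ l with hS
  set X : ℝ := (W.card : ℝ) * rho n θ ^ (2 * k) + n with hX
  have hX0 : 0 ≤ X := by
    rw [hX, rho]; positivity
  have hS0 : 0 ≤ S := Finset.sum_nonneg fun l _ => by positivity
  set P : ℝ := (1 + 2 * u) ^ (4 * C) with hP
  have hcoll : (kn n).collErr W M u C ≤ u ^ C * P * (S + K * X) :=
    coll_le (L := kn n) (by linarith) hul hK hX0 hk hlong
  have hSM := LH.second_moment (L := kn n) hM hy hc1 hc2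
  -- absolute deviation
  set Y : ℝ := ∑ a ∈ W, y a with hY
  set lam : ℝ := 2 * δ * (n : ℝ) ^ (3/2 : ℝ) with hlam
  have hn32 : 0 < (n : ℝ) ^ (3/2 : ℝ) := by positivity
  have hlam0 : 0 < lam := by rw [hlam]; positivity
  have hpt : ∀ τ, |(((kn n).leftover W M τ).card : ℝ) - target n|
      ≤ (|Y - target n| + lam / 2)
        + 1 / (2 * lam) * ((((kn n).leftover W M τ).card : ℝ) - Y) ^ 2 := fun τ =>
    abs_le_half hlam0 _ Y _
  have hslot : (kn n).slotE W M (fun τ => |(((kn n).leftover W M τ).card : ℝ) - target n|)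
      ≤ (|Y - target n| + lam / 2)
        + 1 / (2 * lam) * (8 * (W.card : ℝ) * (u ^ C * P * (S + K * X)) + u ^ C * W.card) := by
    refine (LH.slotE_mono hpt).trans ?_
    rw [LH.slotE_add, LH.slotE_const hM, LH.slotE_mul]
    refine add_le_add le_rfl (mul_le_mul_of_nonneg_left (hSM.trans ?_) (by positivity))
    have := mul_le_mul_of_nonneg_left hcoll (by positivity : (0:ℝ) ≤ 8 * W.card)
    linarith
  -- the prediction
  have hYt : |Y - target n| ≤ target n * (2 * δ + 3 * (1 / x + 4 / n)) :=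
    pred_close hn hδ (by linarith) hul fun b hb => (hrec b hb ∅).2
  -- ties
  have hB : ∀ V, V ⊆ W → |(V.card : ℝ) - target n| ≤ 2 * (n : ℝ) ^ 2 := fun V hV =>
    dev_target_le h16 (hV.trans hW.1)
  have htie := (abs_le.1 (hO _ (kn n) W M (fun V => |(V.card : ℝ) - target n|) (2 * (n : ℝ) ^ 2)
    hM (fun V hV => by rw [abs_abs]; exact hB V hV))).2
  have htie' : 2 * (2 * (n : ℝ) ^ 2) * ((((kn n).tris W).card : ℝ) ^ 2 / M) ≤ 1 :=
    tie_le h16 hMr (Nat.cast_nonneg _) (tris_card_le W)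
  -- the powers of `x`
  have hpow : u ^ C * P ≤ x ^ (23 * C) := pow_le hx (by linarith) huu
  have hErat : (W.card : ℝ) / (n : ℝ) ^ (3/2 : ℝ) ≤ x ^ 2 :=
    erat_le h16 hθ hx hcard hlev hx_def
  have hP1 : 1 ≤ P := one_le_pow₀ (by linarith)
  have hmid : 1 / (2 * lam) * (8 * (W.card : ℝ) * (u ^ C * P * (S + K * X)) + u ^ C * W.card)
      ≤ x ^ (23 * C + 4) / δ * (S + K * X + 1) :=
    noise_le hn32 hδ hx (by linarith : (0:ℝ) ≤ u) (Nat.cast_nonneg _) hP1
      (add_nonneg hS0 (mul_nonneg hK hX0)) hErat hpow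
  have hlam' : lam / 2 = δ * (n : ℝ) ^ (3/2 : ℝ) := by rw [hlam]; ring
  calc (kn n).ex (fun V => |(V.card : ℝ) - target n|) W
      ≤ (kn n).slotE W M (fun τ => |(((kn n).leftover W M τ).card : ℝ) - target n|)
        + 2 * (2 * (n : ℝ) ^ 2) * ((((kn n).tris W).card : ℝ) ^ 2 / M) :=
        sub_le_iff_le_add'.1 htie
    _ ≤ (|Y - target n| + lam / 2)
        + 1 / (2 * lam) * (8 * (W.card : ℝ) * (u ^ C * P * (S + K * X)) + u ^ C * W.card) + 1 :=
        add_le_add hslot htie'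
    _ ≤ _ := by
        rw [hlam']
        have := add_le_add (add_le_add_right hYt (δ * (n : ℝ) ^ (3/2 : ℝ))) hmid
        linarith

theorem avg_affine (W : Finset (Finset (Fin n))) (a b : ℝ) {ι : Type} (I : Finset ι) (w : ι → ℝ)
    (H : Finset (Finset (Fin n)) → ℝ) (Φ : ι → Finset (Finset (Fin n)) → ℝ)
    (hW : (kn n).tris W ≠ ∅) :
    (kn n).avg (fun V => a + b * H V + ∑ l ∈ I, w l * Φ l V) W
      = a + b * (kn n).avg H W + ∑ l ∈ I, w l * (kn n).avg (Φ l) W := by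
  have := LH.card_pos hW
  simp only [LH.avg, Finset.sum_add_distrib, Finset.sum_const, nsmul_eq_mul]
  rw [Finset.sum_comm (s := (kn n).tris W) (t := I)]
  simp only [← Finset.mul_sum]
  rw [add_div, add_div, mul_div_cancel_left₀ _ this.ne', mul_div_assoc]
  congr 1
  rw [Finset.sum_div]
  exact Finset.sum_congr rfl fun l _ => mul_div_assoc _ _ _

theorem rpow_le_scale {n : ℕ} (hn : 1 ≤ (n : ℝ)) {e θ : ℝ} (h : e ≤ 3/2 - θ) :
    (n : ℝ) ^ e ≤ (n : ℝ) ^ (3/2 : ℝ) * (n : ℝ) ^ (-θ) := by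
  rw [← Real.rpow_add (by linarith)]
  exact Real.rpow_le_rpow_of_exponent_le hn (by linarith)

/-- The value of the comparison function at the complete graph. -/
theorem start_le {n : ℕ} (hn : 16 ≤ n) {θ δ K : ℝ} {C k : ℕ} {I : Finset ℕ} {Cl : ℕ → ℝ}
    {H : Finset (Finset (Fin n)) → ℝ} {Φ : ℕ → Finset (Finset (Fin n)) → ℝ}
    (hθ : 0 < θ) (hθ1 : θ ≤ 1 / 10) (hδ : 0 < δ) (hK : 0 ≤ K)
    (hCθ : ((C : ℝ) + 2) * θ = 1 / 8) (hk_def : k = 4 * (C + 2))
    (hlev : level n θ ≤ (n : ℝ) ^ (3/2 + θ/2)) (hlev0 : 0 ≤ level n θ)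
    (hHinit : H (allPairs n) ≤ 1 / (n : ℝ) ^ 2)
    (hΦinit : ∀ l ∈ I, Φ l (allPairs n)
      ≤ Cl l * level n θ * ((n : ℝ) ^ θ) ^ l * (n : ℝ) ^ (-(1 / 2 : ℝ) + θ))
    (hrho : rho n θ ^ (2 * k) = (n : ℝ) ^ (-(k * θ / 4) : ℝ))
    (hev1 : (3 + 15 + (1 / δ) * ((∑ l ∈ I, |Cl l|) + K * 2 + K + 1)) * (n : ℝ) ^ (-θ) ≤ δ) :
    (target n * (2 * δ + 3 * (1 / (n : ℝ) ^ θ + 4 / n)) + δ * (n : ℝ) ^ (3/2 : ℝ) + 1
        + ((n : ℝ) ^ θ) ^ C / δ * (K * (2 * level n θ * rho n θ ^ (2 * k) + n) + 1))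
      + 2 * (n : ℝ) ^ 2 * H (allPairs n)
      + ∑ l ∈ I, ((n : ℝ) ^ θ) ^ C / δ / ((n : ℝ) ^ θ) ^ l * Φ l (allPairs n)
      ≤ 4 * δ * (n : ℝ) ^ (3/2 : ℝ) := by
  have h16 : (16 : ℝ) ≤ n := by exact_mod_cast hn
  set K₀ : ℝ := 3 + 15 + (1 / δ) * ((∑ l ∈ I, |Cl l|) + K * 2 + K + 1) with hK₀
  have hT0 : 0 ≤ target n := by rw [target]; positivity
  set x := (n : ℝ) ^ θ with hx_def
  set q := (n : ℝ) ^ (3/2 : ℝ) with hq
  set e := (n : ℝ) ^ (-θ) with he
  have hq0 : 0 < q := by positivity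
  have hqe : 1 ≤ q * e := by
    rw [hq, he, ← Real.rpow_add (by linarith)]
    exact Real.one_le_rpow (by linarith) (by linarith)
  have hTq : target n ≤ q := by
    rw [target]
    refine div_le_self hq0.le ?_
    have : 1 ≤ Real.sqrt 2 := Real.one_le_sqrt.2 (by norm_num)
    linarith
  have hxe : 1 / x = e := by rw [hx_def, he, Real.rpow_neg (by linarith), one_div]
  have hne' : 4 / (n : ℝ) ≤ 4 * e := by
    rw [he, div_eq_mul_inv, ← Real.rpow_neg_one]
    gcongr <;> linarith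
  have hxC : x ^ C = (n : ℝ) ^ ((C : ℝ) * θ) := by
    rw [hx_def, ← Real.rpow_natCast, ← Real.rpow_mul (by linarith), mul_comm]
  have hC0 : 0 ≤ x ^ C := by positivity
  have h1n : (1 : ℝ) ≤ n := by linarith
  have tA : x ^ C ≤ q * e := by
    rw [hxC]; exact rpow_le_scale h1n (by nlinarith)
  have tB : x ^ C * n ≤ q * e := by
    rw [hxC, ← Real.rpow_add_one (by linarith)]
    exact rpow_le_scale h1n (by nlinarith)
  have tC : x ^ C * (2 * level n θ * rho n θ ^ (2 * k)) ≤ 2 * (q * e) := by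
    rw [hrho, hxC]
    calc (n : ℝ) ^ ((C : ℝ) * θ) * (2 * level n θ * (n : ℝ) ^ (-(k * θ / 4) : ℝ))
        ≤ (n : ℝ) ^ ((C : ℝ) * θ) * (2 * (n : ℝ) ^ (3/2 + θ/2) * (n : ℝ) ^ (-(k * θ / 4) : ℝ)) := by
          gcongr
      _ = 2 * (n : ℝ) ^ ((C : ℝ) * θ + (3/2 + θ/2) + -(k * θ / 4)) := by
          rw [Real.rpow_add (by linarith) _ (-(k * θ / 4) : ℝ), Real.rpow_add (by linarith) ((C : ℝ) * θ)]
          ring
      _ ≤ _ := by
          refine mul_le_mul_of_nonneg_left (rpow_le_scale h1n ?_) (by norm_num)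
          rw [hk_def]; push_cast; linarith
  have tD : ∀ l ∈ I, x ^ C / δ / x ^ l * Φ l (allPairs n) ≤ |Cl l| / δ * (q * e) := by
    intro l hl
    have hxl : 0 < x ^ l := by positivity
    refine (mul_le_mul_of_nonneg_left (hΦinit l hl) (by positivity)).trans ?_
    calc x ^ C / δ / x ^ l * (Cl l * level n θ * x ^ l * (n : ℝ) ^ (-(1 / 2 : ℝ) + θ))
        = Cl l / δ * (x ^ C * level n θ * (n : ℝ) ^ (-(1 / 2 : ℝ) + θ)) := by field_simp
      _ ≤ |Cl l| / δ * (x ^ C * level n θ * (n : ℝ) ^ (-(1 / 2 : ℝ) + θ)) := by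
          have : 0 ≤ x ^ C * level n θ * (n : ℝ) ^ (-(1 / 2 : ℝ) + θ) := by positivity
          gcongr
          exact le_abs_self _
      _ ≤ |Cl l| / δ * (q * e) := by
          refine mul_le_mul_of_nonneg_left ?_ (by positivity)
          rw [hxC]
          calc (n : ℝ) ^ ((C : ℝ) * θ) * level n θ * (n : ℝ) ^ (-(1 / 2 : ℝ) + θ)
              ≤ (n : ℝ) ^ ((C : ℝ) * θ) * (n : ℝ) ^ (3/2 + θ/2)
                * (n : ℝ) ^ (-(1 / 2 : ℝ) + θ) := by gcongr
            _ ≤ _ := by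
                rw [← Real.rpow_add (by linarith), ← Real.rpow_add (by linarith)]
                exact rpow_le_scale h1n (by nlinarith)
  have hsum : ∑ l ∈ I, x ^ C / δ / x ^ l * Φ l (allPairs n)
      ≤ 1 / δ * (∑ l ∈ I, |Cl l|) * (q * e) := by
    refine (Finset.sum_le_sum tD).trans (le_of_eq ?_)
    rw [← Finset.sum_mul, ← Finset.sum_div]; ring
  have hH2 : 2 * (n : ℝ) ^ 2 * H (allPairs n) ≤ 2 := by
    refine (mul_le_mul_of_nonneg_left hHinit (by positivity)).trans (le_of_eq ?_)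
    field_simp
  have hlong : x ^ C / δ * (K * (2 * level n θ * rho n θ ^ (2 * k) + n) + 1)
      ≤ 1 / δ * (K * 2 + K + 1) * (q * e) := by
    rw [div_mul_eq_mul_div, div_le_iff₀ hδ]
    have e1 : 1 / δ * (K * 2 + K + 1) * (q * e) * δ = (K * 2 + K + 1) * (q * e) := by field_simp
    rw [e1]
    have := mul_le_mul_of_nonneg_left tC hK
    have := mul_le_mul_of_nonneg_left tB hK
    linarith
  have hpred : target n * (2 * δ + 3 * (1 / x + 4 / n)) ≤ 2 * δ * q + 15 * (q * e) := by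
    rw [hxe]
    refine (mul_le_mul_of_nonneg_right hTq (by positivity)).trans ?_
    have := mul_le_mul_of_nonneg_left hne' (by positivity : 0 ≤ 3 * q)
    linarith
  have hfin : K₀ * (q * e) ≤ δ * q := by
    have := mul_le_mul_of_nonneg_right hev1 hq0.le
    linarith
  rw [hK₀] at hfin
  linarith

/-- The six modules give the asymptotics in mean. -/
theorem main_abs (hI : RegularityStmt) (hS : ShortStmt) (hL : LongStmt) (hR : RecursionStmt)
    (hC : LH.CouplingStmt) (hO : LH.OrderStmt) (δ₀ : ℝ) (hδ₀ : 0 < δ₀) :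
    ∀ᶠ n : ℕ in atTop, (kn n).ex (fun V => |(V.card : ℝ) - target n|) (allPairs n)
      ≤ δ₀ * (n : ℝ) ^ (3/2 : ℝ) := by
  obtain ⟨C, hAt⟩ := at_level hC hO
  set δ := δ₀ / 8 with hδ_def
  have hδ : 0 < δ := by positivity
  set θ : ℝ := 1 / (8 * ((C : ℝ) + 2)) with hθ_def
  have hθ : 0 < θ := by positivity
  have hCθ : ((C : ℝ) + 2) * θ = 1 / 8 := by rw [hθ_def]; field_simp
  have hθ1 : θ ≤ 1 / 10 := by
    rw [hθ_def]; gcongr
    have : (0 : ℝ) ≤ C := Nat.cast_nonneg _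
    linarith
  set k := 4 * (C + 2) with hk_def
  obtain ⟨m, hm, hI⟩ := hI θ hθ hθ1 2
  obtain ⟨K₁, hL⟩ := hL θ hθ hθ1 m k hm (by omega)
  have hR := hR θ hθ hθ1 m hm (min δ 1) (lt_min hδ one_pos)
  have hS' : ∀ l : ℕ, ∃ C : ℝ, 2 ≤ l → ∀ᶠ n : ℕ in atTop,
      ∃ Φ : Finset (Finset (Fin n)) → ℝ,
        (∀ W, W ⊆ allPairs n → 0 ≤ Φ W) ∧
        Φ (allPairs n) ≤ C * level n θ * ((n : ℝ) ^ θ) ^ l * (n : ℝ) ^ (-(1 / 2 : ℝ) + θ) ∧
        (∀ W, AtLevel θ W → Reg θ m W → (((kn n).closed W l).card : ℝ) ≤ Φ W) ∧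
        ∀ W, W ⊆ allPairs n → level n θ + 3 ≤ W.card → Reg θ m W → (kn n).avg Φ W ≤ Φ W := by
    intro l
    by_cases h : 2 ≤ l
    · obtain ⟨C', h'⟩ := hS θ hθ hθ1 l h m hm
      exact ⟨C', fun _ => h'⟩
    · exact ⟨0, fun h' => absurd h' h⟩
  choose Cl hCl using hS'
  set I := Finset.Ico 2 (2 * k) with hI_def
  have hS : ∀ᶠ n : ℕ in atTop, ∀ l ∈ I, _ :=
    (Filter.eventually_all_finset I).2 fun l hl => hCl l (Finset.mem_Ico.1 hl).1
  set K := max K₁ 0 with hK_def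
  have hK : 0 ≤ K := le_max_right _ _
  set K₀ : ℝ := 3 + 15 + (1 / δ) * ((∑ l ∈ I, |Cl l|) + K * 2 + K + 1) with hK₀
  have hev : ∀ᶠ n : ℕ in atTop, K₀ * (n : ℝ) ^ (-θ) ≤ δ ∧ 2 ≤ (n : ℝ) ^ θ := by
    refine (((tendsto_rpow_neg_atTop hθ).comp tendsto_natCast_atTop_atTop).const_mul K₀
      |>.eventually_le_const (by simpa using hδ)).and ?_
    exact ((tendsto_rpow_atTop hθ).comp tendsto_natCast_atTop_atTop).eventually_ge_atTop 2
  filter_upwards [hI, hL, hR, hS, hev, eventually_ge_atTop 16] with n hI hL hR hS hev hn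
  obtain ⟨hev1, hx⟩ := hev
  obtain ⟨H, hH0, hHinit, hHbad, hHstep⟩ := hI
  choose! Φ hΦ0 hΦinit hΦlev hΦstep using hS
  have h16 : (16 : ℝ) ≤ n := by exact_mod_cast hn
  obtain ⟨h6, hlev, -⟩ := level_bounds hn hθ hθ1
  have hrho : rho n θ ^ (2 * k) = (n : ℝ) ^ (-(k * θ / 4) : ℝ) := by
    rw [rho, ← Real.rpow_natCast, ← Real.rpow_mul (by linarith)]
    congr 1; push_cast; ring
  set x := (n : ℝ) ^ θ with hx_def
  set a : ℝ := target n * (2 * δ + 3 * (1 / x + 4 / n)) + δ * (n : ℝ) ^ (3/2 : ℝ) + 1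
    + x ^ C / δ * (K * (2 * level n θ * rho n θ ^ (2 * k) + n) + 1) with ha
  have hT0 : 0 ≤ target n := by rw [target]; positivity
  have hrho0 : 0 ≤ rho n θ ^ (2 * k) := by rw [hrho]; positivity
  have ha0 : 0 ≤ a := by rw [ha]; positivity
  let Ψ : Finset (Finset (Fin n)) → ℝ := fun V =>
    a + 2 * (n : ℝ) ^ 2 * H V + ∑ l ∈ I, x ^ C / δ / x ^ l * Φ l V
  have hΨsum : ∀ W, W ⊆ allPairs n → 0 ≤ ∑ l ∈ I, x ^ C / δ / x ^ l * Φ l W := fun W hW =>
    Finset.sum_nonneg fun l hl => mul_nonneg (by positivity) (hΦ0 l hl W hW)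
  have hstart : level n θ ≤ ((allPairs n).card : ℝ) := by
    rw [allPairs, Finset.card_powersetCard, Finset.card_univ, Fintype.card_fin, Nat.cast_choose_two,
      level]
    refine mul_le_of_le_one_right (by nlinarith) (Real.sqrt_le_one.2 ?_)
    rw [div_le_one (by linarith)]
    calc (n : ℝ) ^ θ ≤ (n : ℝ) ^ (1/2 : ℝ) :=
          Real.rpow_le_rpow_of_exponent_le (by linarith) (by linarith)
      _ ≤ (n : ℝ) - 2 := by
          rw [← Real.sqrt_eq_rpow, Real.sqrt_le_left (by linarith)]; nlinarith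
  refine le_trans (LH.ex_le_stop (Φ := Ψ) (R := fun W => level n θ ≤ (W.card : ℝ)) hstart
    fun W hW hRW => ?_) ?_
  · by_cases hReg : Reg θ m W
    · rcases lt_or_ge (W.card : ℝ) (level n θ + 3) with hlt | hge
      · left
        have hAtW : AtLevel θ W := ⟨hW, hRW, hlt⟩
        have hη : eta n θ ≤ 1 := Real.rpow_le_one_of_one_le_of_nonpos (by linarith) (by linarith)
        obtain ⟨hul, -, hcard⟩ := atLevel_bounds hn hθ hθ1 hAtW
        have hu0 : 0 ≤ uexp W := le_trans (by positivity) hul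
        refine (hAt n θ δ m k K hn hθ hθ1 (by omega) hδ hK W hAtW hReg hη hx
          (fun b hb t => hR W hAtW hReg b hb t) (fun l hl => ?_)).trans ?_
        · refine (hL W hAtW hReg l hl).trans (mul_le_mul_of_nonneg_left ?_ (by positivity))
          have : K₁ ≤ K := le_max_left _ _
          gcongr
        · have hH := mul_nonneg (by positivity : 0 ≤ 2 * (n : ℝ) ^ 2) (hH0 W hW)
          have h1 : ∑ l ∈ I, x ^ C / δ / x ^ l * (((kn n).closed W l).card : ℝ)
              ≤ ∑ l ∈ I, x ^ C / δ / x ^ l * Φ l W :=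
            Finset.sum_le_sum fun l hl =>
              mul_le_mul_of_nonneg_left (hΦlev l hl W hAtW hReg) (by positivity)
          have h2 : x ^ C / δ * ((∑ l ∈ I, (((kn n).closed W l).card : ℝ) / x ^ l)
              + K * ((W.card : ℝ) * rho n θ ^ (2 * k) + n) + 1)
              ≤ (∑ l ∈ I, x ^ C / δ / x ^ l * (((kn n).closed W l).card : ℝ))
                + x ^ C / δ * (K * (2 * level n θ * rho n θ ^ (2 * k) + n) + 1) := by
            rw [add_assoc (∑ l ∈ I, (((kn n).closed W l).card : ℝ) / x ^ l), mul_add, Finset.mul_sum]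
            refine add_le_add (le_of_eq (Finset.sum_congr rfl fun l _ => by ring)) ?_
            gcongr
          simp only [Ψ, ha]
          linarith
      · right
        obtain ⟨hne, hstep⟩ := hHstep W hW hge hReg
        refine ⟨hne, fun t ht => ?_, ?_⟩
        · have := LH.card_sdiff_tri ht
          have : ((W \ t).card : ℝ) + 3 = W.card := by exact_mod_cast this
          linarith
        · rw [avg_affine W a _ I (fun l => x ^ C / δ / x ^ l) H Φ hne]
          refine add_le_add (add_le_add le_rfl (mul_le_mul_of_nonneg_left hstep (by positivity))) ?_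
          exact Finset.sum_le_sum fun l hl =>
            mul_le_mul_of_nonneg_left (hΦstep l hl W hW hge hReg) (by positivity)
    · left
      refine le_trans (LH.ex_mono (g := fun _ => 2 * (n : ℝ) ^ 2) fun V hV =>
        dev_target_le h16 (hV.trans hW)) ?_
      rw [LH.ex_const]
      have h1 := mul_le_mul_of_nonneg_left (hHbad W hW hRW hReg) (by positivity : 0 ≤ 2 * (n : ℝ) ^ 2)
      have := hΨsum W hW
      simp only [Ψ]
      linarith
  -- the start
  refine start_le hn hθ hθ1 hδ hK hCθ hk_def hlev (by linarith) hHinit hΦinit hrho hev1 |>.trans ?_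
  rw [hδ_def]
  linarith [mul_nonneg hδ₀.le (Real.rpow_nonneg (by linarith : (0:ℝ) ≤ n) (3/2))]

end Full

end P046
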