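import Mathlib

/-!
P046, part I: inequalities for even moments.
-/

namespace P046.Full

open Finset

/-- Weighted arithmetic-geometric mean, integer exponents. -/
theorem amgm_pow {a b : ℝ} (ha : 0 ≤ a) (hb : 0 ≤ b) (m : ℕ) :
    ((m : ℝ) + 1) * (a ^ m * b) ≤ m * a ^ (m + 1) + b ^ (m + 1) := by
  induction m with
  | zero => simp
  | succ m ih =>
    have h1 : a ^ (m + 1) * b + a * b ^ (m + 1) ≤ a ^ (m + 2) + b ^ (m + 2) := by
      rcases le_total a b with h | h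
      · have := mul_nonneg (sub_nonneg.2 (pow_le_pow_left₀ ha h (m + 1))) (sub_nonneg.2 h)
        linear_combination this
      · have := mul_nonneg (sub_nonneg.2 (pow_le_pow_left₀ hb h (m + 1))) (sub_nonneg.2 h)
        linear_combination this
    have h2 := mul_le_mul_of_nonneg_left ih ha
    push_cast
    linear_combination h1 + h2

/-- Young's inequality with a weight. -/
theorem young {a b lam : ℝ} (ha : 0 ≤ a) (hb : 0 ≤ b) (hl : 0 < lam) (m : ℕ) :
    a ^ m * b ≤ lam * a ^ (m + 1) + b ^ (m + 1) / lam ^ m := by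
  have h := amgm_pow ha (div_nonneg hb hl.le : 0 ≤ b / lam) m
  have h1 : a ^ m * (b / lam) ≤ a ^ (m + 1) + (b / lam) ^ (m + 1) := by
    have hx : 0 ≤ a ^ (m + 1) := by positivity
    have hy : 0 ≤ (b / lam) ^ (m + 1) := by positivity
    have hm : (0 : ℝ) ≤ m := Nat.cast_nonneg m
    nlinarith [h, mul_nonneg hm hy, hx]
  calc a ^ m * b = lam * (a ^ m * (b / lam)) := by field_simp
    _ ≤ lam * (a ^ (m + 1) + (b / lam) ^ (m + 1)) := mul_le_mul_of_nonneg_left h1 hl.le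
    _ = lam * a ^ (m + 1) + b ^ (m + 1) / lam ^ m := by
        rw [div_pow, pow_succ lam m]; field_simp

/-- The second order expansion of an even power. -/
theorem pow_add_le (d δ : ℝ) {k : ℕ} (hk : 1 ≤ k) :
    (d + δ) ^ (2 * k) ≤ d ^ (2 * k) + 2 * k * d ^ (2 * k - 1) * δ
      + 2 * k * (2 * k) * δ ^ 2 * (|d| + |δ|) ^ (2 * k - 2) := by
  obtain ⟨j, hj⟩ : ∃ j, 2 * k = j + 2 := ⟨2 * k - 2, by omega⟩
  have he : Even (j + 2) := hj ▸ even_two_mul k
  have hk' : (2 : ℝ) * k = (j : ℝ) + 2 := by exact_mod_cast hj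
  rw [hj, show j + 2 - 1 = j + 1 by omega, show j + 2 - 2 = j by omega, hk']
  have htan : (d + δ) ^ (j + 2) - d ^ (j + 2) ≤ ((j : ℝ) + 2) * (d + δ) ^ (j + 1) * δ := by
    have h := amgm_pow (abs_nonneg (d + δ)) (abs_nonneg d) (j + 1)
    rw [← mul_pow_sub_one (show j + 1 + 1 ≠ 0 by omega) |d|] at h
    simp only [add_tsub_cancel_right] at h
    have e1 : |d + δ| ^ (j + 2) = (d + δ) ^ (j + 2) := he.pow_abs _
    have e2 : |d| * |d| ^ (j + 1) = d ^ (j + 2) := by rw [← pow_succ', he.pow_abs]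
    have e3 : (d + δ) ^ (j + 1) * d ≤ |d + δ| ^ (j + 1) * |d| :=
      (le_abs_self _).trans (by rw [abs_mul, abs_pow])
    push_cast at h
    rw [e2, show j + 1 + 1 = j + 2 by omega, e1] at h
    have h4 := mul_le_mul_of_nonneg_left e3 (by positivity : (0 : ℝ) ≤ (j : ℝ) + 2)
    linear_combination h + h4
  have hdiff : |(d + δ) ^ (j + 1) - d ^ (j + 1)| ≤ |δ| * ((j : ℝ) + 1) * (|d| + |δ|) ^ j := by
    have h := abs_pow_sub_pow_le (d + δ) d (j + 1)
    simp only [add_sub_cancel_left, add_tsub_cancel_right] at h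
    push_cast at h
    refine h.trans (mul_le_mul_of_nonneg_left (pow_le_pow_left₀ (by positivity)
      (max_le (abs_add_le d δ) (le_add_of_nonneg_right (abs_nonneg δ))) j) (by positivity))
  have h5 : ((d + δ) ^ (j + 1) - d ^ (j + 1)) * δ ≤ ((j : ℝ) + 2) * δ ^ 2 * (|d| + |δ|) ^ j := by
    refine (le_abs_self _).trans ?_
    rw [abs_mul]
    refine (mul_le_mul_of_nonneg_right hdiff (abs_nonneg δ)).trans ?_
    rw [← sq_abs δ]
    have : (0 : ℝ) ≤ |δ| ^ 2 * (|d| + |δ|) ^ j := by positivity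
    linear_combination this
  have h6 := mul_le_mul_of_nonneg_left h5 (by positivity : (0 : ℝ) ≤ (j : ℝ) + 2)
  linear_combination htan + h6

/-- The constant of `moment_sum`. -/
noncomputable def noiseC (B ν : ℝ) (k : ℕ) : ℝ :=
  (2 * k * (2 * k) * B ^ 2 * 2 ^ (2 * k)) * (B ^ (2 * k) + 1)
    + (2 * k * (2 * k) * B ^ 2 * 2 ^ (2 * k)) ^ k / ν ^ (k - 1)
    + (2 * k * B) ^ (2 * k) / ν ^ (2 * k - 1)

theorem noiseC_nonneg {B ν : ℝ} (hB : 0 ≤ B) (hν : 0 ≤ ν) (k : ℕ) : 0 ≤ noiseC B ν k := by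
  unfold noiseC; positivity

/-- The expansion summed over a set of steps: steps are at most `B / u`, their absolute values add up
to at most `B * u` and their sum is at most `main` up to `B`. -/
theorem moment_sum {ι : Type} (I : Finset ι) (δ : ι → ℝ) {k : ℕ} (hk : 1 ≤ k) {B : ℝ}
    (hB : 0 ≤ B) {ν : ℝ} (hν : 0 < ν) {d u main : ℝ} (hu : 1 ≤ u)
    (hδ : ∀ i ∈ I, |δ i| ≤ B / u) (habs : ∑ i ∈ I, |δ i| ≤ B * u)
    (hmain : |∑ i ∈ I, δ i - main| ≤ B) :
    ∑ i ∈ I, (d + δ i) ^ (2 * k) ≤ I.card * d ^ (2 * k)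
      + 2 * k * d ^ (2 * k - 1) * main + 2 * ν * u * d ^ (2 * k) + noiseC B ν k / u ^ (k - 1) := by
  obtain ⟨j, rfl⟩ : ∃ j, k = j + 1 := ⟨k - 1, by omega⟩
  rw [noiseC]
  set K1 : ℝ := 2 * ((j + 1 : ℕ) : ℝ) * (2 * ((j + 1 : ℕ) : ℝ)) * B ^ 2 * 2 ^ (2 * (j + 1))
    with hK1
  set K2 : ℝ := 2 * ((j + 1 : ℕ) : ℝ) * B with hK2
  have hu0 : 0 < u := lt_of_lt_of_le one_pos hu
  have hdK : 0 ≤ d ^ (2 * (j + 1)) := (even_two_mul _).pow_nonneg d
  have hsum : ∑ i ∈ I, (d + δ i) ^ (2 * (j + 1))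
      ≤ I.card * d ^ (2 * (j + 1))
        + 2 * ((j + 1 : ℕ) : ℝ) * d ^ (2 * (j + 1) - 1) * ∑ i ∈ I, δ i
        + 2 * ((j + 1 : ℕ) : ℝ) * (2 * ((j + 1 : ℕ) : ℝ)) * (B / u) * (B * u)
          * (2 ^ (2 * (j + 1)) * (|d| ^ (2 * j) + (B / u) ^ (2 * j))) := by
    refine (Finset.sum_le_sum fun i hi => pow_add_le d (δ i) (k := j + 1) (by omega)).trans ?_
    rw [Finset.sum_add_distrib, Finset.sum_add_distrib, Finset.sum_const, nsmul_eq_mul,
      ← Finset.mul_sum]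
    refine add_le_add le_rfl ?_
    have hp : ∀ i ∈ I, (|d| + |δ i|) ^ (2 * (j + 1) - 2)
        ≤ 2 ^ (2 * (j + 1)) * (|d| ^ (2 * j) + (B / u) ^ (2 * j)) := fun i hi => by
      rw [show 2 * (j + 1) - 2 = 2 * j by omega]
      refine (pow_le_pow_left₀ (by positivity) (add_le_add le_rfl (hδ i hi)) _).trans ?_
      refine (add_pow_le (abs_nonneg d) (by positivity) _).trans ?_
      gcongr
      · norm_num
      · omega
    calc ∑ i ∈ I, 2 * ((j + 1 : ℕ) : ℝ) * (2 * ((j + 1 : ℕ) : ℝ)) * δ i ^ 2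
          * (|d| + |δ i|) ^ (2 * (j + 1) - 2)
        ≤ ∑ i ∈ I, 2 * ((j + 1 : ℕ) : ℝ) * (2 * ((j + 1 : ℕ) : ℝ)) * ((B / u) * |δ i|)
          * (2 ^ (2 * (j + 1)) * (|d| ^ (2 * j) + (B / u) ^ (2 * j))) := by
          refine Finset.sum_le_sum fun i hi => mul_le_mul ?_ (hp i hi) (by positivity) (by positivity)
          refine mul_le_mul_of_nonneg_left ?_ (by positivity)
          rw [← sq_abs, sq]
          exact mul_le_mul_of_nonneg_right (hδ i hi) (abs_nonneg _)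
      _ ≤ _ := by
          rw [← Finset.sum_mul, ← Finset.mul_sum, ← Finset.mul_sum]
          refine mul_le_mul_of_nonneg_right ?_ (by positivity)
          rw [mul_assoc (2 * ((j + 1 : ℕ) : ℝ) * (2 * ((j + 1 : ℕ) : ℝ))) (B / u) (B * u)]
          gcongr
  have h1 : 2 * ((j + 1 : ℕ) : ℝ) * d ^ (2 * (j + 1) - 1) * ∑ i ∈ I, δ i
      ≤ 2 * ((j + 1 : ℕ) : ℝ) * d ^ (2 * (j + 1) - 1) * main
        + |d| ^ (2 * (j + 1) - 1) * K2 := by
    have : 2 * ((j + 1 : ℕ) : ℝ) * d ^ (2 * (j + 1) - 1) * (∑ i ∈ I, δ i - main)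
        ≤ |d| ^ (2 * (j + 1) - 1) * K2 := by
      refine (le_abs_self _).trans ?_
      rw [abs_mul, abs_mul, abs_pow, abs_of_nonneg (by positivity : (0:ℝ) ≤ 2 * ((j + 1 : ℕ) : ℝ))]
      refine (mul_le_mul_of_nonneg_left hmain (by positivity)).trans_eq ?_
      rw [hK2]; ring
    linarith
  have hnu : 0 < ν * u := mul_pos hν hu0
  have h2 : |d| ^ (2 * (j + 1) - 1) * K2 ≤ ν * u * d ^ (2 * (j + 1))
      + K2 ^ (2 * (j + 1)) / ν ^ (2 * (j + 1) - 1) / u ^ j := by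
    have := young (abs_nonneg d) (by positivity : (0:ℝ) ≤ K2) hnu (2 * (j + 1) - 1)
    rw [show 2 * (j + 1) - 1 + 1 = 2 * (j + 1) by omega, (even_two_mul _).pow_abs] at this
    refine this.trans (add_le_add le_rfl ?_)
    rw [mul_pow ν u, ← div_div]
    exact div_le_div_of_nonneg_left (by positivity) (by positivity)
      (pow_le_pow_right₀ hu (by omega))
  have h3 : |d| ^ (2 * j) * K1 ≤ ν * u * d ^ (2 * (j + 1))
      + K1 ^ (j + 1) / ν ^ j / u ^ j := by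
    have := young (sq_nonneg d) (by positivity : (0:ℝ) ≤ K1) hnu j
    rw [← pow_mul, ← pow_mul] at this
    rw [(even_two_mul j).pow_abs]
    refine this.trans_eq ?_
    rw [mul_pow ν u, ← div_div]
  have h4 : K1 * (B / u) ^ (2 * j) ≤ K1 * (B ^ (2 * (j + 1)) + 1) / u ^ j := by
    rw [div_pow, mul_div_assoc]
    refine mul_le_mul_of_nonneg_left (div_le_div₀ (by positivity) ?_ (by positivity)
      (pow_le_pow_right₀ hu (by omega))) (by positivity)
    rcases le_total B 1 with h | h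
    · linarith [pow_le_one₀ (n := 2 * j) hB h, pow_nonneg hB (2 * (j + 1))]
    · linarith [pow_le_pow_right₀ h (show 2 * j ≤ 2 * (j + 1) by omega)]
  have h0 : 2 * ((j + 1 : ℕ) : ℝ) * (2 * ((j + 1 : ℕ) : ℝ)) * (B / u) * (B * u)
          * (2 ^ (2 * (j + 1)) * (|d| ^ (2 * j) + (B / u) ^ (2 * j)))
      = |d| ^ (2 * j) * K1 + K1 * (B / u) ^ (2 * j) := by
    rw [hK1]; field_simp
  rw [show j + 1 - 1 = j by omega]
  rw [add_div, add_div]
  linarith [hsum, h1, h2, h3, h4, h0]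

end P046.Full
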