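import Vale.Agent.P046.Full.Interfaces

/-!
P046: the greedy process is the slot model, up to ties (`LH.OrderStmt`).

On injective slot assignments the first edge is uniform, also conditionally on any event that is
invariant under permutations of the edges of the current state (`sum_leftover`); ties have
probability at most `|tris|² / M`.
-/

namespace P046.LH

open Finset
open scoped Classical

variable {α : Type} [DecidableEq α] (L : LH α)

theorem tris_mono {V W : Finset α} (h : V ⊆ W) : L.tris V ⊆ L.tris W := fun _ ht =>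
  mem_tris.2 ⟨(mem_tris.1 ht).1, (mem_tris.1 ht).2.trans h⟩

theorem mem_star_iff {W : Finset α} {a : α} {r : Finset α} :
    r ∈ L.star W a ↔ r ∈ L.tris W ∧ a ∈ r := by simp [star]

theorem alive_iff (W : Finset α) (τ : Finset α → ℕ) (j : ℕ) (a : α) :
    L.alive W τ j a ↔
      ∀ r ∈ L.star W a, τ r < j → ¬ ∀ b ∈ r.erase a, L.alive W τ (τ r) b := by
  rw [LH.alive]

/-- The first edge is taken and then the process goes on in the remaining state. -/
theorem alive_first {V t : Finset α} {τ : Finset α → ℕ} (ht : t ∈ L.tris V)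
    (hmin : ∀ s ∈ L.tris V, s ≠ t → τ t < τ s) (j : ℕ) :
    ∀ a ∈ V, (L.alive V τ j a ↔ (a ∈ t → j ≤ τ t) ∧ (a ∉ t → L.alive (V \ t) τ j a)) := by
  induction j using Nat.strong_induction_on with
  | _ j ih =>
  intro a ha
  have hle : ∀ r ∈ L.tris V, τ t ≤ τ r := fun r hr => by
    rcases eq_or_ne r t with rfl | h
    · exact le_rfl
    · exact (hmin r hr h).le
  rcases le_or_gt j (τ t) with hj | hj
  · refine iff_of_true ?_ ⟨fun _ => hj, fun _ => ?_⟩ <;>
      (rw [alive_iff]; intro r hr hlt _)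
    · have := hle r ((L.mem_star_iff).1 hr).1
      omega
    · have := hle r (L.tris_mono Finset.sdiff_subset ((L.mem_star_iff).1 hr).1)
      omega
  · by_cases hat : a ∈ t
    · refine iff_of_false ?_ fun h => by have := h.1 hat; omega
      rw [alive_iff]
      intro h
      refine h t ((L.mem_star_iff).2 ⟨ht, hat⟩) hj fun b hb => ?_
      have hb' := Finset.mem_of_mem_erase hb
      exact (ih _ hj b ((mem_tris.1 ht).2 hb')).2 ⟨fun _ => le_rfl, fun h' => absurd hb' h'⟩
    · simp only [hat, false_imp_iff, true_and, not_false_eq_true, true_imp_iff]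
      rw [alive_iff, alive_iff]
      constructor
      · intro h r hr hlt hall
        obtain ⟨hrt, har⟩ := (L.mem_star_iff).1 hr
        refine h r ((L.mem_star_iff).2 ⟨L.tris_mono Finset.sdiff_subset hrt, har⟩) hlt fun b hb => ?_
        have hb' := (mem_tris.1 hrt).2 (Finset.mem_of_mem_erase hb)
        rw [Finset.mem_sdiff] at hb'
        exact (ih _ hlt b hb'.1).2 ⟨fun h' => absurd h' hb'.2, fun _ => hall b hb⟩
      · intro h r hr hlt hall
        obtain ⟨hrt, har⟩ := (L.mem_star_iff).1 hr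
        have hne : r ≠ t := fun h' => hat (h' ▸ har)
        have hdis : ∀ b ∈ r, b ∉ t := by
          intro b hb hbt
          have hba : b ≠ a := fun h' => hat (h' ▸ hbt)
          have h1 := ((ih _ hlt b ((mem_tris.1 hrt).2 hb)).1
            (hall b (Finset.mem_erase.2 ⟨hba, hb⟩))).1 hbt
          have := hmin r hrt hne
          omega
        have hr' : r ∈ L.tris (V \ t) :=
          mem_tris.2 ⟨(mem_tris.1 hrt).1,
            fun b hb => Finset.mem_sdiff.2 ⟨(mem_tris.1 hrt).2 hb, hdis b hb⟩⟩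
        refine h r ((L.mem_star_iff).2 ⟨hr', har⟩) hlt fun b hb => ?_
        have hb' := Finset.mem_of_mem_erase hb
        exact ((ih _ hlt b ((mem_tris.1 hrt).2 hb')).1 (hall b hb)).2 (hdis b hb')

theorem leftover_first {V t : Finset α} {τ : Finset α → ℕ} {M : ℕ} (ht : t ∈ L.tris V)
    (hmin : ∀ s ∈ L.tris V, s ≠ t → τ t < τ s) (hM : τ t < M) :
    L.leftover V M τ = L.leftover (V \ t) M τ := by
  ext a
  simp only [leftover, Finset.mem_filter, Finset.mem_sdiff]
  constructor
  · rintro ⟨ha, h⟩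
    have h' := (L.alive_first ht hmin M a ha).1 h
    have hat : a ∉ t := fun h'' => by have := h'.1 h''; omega
    exact ⟨⟨ha, hat⟩, h'.2 hat⟩
  · rintro ⟨⟨ha, hat⟩, h⟩
    exact ⟨ha, (L.alive_first ht hmin M a ha).2 ⟨fun h' => absurd h' hat, fun _ => h⟩⟩

theorem leftover_terminal {V : Finset α} {τ : Finset α → ℕ} {M : ℕ} (h : L.tris V = ∅) :
    L.leftover V M τ = V := by
  refine Finset.filter_true_of_mem fun a _ => ?_
  rw [alive_iff]
  intro r hr
  simp [star, h] at hr

/-- A slot assignment of the edges of `U`, extended by zero. -/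
def extend (U : Finset α) (M : ℕ) (τ : L.tris U → Fin M) : Finset α → ℕ :=
  fun t => if h : t ∈ L.tris U then (τ ⟨t, h⟩ : ℕ) else 0

/-- On injective assignments inside an event invariant under permutations of the edges of `V`, the
slot model in `V` is the greedy process. -/
theorem sum_leftover (U : Finset α) (M : ℕ) (f : Finset α → ℝ) (V : Finset α) :
    V ⊆ U → ∀ P : Finset (L.tris U → Fin M),
      (∀ τ ∈ P, Function.Injective τ) →
      (∀ π : Equiv.Perm (L.tris U), (∀ x, x.1 ∉ L.tris V → π x = x) →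
        ∀ τ ∈ P, τ ∘ π ∈ P) →
      ∑ τ ∈ P, f (L.leftover V M (L.extend U M τ)) = (P.card : ℝ) * L.ex f V := by
  refine ex_induction (L := L) (P := fun V => V ⊆ U → ∀ P : Finset (L.tris U → Fin M),
      (∀ τ ∈ P, Function.Injective τ) →
      (∀ π : Equiv.Perm (L.tris U), (∀ x, x.1 ∉ L.tris V → π x = x) → ∀ τ ∈ P, τ ∘ π ∈ P) →
      ∑ τ ∈ P, f (L.leftover V M (L.extend U M τ)) = (P.card : ℝ) * L.ex f V)
    (fun V ih hV P hP hinv => ?_) V
  by_cases h0 : L.tris V = ∅
  · rw [Finset.sum_congr rfl fun τ _ => by rw [L.leftover_terminal h0], Finset.sum_const,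
      nsmul_eq_mul, ex_terminal h0]
  set T := (L.tris U).attach.filter (fun x => x.1 ∈ L.tris V) with hT
  have hmemT : ∀ x : L.tris U, x ∈ T ↔ x.1 ∈ L.tris V := fun x => by simp [hT]
  set Q : L.tris U → Finset (L.tris U → Fin M) :=
    fun t => P.filter (fun τ => ∀ x ∈ T, x ≠ t → τ t < τ x) with hQ
  have hTne : T.Nonempty := by
    obtain ⟨t, ht⟩ := Finset.nonempty_iff_ne_empty.2 h0
    exact ⟨⟨t, L.tris_mono hV ht⟩, (hmemT _).2 ht⟩
  have hdis : (T : Set (L.tris U)).PairwiseDisjoint Q := by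
    intro x hx y hy hxy
    rw [Function.onFun, Finset.disjoint_left]
    intro τ h1 h2
    simp only [hQ, Finset.mem_filter] at h1 h2
    have := h1.2 y hy hxy.symm
    have := h2.2 x hx hxy
    exact lt_irrefl _ (lt_trans ‹τ x < τ y› ‹τ y < τ x›)
  have hcover : T.biUnion Q = P := by
    refine Finset.Subset.antisymm (Finset.biUnion_subset.2 fun x _ => Finset.filter_subset _ _) ?_
    intro τ hτ
    obtain ⟨x, hx, hle⟩ := Finset.exists_min_image T (fun x => τ x) hTne
    exact Finset.mem_biUnion.2 ⟨x, hx, Finset.mem_filter.2 ⟨hτ, fun y hy hyx =>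
      lt_of_le_of_ne (hle y hy) fun h => hyx (hP τ hτ h).symm⟩⟩
  have hsum : ∀ x ∈ T, ∑ τ ∈ Q x, f (L.leftover V M (L.extend U M τ))
      = ((Q x).card : ℝ) * L.ex f (V \ x.1) := by
    intro x hx
    have hxV := (hmemT x).1 hx
    rw [← ih x.1 hxV (Finset.sdiff_subset.trans hV) (Q x)
      (fun τ hτ => hP τ (Finset.mem_filter.1 hτ).1)]
    · refine Finset.sum_congr rfl fun τ hτ => ?_
      obtain ⟨-, hτ'⟩ := Finset.mem_filter.1 hτ
      have h1 : ∀ s ∈ L.tris V, s ≠ x.1 → L.extend U M τ x.1 < L.extend U M τ s := by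
        intro s hs hsx
        have hs' := L.tris_mono hV hs
        simp only [extend, dif_pos x.2, dif_pos hs']
        exact hτ' ⟨s, hs'⟩ ((hmemT _).2 hs) fun h => hsx (congrArg Subtype.val h)
      have h2 : L.extend U M τ x.1 < M := by
        simp only [extend, dif_pos x.2]
        exact (τ x).isLt
      rw [L.leftover_first hxV h1 h2]
    · intro π hπ τ hτ
      obtain ⟨hτP, hτ'⟩ := Finset.mem_filter.1 hτ
      have hsub : L.tris (V \ x.1) ⊆ L.tris V := L.tris_mono Finset.sdiff_subset
      have hxn : x.1 ∉ L.tris (V \ x.1) := fun h => by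
        obtain ⟨a, ha⟩ := Finset.card_pos.1 (by rw [card_tri hxV]; norm_num : 0 < x.1.card)
        exact (Finset.mem_sdiff.1 ((mem_tris.1 h).2 ha)).2 ha
      refine Finset.mem_filter.2 ⟨hinv π (fun y hy => hπ y fun h => hy (hsub h)) τ hτP, ?_⟩
      intro y hy hyx
      simp only [Function.comp_apply, hπ x hxn]
      refine hτ' (π y) ?_ fun h => hyx (π.injective (h.trans (hπ x hxn).symm))
      rw [hmemT]
      by_contra hn
      have := hπ (π y) fun h => hn (hsub h)
      exact hn (by rw [π.injective this]; exact (hmemT y).1 hy)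
  have hswap : ∀ x ∈ T, ∀ y ∈ T, (Q x).card ≤ (Q y).card := by
    intro x hx y hy
    refine Finset.card_le_card_of_injOn (fun τ => τ ∘ Equiv.swap x y) (fun τ hτ => ?_)
      fun τ _ τ' _ h => ?_
    · obtain ⟨hτP, hτ'⟩ := Finset.mem_filter.1 hτ
      refine Finset.mem_filter.2 ⟨hinv _ (fun z hz => Equiv.swap_apply_of_ne_of_ne ?_ ?_) τ hτP, ?_⟩
      · exact fun h => hz (h ▸ (hmemT x).1 hx)
      · exact fun h => hz (h ▸ (hmemT y).1 hy)
      · intro z hz hzy
        simp only [Function.comp_apply, Equiv.swap_apply_right]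
        refine hτ' _ ?_ ?_
        · rw [Equiv.swap_apply_def]
          split_ifs <;> assumption
        · intro h
          exact hzy ((Equiv.swap x y).injective (h.trans (Equiv.swap_apply_right x y).symm))
    · funext z
      have := congrFun h (Equiv.swap x y z)
      simpa using this
  obtain ⟨x₀, hx₀⟩ := hTne
  have hcard : (P.card : ℝ) = (T.card : ℝ) * (Q x₀).card := by
    rw [← hcover, Finset.card_biUnion hdis,
      Finset.sum_congr rfl fun x hx => le_antisymm (hswap x hx x₀ hx₀) (hswap x₀ hx₀ x hx)]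
    simp
  have hTV : ∑ x ∈ T, L.ex f (V \ x.1) = ∑ t ∈ L.tris V, L.ex f (V \ t) := by
    refine Finset.sum_bij (fun x _ => x.1) (fun x hx => (hmemT x).1 hx)
      (fun x _ y _ h => Subtype.ext h)
      (fun t ht => ⟨⟨t, L.tris_mono hV ht⟩, (hmemT _).2 ht, rfl⟩) fun x _ => rfl
  have hTc : T.card = (L.tris V).card := by
    refine Finset.card_bij (fun x _ => x.1) (fun x hx => (hmemT x).1 hx)
      (fun x _ y _ h => Subtype.ext h)
      (fun t ht => ⟨⟨t, L.tris_mono hV ht⟩, (hmemT _).2 ht, rfl⟩)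
  calc ∑ τ ∈ P, f (L.leftover V M (L.extend U M τ))
      = ∑ x ∈ T, ∑ τ ∈ Q x, f (L.leftover V M (L.extend U M τ)) := by
        rw [← Finset.sum_biUnion hdis, hcover]
    _ = ∑ x ∈ T, ((Q x₀).card : ℝ) * L.ex f (V \ x.1) := Finset.sum_congr rfl fun x hx => by
        rw [hsum x hx, le_antisymm (hswap x hx x₀ hx₀) (hswap x₀ hx₀ x hx)]
    _ = (P.card : ℝ) * L.ex f V := by
        rw [← Finset.mul_sum, hTV, hcard, hTc, ex_step h0, avg]
        field_simp [(card_pos h0).ne']

theorem abs_ex_le {f : Finset α → ℝ} {B : ℝ} {W : Finset α} (h : ∀ V, V ⊆ W → |f V| ≤ B) :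
    |L.ex f W| ≤ B := by
  rw [abs_le]
  constructor
  · calc -B = L.ex (fun _ => -B) W := (ex_const _ _).symm
      _ ≤ L.ex f W := ex_mono fun V hV => (abs_le.1 (h V hV)).1
  · calc L.ex f W ≤ L.ex (fun _ => B) W := ex_mono fun V hV => (abs_le.1 (h V hV)).2
      _ = B := ex_const _ _

/-- There are at most `|ι|² M ^ (|ι| - 1)` assignments with a tie. -/
theorem card_ties {ι : Type} [Fintype ι] [DecidableEq ι] (M : ℕ) :
    M * (Finset.univ.filter fun τ : ι → Fin M => ¬Function.Injective τ).card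
      ≤ Fintype.card ι ^ 2 * M ^ Fintype.card ι := by
  set S : ι × ι → Finset (ι → Fin M) :=
    fun p => Finset.univ.filter fun τ => τ p.1 = τ p.2 with hS
  have h1 : (Finset.univ.filter fun τ : ι → Fin M => ¬Function.Injective τ)
      ⊆ Finset.univ.offDiag.biUnion S := by
    intro τ hτ
    obtain ⟨a, b, hab, hne⟩ := Function.not_injective_iff.1 (Finset.mem_filter.1 hτ).2
    exact Finset.mem_biUnion.2 ⟨(a, b), by simp [hne], by simp [hS, hab]⟩
  have h2 : ∀ p ∈ (Finset.univ : Finset ι).offDiag, M * (S p).card ≤ M ^ Fintype.card ι := by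
    rintro ⟨a, b⟩ hp
    have hab : a ≠ b := by simpa using hp
    have h : (S (a, b)).card ≤ Fintype.card ({j : ι // j ≠ b} → Fin M) := by
      rw [← Finset.card_univ]
      refine Finset.card_le_card_of_injOn (fun τ j => τ j.1) (fun _ _ => Finset.mem_univ _) ?_
      intro τ hτ τ' hτ' h
      simp only [hS, Finset.coe_filter, Finset.mem_univ, true_and, Set.mem_ofPred_eq] at hτ hτ'
      funext j
      rcases eq_or_ne j b with rfl | hj
      · rw [← hτ, ← hτ']
        exact congrFun h ⟨a, hab⟩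
      · exact congrFun h ⟨j, hj⟩
    rw [Fintype.card_fun, Fintype.card_fin, Fintype.card_subtype_compl,
      Fintype.card_subtype_eq] at h
    calc M * (S (a, b)).card ≤ M * M ^ (Fintype.card ι - 1) := Nat.mul_le_mul_left _ h
      _ = M ^ Fintype.card ι := by
        rw [← pow_succ', Nat.sub_add_cancel (Fintype.card_pos_iff.2 ⟨a⟩)]
  calc M * (Finset.univ.filter fun τ : ι → Fin M => ¬Function.Injective τ).card
      ≤ M * ∑ p ∈ Finset.univ.offDiag, (S p).card :=
        Nat.mul_le_mul_left _ ((Finset.card_le_card h1).trans Finset.card_biUnion_le)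
    _ ≤ (Finset.univ : Finset ι).offDiag.card * M ^ Fintype.card ι := by
        rw [Finset.mul_sum, ← smul_eq_mul (a := Finset.card _), ← Finset.sum_const]
        exact Finset.sum_le_sum h2
    _ ≤ _ := by
        refine Nat.mul_le_mul_right _ ?_
        rw [Finset.offDiag_card, Finset.card_univ, sq]
        exact Nat.sub_le _ _

theorem orderStmt : OrderStmt := by
  intro α _ L W M f B hM hf
  set N := (L.tris W).card with hN
  set g : (L.tris W → Fin M) → ℝ :=
    fun τ => f (L.leftover W M (L.extend W M τ)) with hg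
  set I := (Finset.univ : Finset (L.tris W → Fin M)).filter Function.Injective with hI
  set J := (Finset.univ : Finset (L.tris W → Fin M)).filter (fun τ => ¬Function.Injective τ)
    with hJ
  have hB : 0 ≤ B := (abs_nonneg _).trans (hf W subset_rfl)
  have hsumI : ∑ τ ∈ I, g τ = (I.card : ℝ) * L.ex f W := by
    refine L.sum_leftover W M f W subset_rfl I (fun τ hτ => (Finset.mem_filter.1 hτ).2) ?_
    intro π _ τ hτ
    exact Finset.mem_filter.2 ⟨Finset.mem_univ _, (Finset.mem_filter.1 hτ).2.comp π.injective⟩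
  have hM' : (0 : ℝ) < M := by exact_mod_cast hM
  have hMN : (0 : ℝ) < (M : ℝ) ^ N := pow_pos hM' _
  have htot : (I.card : ℝ) + J.card = (M : ℝ) ^ N := by
    rw [hI, hJ]
    norm_cast
    rw [Finset.card_filter_add_card_filter_not, Finset.card_univ, Fintype.card_fun,
      Fintype.card_fin, Fintype.card_coe]
  have hsum : (M : ℝ) ^ N * L.ex f W - ∑ τ, g τ = ∑ τ ∈ J, (L.ex f W - g τ) := by
    rw [← Finset.sum_filter_add_sum_filter_not Finset.univ Function.Injective, ← hI, ← hJ, hsumI,
      Finset.sum_sub_distrib, Finset.sum_const, nsmul_eq_mul, ← htot]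
    ring
  have hJle : (J.card : ℝ) * (M : ℝ) ≤ (N : ℝ) ^ 2 * (M : ℝ) ^ N := by
    have := card_ties (ι := L.tris W) M
    rw [Fintype.card_coe] at this
    rw [mul_comm]
    exact_mod_cast this
  have hbd : |∑ τ ∈ J, (L.ex f W - g τ)| ≤ (J.card : ℝ) * (2 * B) := by
    refine (Finset.abs_sum_le_sum_abs _ _).trans ?_
    rw [← nsmul_eq_mul, ← Finset.sum_const]
    refine Finset.sum_le_sum fun τ _ => (abs_sub _ _).trans ?_
    have := L.abs_ex_le hf
    have := hf (L.leftover W M (L.extend W M τ)) (Finset.filter_subset _ _)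
    simp only [hg]
    linarith
  have e : L.slotE W M (fun τ => f (L.leftover W M τ)) = (∑ τ, g τ) / (M : ℝ) ^ N := rfl
  rw [e, show L.ex f W - (∑ τ, g τ) / (M : ℝ) ^ N
      = ((M : ℝ) ^ N * L.ex f W - ∑ τ, g τ) / (M : ℝ) ^ N by field_simp,
    hsum, abs_div, abs_of_pos hMN, div_le_iff₀ hMN]
  refine hbd.trans ?_
  have h3 : (J.card : ℝ) ≤ (N : ℝ) ^ 2 * (M : ℝ) ^ N / M := by
    rw [le_div_iff₀ hM']
    exact hJle
  calc (J.card : ℝ) * (2 * B) ≤ (N : ℝ) ^ 2 * (M : ℝ) ^ N / M * (2 * B) :=
        mul_le_mul_of_nonneg_right h3 (by positivity)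
    _ = 2 * B * ((N : ℝ) ^ 2 / M) * (M : ℝ) ^ N := by ring

end P046.LH
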