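import Vale.Agent.P046.Full.TreeSurv

/-!
P046, part III: the slot model agrees with the cover forest up to a collision, and `CouplingStmt`
follows from `PathsStmt`.
-/

namespace P046.Tree

open Finset

variable {α : Type} [DecidableEq α] {L : LH α} {W : Finset α} {M : ℕ}

/-- A sample of the slot model, read on the forest. -/
def lift (τ : Finset α → ℕ) : Crd α → ℕ := fun e => τ e.2

theorem talive_lift (τ : Finset α → ℕ) : ∀ (j : ℕ) (p : Node α),
    (exc p ∈ L.star W (cur p) → j ≤ τ (exc p)) →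
      (talive L W (lift τ) j p ↔ L.alive W τ j (cur p)) := by
  intro j
  induction j using Nat.strong_induction_on with
  | _ j ih =>
    intro p hex
    rw [talive_iff, LH.alive]
    constructor
    · intro H r hr hlt hall
      have hne : r ≠ exc p := fun he => absurd (hex (he ▸ hr)) (by rw [← he]; omega)
      have hr' : r ∈ edgesAt L W p := Finset.mem_erase.2 ⟨hne, hr⟩
      refine H r hr' hlt fun x hx => ?_
      exact (ih _ hlt (child p r x) fun _ => le_rfl).2 (hall x hx)
    · intro H r hr hlt hall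
      refine H r (Finset.mem_of_mem_erase hr) hlt fun x hx => ?_
      exact (ih _ hlt (child p r x) fun _ => le_rfl).1 (hall x hx)

theorem talive_lift_root (τ : Finset α → ℕ) (j : ℕ) (a : α) :
    talive L W (lift τ) j (a, []) ↔ L.alive W τ j a :=
  talive_lift τ j (a, []) fun h => by simp [LH.star, exc] at h

theorem slotP_eq_prob (P : (Finset α → ℕ) → Prop) :
    L.slotP W M P = prob (L.tris W) M P := rfl

/-- What a sample shows at the coordinates looked at. -/
noncomputable def key (L : LH α) (W : Finset α) (M : ℕ) (R : Finset α) (ω : Crd α → ℕ) :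
    Finset (Crd α × ℕ) := (Q L W M R ω).image fun e => (e, ω e)

theorem key_eq_iff {R : Finset α} {ω ω₀ : Crd α → ℕ} :
    key L W M R ω = key L W M R ω₀ ↔ ∀ e ∈ Q L W M R ω₀, ω e = ω₀ e := by
  constructor
  · intro h e he
    have : (e, ω₀ e) ∈ key L W M R ω := h ▸ Finset.mem_image_of_mem _ he
    obtain ⟨e', -, h'⟩ := Finset.mem_image.1 this
    rw [Prod.mk.injEq] at h'
    rw [← h'.2, h'.1]
  · intro h
    rw [key, key, Q_stable h]
    exact Finset.image_congr fun e he => by rw [h e he]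

theorem injOn_of_not_bad {R : Finset α} {ω : Crd α → ℕ} (h : ¬Bad L W M R ω) :
    Set.InjOn Prod.snd (Q L W M R ω : Set (Crd α)) :=
  fun e he e' he' h2 => by_contra fun hne => h ⟨e, he, e', he', hne, h2⟩

theorem cylinder_eq (hM : 0 < M) {S : Finset (Crd α)} (hS : S ⊆ idx L W M)
    (hinj : Set.InjOn Prod.snd (S : Set (Crd α))) (k : Crd α → ℕ) (hk : ∀ e ∈ S, k e < M) :
    prob (idx L W M) M (fun ω => ∀ e ∈ S, ω e = k e)
      = prob (L.tris W) M (fun τ => ∀ e ∈ S, lift τ e = k e) := by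
  let k' : Finset α → ℕ := fun t => ∑ e ∈ S.filter (fun e => e.2 = t), k e
  have hk' : ∀ e ∈ S, k' e.2 = k e := by
    intro e he
    refine Finset.sum_eq_single e (fun e' he' hne => ?_) fun h => absurd ?_ h
    · rw [Finset.mem_filter] at he'
      exact absurd (hinj he'.1 he he'.2) hne
    · exact Finset.mem_filter.2 ⟨he, rfl⟩
  have hev : (fun τ : Finset α → ℕ => ∀ e ∈ S, lift τ e = k e)
      = fun τ => ∀ t ∈ S.image Prod.snd, τ t = k' t := by
    funext τ
    rw [Finset.forall_mem_image]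
    exact propext (forall₂_congr fun e he => by rw [hk' e he]; rfl)
  rw [hev, prob_cylinder hM hS k hk, prob_cylinder hM ?_ k' ?_, Finset.card_image_of_injOn hinj]
  · intro t ht
    obtain ⟨e, he, rfl⟩ := Finset.mem_image.1 ht
    exact (mem_edgesAt.1 (mem_idx.1 (hS he)).2.1).2.1
  · intro t ht
    obtain ⟨e, he, rfl⟩ := Finset.mem_image.1 ht
    rw [hk' e he]
    exact hk e he

theorem avgF_split {ι κ : Type} [DecidableEq ι] (I : Finset ι) (g : (ι → ℕ) → κ) (K : Finset κ)
    (hg : ∀ τ : I → Fin M, g (ext I τ) ∈ K) (f : (ι → ℕ) → ℝ) :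
    avgF I M f = ∑ k ∈ K, avgF I M (fun σ => ind (g σ = k) * f σ) := by
  unfold avgF
  rw [← Finset.sum_div]
  congr 1
  rw [Finset.sum_comm]
  refine Finset.sum_congr rfl fun τ _ => ?_
  rw [Finset.sum_eq_single (g (ext I τ))]
  · dsimp only; rw [ind_true rfl, one_mul]
  · intro k _ hne
    dsimp only
    rw [ind_false (Ne.symm hne), zero_mul]
  · exact fun h => absurd (hg τ) h

/-- A function of what is looked at, zero on collisions, has the same mean in both models. -/
theorem avgF_lift (hM : 0 < M) (R : Finset α) {f : (Crd α → ℕ) → ℝ}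
    (hdet : ∀ ω ω', (∀ e ∈ Q L W M R ω, ω' e = ω e) → f ω' = f ω)
    (hbad : ∀ ω, Bad L W M R ω → f ω = 0) :
    avgF (idx L W M) M f = avgF (L.tris W) M (fun τ => f (lift τ)) := by
  classical
  let K : Finset (Finset (Crd α × ℕ)) :=
    (Finset.univ.image fun τ : idx L W M → Fin M => key L W M R (ext (idx L W M) τ)) ∪
      Finset.univ.image fun τ : L.tris W → Fin M => key L W M R (lift (ext (L.tris W) τ))
  rw [avgF_split (idx L W M) (key L W M R) K
      (fun τ => Finset.mem_union_left _ (Finset.mem_image.2 ⟨τ, Finset.mem_univ _, rfl⟩)) f,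
    avgF_split (L.tris W) (fun τ => key L W M R (lift τ)) K
      (fun τ => Finset.mem_union_right _ (Finset.mem_image.2 ⟨τ, Finset.mem_univ _, rfl⟩))
      (fun τ => f (lift τ))]
  refine Finset.sum_congr rfl fun k hk => ?_
  obtain ⟨ω₀, hkey, hlt⟩ :
      ∃ ω₀, key L W M R ω₀ = k ∧ ∀ e ∈ Q L W M R ω₀, ω₀ e < M := by
    rcases Finset.mem_union.1 hk with hk | hk <;> obtain ⟨τ, -, rfl⟩ := Finset.mem_image.1 hk
    · exact ⟨_, rfl, fun e he => ext_lt τ (Q_subset M R _ he)⟩
    · exact ⟨_, rfl, fun e he => ext_lt τ (mem_edgesAt.1 (mem_Q.1 he).2.2).2.1⟩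
  subst hkey
  have pt : ∀ ω, ind (key L W M R ω = key L W M R ω₀) * f ω
      = f ω₀ * ind (∀ e ∈ Q L W M R ω₀, ω e = ω₀ e) := by
    intro ω
    rw [ind_congr key_eq_iff]
    by_cases h : ∀ e ∈ Q L W M R ω₀, ω e = ω₀ e
    · rw [hdet ω₀ ω h, mul_comm]
    · rw [ind_false h, zero_mul, mul_zero]
  simp only [pt]
  rw [avgF_mul_left, avgF_mul_left]
  by_cases hb : Bad L W M R ω₀
  · rw [hbad _ hb, zero_mul, zero_mul]
  · congr 1
    exact cylinder_eq hM (Q_subset M R ω₀) (injOn_of_not_bad hb) ω₀ hlt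

/-- The slot model and the forest differ by at most the probability of a collision. -/
theorem slotP_sub_prod_le (hM : 0 < M) {R : Finset α} (hR : R ⊆ W) :
    |L.slotP W M (fun τ => ∀ a ∈ R, L.alive W τ M a) - ∏ a ∈ R, L.surv W M M ∅ a|
      ≤ treeP L W M (Bad L W M R) := by
  let V : (Crd α → ℕ) → Prop := fun ω => ∀ a ∈ R, talive L W ω M (a, [])
  have hbadst : ∀ ω ω', (∀ e ∈ Q L W M R ω, ω' e = ω e) →
      (Bad L W M R ω' ↔ Bad L W M R ω) := by
    intro ω ω' h
    unfold Bad
    rw [Q_stable h]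
  have hVst : ∀ ω ω', (∀ e ∈ Q L W M R ω, ω' e = ω e) → (V ω' ↔ V ω) := fun ω ω' h =>
    forall₂_congr fun a ha => talive_stable h ha (hR ha)
  have h1 := avgF_lift (L := L) (W := W) hM R (f := fun ω => ind (¬Bad L W M R ω ∧ V ω))
    (fun ω ω' h => ind_congr (and_congr (not_congr (hbadst ω ω' h)) (hVst ω ω' h)))
    (fun ω h => ind_false fun h' => h'.1 h)
  have h2 := avgF_lift (L := L) (W := W) hM R (f := fun ω => ind (¬Bad L W M R ω))
    (fun ω ω' h => ind_congr (not_congr (hbadst ω ω' h)))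
    (fun ω h => ind_false fun h' => h' h)
  simp only [ind_not] at h2
  rw [avgF_sub, avgF_sub, avgF_const hM, avgF_const hM] at h2
  have hV : treeP L W M V = ∏ a ∈ R, L.surv W M M ∅ a := by
    unfold treeP prob
    simp only [V, ind_forall]
    rw [avgF_prod hM R (F := fun a ω => ind (talive L W ω M (a, [])))
      (S := fun a => Below ((a, []) : Node α))
      (fun a _ ω ω' h => ind_congr (talive_congr M _ h))
      (fun a _ b _ hne e he he' => hne (he.1.symm.trans he'.1))]
    exact Finset.prod_congr rfl fun a ha =>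
      treeP_talive (j := M) (p := (a, [])) hM le_rfl (hR ha) (by simp; omega)
  have hre : L.slotP W M (fun τ => ∀ a ∈ R, L.alive W τ M a)
      = avgF (L.tris W) M (fun τ => ind (V (lift τ))) := by
    rw [slotP_eq_prob, prob]
    congr 1
    funext τ
    exact ind_congr (forall₂_congr fun a _ => (talive_lift_root τ M a).symm)
  rw [hre, ← hV, treeP, prob]
  have key : ∀ ω, ind (¬Bad L W M R ω ∧ V ω) ≤ ind (V ω) ∧
      ind (V ω) ≤ ind (¬Bad L W M R ω ∧ V ω) + ind (Bad L W M R ω) := by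
    intro ω
    refine ⟨ind_mono And.right, ?_⟩
    by_cases hb : Bad L W M R ω
    · rw [ind_true hb, ind_false (fun h : ¬Bad L W M R ω ∧ V ω => h.1 hb), zero_add]
      exact ind_le_one _
    · rw [ind_false hb, add_zero]
      exact ind_mono fun h => ⟨hb, h⟩
  have a1 := avgF_mono (I := idx L W M) (M := M) fun ω _ => (key ω).1
  have a2 := (avgF_mono (I := idx L W M) (M := M) fun ω _ => (key ω).2).trans_eq avgF_add
  have b1 := avgF_mono (I := L.tris W) (M := M) fun τ _ => (key (lift τ)).1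
  have b2 := (avgF_mono (I := L.tris W) (M := M) fun τ _ => (key (lift τ)).2).trans_eq avgF_add
  show |_ - _| ≤ avgF (idx L W M) M fun ω => ind (Bad L W M R ω)
  rw [abs_sub_le_iff]
  constructor <;> linarith

/-- A node looked at from `a` lies on the edge `t`. -/
def Hit (L : LH α) (W : Finset α) (M : ℕ) (a : α) (t : Finset α) (ω : Crd α → ℕ) : Prop :=
  ∃ f ∈ t, Reach L W M a f ω

theorem depOn_hit (a : α) (t : Finset α) :
    DepOn (fun ω => Hit L W M a t ω) (Below ((a, []) : Node α)) := by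
  intro ω ω' h
  refine propext (exists_congr fun f => and_congr_right fun _ => exists_congr fun p =>
    and_congr_right fun hp => and_congr_left' (rel_root_dep ?_))
  subst hp
  exact h

theorem bad_pair_le (hM : 0 < M) {a b : α} (hab : a ≠ b) :
    treeP L W M (Bad L W M {a, b})
      ≤ treeP L W M (Bad L W M {a}) + treeP L W M (Bad L W M {b})
        + ∑ t ∈ L.tris W, treeP L W M (Hit L W M a t) * treeP L W M (Hit L W M b t) := by
  refine (prob_mono (Q := fun ω => (Bad L W M {a} ω ∨ Bad L W M {b} ω) ∨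
    ∃ t ∈ L.tris W, Hit L W M a t ω ∧ Hit L W M b t ω) fun ω _ hb => ?_).trans ?_
  · obtain ⟨e, he, e', he', hne, heq⟩ := hb
    obtain ⟨her, hep, hee⟩ := mem_Q.1 he
    obtain ⟨he'r, he'p, he'e⟩ := mem_Q.1 he'
    have same : ∀ c : α, e.1.1 = c → e'.1.1 = c → Bad L W M {c} ω := fun c h1 h2 =>
      ⟨e, mem_Q.2 ⟨Finset.mem_singleton.2 h1, hep, hee⟩, e',
        mem_Q.2 ⟨Finset.mem_singleton.2 h2, he'p, he'e⟩, hne, heq⟩
    have hit : ∀ (c : α) (d : Crd α), d.1.1 = c → Rel L W M ω d.1 → d.2 ∈ edgesAt L W d.1 →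
        d.2 = e.2 → Hit L W M c e.2 ω := fun c d h1 h2 h3 h4 =>
      ⟨cur d.1, h4 ▸ (mem_edgesAt.1 h3).2.2, d.1, h1, h2, rfl⟩
    simp only [Finset.mem_insert, Finset.mem_singleton] at her he'r
    rcases her with her | her <;> rcases he'r with he'r | he'r
    · exact Or.inl (Or.inl (same a her he'r))
    · exact Or.inr ⟨e.2, (mem_edgesAt.1 hee).2.1, hit a e her hep hee rfl,
        hit b e' he'r he'p he'e heq.symm⟩
    · exact Or.inr ⟨e.2, (mem_edgesAt.1 hee).2.1, hit a e' he'r he'p he'e heq.symm,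
        hit b e her hep hee rfl⟩
    · exact Or.inl (Or.inr (same b her he'r))
  refine (prob_or_le _ _).trans (add_le_add (prob_or_le _ _) ?_)
  refine (prob_exists_le _ _).trans (le_of_eq (Finset.sum_congr rfl fun t _ => ?_))
  exact prob_and hM (depOn_hit a t) fun ω ω' h =>
    depOn_hit b t ω ω' fun e he => h e fun he' => hab (he'.1.symm.trans he.1)

theorem collErr_mono {u : ℝ} (hu : 1 ≤ u) {C D : ℕ} (h : C ≤ D) :
    L.collErr W M u C ≤ L.collErr W M u D := by
  have hl : 0 ≤ Real.log (1 + 2 * u) := Real.log_nonneg (by linarith)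
  unfold LH.collErr
  refine mul_le_mul (pow_le_pow_right₀ hu h) (Finset.sum_le_sum fun l _ => ?_)
    (Finset.sum_nonneg fun l _ => by positivity) (by positivity)
  gcongr

/-- Part III from its path half. -/
theorem coupling_of_paths (hP : PathsStmt) : LH.CouplingStmt := by
  obtain ⟨C, hC⟩ := hP
  refine ⟨2 * C + 6, fun α _ L W M u hu hM hdeg hsurv => ?_⟩
  have hH : Hyp L W M u := ⟨hu, hM, hdeg, hsurv⟩
  have hM0 := hH.M_pos
  obtain ⟨hbad, hreach⟩ := hC α L W M u hu hM hdeg hsurv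
  have hu1 : (1 : ℝ) ≤ u := by linarith
  have hbad' : ∑ a ∈ W, treeP L W M (Bad L W M {a}) ≤ L.collErr W M u (2 * C + 6) :=
    hbad.trans (collErr_mono hu1 (by omega))
  refine ⟨le_trans (Finset.sum_le_sum fun a ha => ?_) hbad', ?_⟩
  · have h1 := slotP_sub_prod_le (L := L) hM0 (R := {a}) (Finset.singleton_subset_iff.2 ha)
    simpa using h1
  let B : α → ℝ := fun a => treeP L W M (Bad L W M {a})
  let H : α → Finset α → ℝ := fun a t => treeP L W M (Hit L W M a t)
  have hB0 : ∀ a, 0 ≤ B a := fun a => prob_nonneg _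
  have hH0 : ∀ a t, 0 ≤ H a t := fun a t => prob_nonneg _
  have hpair : ∀ a ∈ W, ∀ b ∈ W,
      |L.slotP W M (fun τ => L.alive W τ M a ∧ L.alive W τ M b)
          - L.surv W M M ∅ a * L.surv W M M ∅ b|
        ≤ B a + B b + ∑ t ∈ L.tris W, H a t * H b t + if a = b then 1 else 0 := by
    intro a ha b hb
    have hs : 0 ≤ ∑ t ∈ L.tris W, H a t * H b t :=
      Finset.sum_nonneg fun t _ => mul_nonneg (hH0 a t) (hH0 b t)
    split
    · have h1 : 0 ≤ L.slotP W M (fun τ => L.alive W τ M a ∧ L.alive W τ M b) := by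
        rw [slotP_eq_prob]; exact prob_nonneg _
      have h2 : L.slotP W M (fun τ => L.alive W τ M a ∧ L.alive W τ M b) ≤ 1 := by
        rw [slotP_eq_prob]; exact prob_le_one hM0 _
      obtain ⟨h3, h4⟩ := surv_mem_unit (L := L) (W := W) M le_rfl ∅ a
      obtain ⟨h5, h6⟩ := surv_mem_unit (L := L) (W := W) M le_rfl ∅ b
      have h7 := mul_le_one₀ h4 h5 h6
      have h8 := mul_nonneg h3 h5
      have := hB0 a; have := hB0 b
      rw [abs_sub_le_iff]; constructor <;> linarith
    · rename_i hab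
      have h1 := slotP_sub_prod_le (L := L) hM0 (R := {a, b})
        (Finset.insert_subset ha (Finset.singleton_subset_iff.2 hb))
      simp only [Finset.prod_pair hab, Finset.forall_mem_insert, Finset.mem_singleton,
        forall_eq] at h1
      rw [add_zero]
      exact h1.trans (bad_pair_le hM0 hab)
  refine (Finset.sum_le_sum fun a ha => Finset.sum_le_sum fun b hb => hpair a ha b hb).trans ?_
  have hT : ∀ t ∈ L.tris W, ∑ a ∈ W, H a t ≤ 3 * u ^ C := by
    intro t ht
    calc ∑ a ∈ W, H a t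
        ≤ ∑ a ∈ W, ∑ f ∈ t, treeP L W M (Reach L W M a f) :=
          Finset.sum_le_sum fun a _ => prob_exists_le _ _
      _ = ∑ f ∈ t, ∑ a ∈ W, treeP L W M (Reach L W M a f) := Finset.sum_comm
      _ ≤ ∑ f ∈ t, u ^ C :=
          Finset.sum_le_sum fun f hf => hreach f ((LH.mem_tris.1 ht).2 hf)
      _ = 3 * u ^ C := by rw [Finset.sum_const, LH.card_tri ht, nsmul_eq_mul]; norm_num
  have hcard : ((L.tris W).card : ℝ) ≤ 2 * u * W.card := by
    have hsub : L.tris W ⊆ W.biUnion fun a => L.star W a := fun t ht => by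
      obtain ⟨a, ha⟩ := Finset.card_pos.1 (by rw [LH.card_tri ht]; norm_num : 0 < t.card)
      exact Finset.mem_biUnion.2 ⟨a, (LH.mem_tris.1 ht).2 ha, Finset.mem_filter.2 ⟨ht, ha⟩⟩
    calc ((L.tris W).card : ℝ) ≤ ∑ a ∈ W, ((L.star W a).card : ℝ) := by
          exact_mod_cast (Finset.card_le_card hsub).trans Finset.card_biUnion_le
      _ ≤ ∑ a ∈ W, 2 * u := Finset.sum_le_sum fun a ha => by
          rw [← LH.deg_eq]; exact hdeg a ha
      _ = _ := by rw [Finset.sum_const, nsmul_eq_mul]; ring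
  have hmeet : ∑ a ∈ W, ∑ b ∈ W, ∑ t ∈ L.tris W, H a t * H b t
      ≤ 18 * u ^ (2 * C + 1) * W.card := by
    calc ∑ a ∈ W, ∑ b ∈ W, ∑ t ∈ L.tris W, H a t * H b t
        = ∑ a ∈ W, ∑ t ∈ L.tris W, H a t * ∑ b ∈ W, H b t :=
          Finset.sum_congr rfl fun a _ => by rw [Finset.sum_comm]; simp only [← Finset.mul_sum]
      _ = ∑ t ∈ L.tris W, (∑ a ∈ W, H a t) * ∑ b ∈ W, H b t := by
          rw [Finset.sum_comm]; simp only [← Finset.sum_mul]
      _ ≤ ∑ t ∈ L.tris W, (3 * u ^ C) * (3 * u ^ C) := Finset.sum_le_sum fun t ht =>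
          mul_le_mul (hT t ht) (hT t ht) (Finset.sum_nonneg fun a _ => hH0 a t) (by positivity)
      _ = ((L.tris W).card : ℝ) * (9 * u ^ (2 * C)) := by
          rw [Finset.sum_const, nsmul_eq_mul]; ring
      _ ≤ 2 * u * W.card * (9 * u ^ (2 * C)) := mul_le_mul_of_nonneg_right hcard (by positivity)
      _ = _ := by ring
  have hfin : (18 * u ^ (2 * C + 1) + 1) * (W.card : ℝ) ≤ u ^ (2 * C + 6) * W.card := by
    refine mul_le_mul_of_nonneg_right ?_ (Nat.cast_nonneg _)
    have h5 : (32 : ℝ) ≤ u ^ 5 := le_trans (by norm_num) (pow_le_pow_left₀ (by norm_num) hu 5)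
    have h1 : (1 : ℝ) ≤ u ^ (2 * C + 1) := one_le_pow₀ hu1
    calc 18 * u ^ (2 * C + 1) + 1 ≤ u ^ 5 * u ^ (2 * C + 1) := by nlinarith
      _ = _ := by rw [← pow_add]; congr 1; omega
  have hW : (0 : ℝ) ≤ W.card := Nat.cast_nonneg _
  have hce : 0 ≤ L.collErr W M u (2 * C + 6) :=
    le_trans (Finset.sum_nonneg fun a _ => hB0 a) hbad'
  simp only [Finset.sum_add_distrib]
  have hd : ∑ a ∈ W, ∑ b ∈ W, (if a = b then (1 : ℝ) else 0) = W.card := by
    rw [Finset.sum_congr rfl (g := fun _ => (1 : ℝ)) fun a ha => by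
      rw [Finset.sum_ite_eq, if_pos ha]]
    simp
  simp only [Finset.sum_const, nsmul_eq_mul, ← Finset.mul_sum, hd]
  have hBs : ∑ a ∈ W, B a ≤ L.collErr W M u (2 * C + 6) := hbad'
  nlinarith [mul_le_mul_of_nonneg_left hBs hW, mul_nonneg hW hce]

end P046.Tree
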