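import Vale.Agent.P046.Full.PathsMean
import Vale.Agent.P046.Full.TreeCouple

/-!
P046, part III: `PathsStmt`, that is, the collisions seen from the roots and the nodes reached are
few on average.
-/

namespace P046.Tree

open Finset Matrix

variable {α : Type} [DecidableEq α] {L : LH α} {W : Finset α} {M : ℕ} {u a : ℝ}

/-- The steps with the tail and edge of `ρ`. -/
def At (ρ : L.St W) : Finset (L.St W) :=
  Finset.univ.filter fun e => e.tl = ρ.tl ∧ e.tri = ρ.tri

/-- The pairs that split at one edge, summed over the further edges. -/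
noncomputable def LX (a u : ℝ) (M : ℕ) (S : Finset (L.St W)) : ℝ :=
  ∑ t ∈ L.tris W, ((∑ ρ ∈ S, L.Vt W t ρ) * (∑ ρ ∈ S, (L.Bm W *ᵥ L.Zt W a u M t) ρ)
    + ∑ ρ ∈ S, ∑ ρ' ∈ S, ∑ σ, ∑ τ, L.Bm W ρ σ * L.Bm W ρ' τ
        * (ind (σ.tri ≠ τ.tri) * (L.Zt W a u M t σ * L.Zt W a u M t τ)))

theorem Zt_nonneg (ha : 0 ≤ a) (hu : 0 ≤ u) (N : ℕ) (t : Finset α) (e : L.St W) :
    0 ≤ L.Zt W a u N t e :=
  Finset.sum_nonneg fun p _ => mul_nonneg (LH.om_nonneg ha hu p)
    (Finset.sum_nonneg fun g _ => mul_nonneg (LH.pow_nn p e g) (LH.Vt_nn t g))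

theorem BZ_nonneg (ha : 0 ≤ a) (hu : 0 ≤ u) (N : ℕ) (t : Finset α) (e : L.St W) :
    0 ≤ (L.Bm W *ᵥ L.Zt W a u N t) e :=
  Finset.sum_nonneg fun g _ => mul_nonneg (LH.Bm_nn e g) (Zt_nonneg ha hu N t g)

theorem LX_nonneg (ha : 0 ≤ a) (hu : 0 ≤ u) (S : Finset (L.St W)) : 0 ≤ LX a u M S :=
  Finset.sum_nonneg fun t _ => add_nonneg
    (mul_nonneg (Finset.sum_nonneg fun e _ => LH.Vt_nn t e)
      (Finset.sum_nonneg fun e _ => BZ_nonneg ha hu M t e))
    (Finset.sum_nonneg fun _ _ => Finset.sum_nonneg fun _ _ => Finset.sum_nonneg fun σ _ =>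
      Finset.sum_nonneg fun τ _ => mul_nonneg (mul_nonneg (LH.Bm_nn _ _) (LH.Bm_nn _ _))
        (mul_nonneg (ind_nonneg _) (mul_nonneg (Zt_nonneg ha hu M t σ) (Zt_nonneg ha hu M t τ))))

theorem ind_count_ch {c : Crd α} (hc : VC L W c) (t : Finset α) :
    ∑ d ∈ ch L W c, ind (d.2 = t) ≤ ∑ ρ ∈ Atc L W c, L.Vt W t ρ := by
  by_cases h : ∃ d ∈ ch L W c, d.2 = t
  · obtain ⟨d, hd, hdt⟩ := h
    rw [Finset.sum_eq_single_of_mem d hd fun e he hne =>
      ind_false fun het => hne (ch_edge_inj hc he hd (het.trans hdt.symm)), ind_true hdt]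
    obtain ⟨hk, he⟩ := mem_ch.1 hd
    obtain ⟨x, hx, hq⟩ := mem_kids.1 hk
    have hm := mem_edgesAt.1 he
    rw [← hq, exc_child, cur_child, hdt] at hm
    have hρ : (cur c.1, c.2, x) ∈ L.steps W := LH.mem_steps.2 ⟨(mem_edgesAt.1 hc.2).2.1,
      (mem_edgesAt.1 hc.2).2.2, Finset.mem_of_mem_erase hx, Ne.symm (Finset.ne_of_mem_erase hx)⟩
    refine le_trans (le_of_eq ?_) (Finset.single_le_sum (fun e _ => LH.Vt_nn t e)
      (mem_Atc.2 ⟨rfl, rfl⟩ : (⟨_, hρ⟩ : L.St W) ∈ Atc L W c))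
    exact (if_pos ⟨hm.2.2, hm.1⟩).symm
  · push Not at h
    rw [Finset.sum_eq_zero fun d hd => ind_false (h d hd)]
    exact Finset.sum_nonneg fun e _ => LH.Vt_nn t e

theorem cnt_mean_le (h : Hyp L W M u) (ha : Kb M u M ≤ a) (t : Finset α) {d : Crd α}
    (hd : VC L W d) (hl : d.1.2.length ≤ 2 * M) :
    avgF (idx L W M) M (fun ω => cnt L W t (ω d) d ω) ≤ ∑ e ∈ Atc L W d, L.Zt W a u M t e := by
  have hu := h.u_pos
  have hM := h.M_pos
  rw [avgF_slot hM (vc_idx hd (by omega)) (fun i => cnt L W t i d) fun i => depOn_cnt t i d]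
  calc ∑ i ∈ range M, 1 / (M : ℝ) * avgF (idx L W M) M (cnt L W t i d)
      ≤ ∑ i ∈ range M, 1 / (M : ℝ) * ∑ e ∈ Atc L W d, L.Zt W a u M t e := by
        refine Finset.sum_le_sum fun i hi => mul_le_mul_of_nonneg_left ?_ (by positivity)
        rw [Finset.mem_range] at hi
        unfold cnt
        refine (gen_le h (base := fun c _ => ∑ e ∈ ch L W c, ind (e.2 = t))
          (fun _ _ => Finset.sum_nonneg fun _ _ => ind_nonneg _)
          (fun _ _ _ _ => rfl) (LH.Vt_nn t) (D := 3 * M) le_rfl (fun c hc _ => ?_) i hi.le d hd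
          (by omega)).trans ?_
        · show avgF (idx L W M) M (fun _ => ∑ e ∈ ch L W c, ind (e.2 = t)) ≤ _
          rw [avgF_const hM]
          exact ind_count_ch hc t
        refine Finset.sum_le_sum fun e _ => ?_
        have hnn : ∀ l, 0 ≤ (L.Bm W ^ l *ᵥ L.Vt W t) e := fun l =>
          Finset.sum_nonneg fun g _ => mul_nonneg (LH.pow_nn l e g) (LH.Vt_nn t g)
        refine (Finset.sum_le_sum fun l _ => mul_le_mul_of_nonneg_right (LH.om_mono
          (Kb_nonneg hu.le i) ((Kb_mono hu.le hi.le).trans ha) hu.le l) (hnn l)).trans ?_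
        exact Finset.sum_le_sum_of_subset_of_nonneg (Finset.range_mono hi) fun l _ _ =>
          mul_nonneg (LH.om_nonneg (le_trans (Kb_nonneg hu.le M) ha) hu.le l) (hnn l)
    _ = _ := by
        rw [Finset.sum_const, Finset.card_range, nsmul_eq_mul]
        field_simp

theorem loc_mean_le (h : Hyp L W M u) (ha : Kb M u M ≤ a) {S : Finset (Crd α)}
    (hS : ∀ d ∈ S, VC L W d ∧ d.1.2.length ≤ 2 * M)
    (hdisj : ∀ d ∈ S, ∀ d' ∈ S, d ≠ d' → ∀ e ∈ Behind d.1 d.2, e ∉ Behind d'.1 d'.2) :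
    avgF (idx L W M) M (loc L W S) ≤ ∑ t ∈ L.tris W,
      ((∑ d ∈ S, ind (d.2 = t)) * (∑ d ∈ S, ∑ e ∈ Atc L W d, L.Zt W a u M t e)
        + ∑ p ∈ S.offDiag, (∑ e ∈ Atc L W p.1, L.Zt W a u M t e)
            * ∑ e ∈ Atc L W p.2, L.Zt W a u M t e) := by
  show avgF (idx L W M) M (fun ω => loc L W S ω) ≤ _
  unfold loc
  rw [avgF_sum]
  refine Finset.sum_le_sum fun t _ => ?_
  rw [avgF_add, avgF_mul_left, avgF_sum, avgF_sum]
  refine add_le_add (mul_le_mul_of_nonneg_left
    (Finset.sum_le_sum fun d hd => cnt_mean_le h ha t (hS d hd).1 (hS d hd).2)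
    (Finset.sum_nonneg fun _ _ => ind_nonneg _)) (Finset.sum_le_sum fun p hp => ?_)
  rw [Finset.mem_offDiag] at hp
  rw [avgF_mul h.M_pos (S := Behind p.1.1 p.1.2) (depOn_cnt_slot t p.1) fun ω ω' hω =>
    depOn_cnt_slot t p.2 ω ω' fun e he => hω e fun he' => hdisj _ hp.1 _ hp.2.1 hp.2.2 e he' he]
  exact mul_le_mul (cnt_mean_le h ha t (hS _ hp.1).1 (hS _ hp.1).2)
    (cnt_mean_le h ha t (hS _ hp.2.1).1 (hS _ hp.2.1).2)
    (avgF_nonneg fun ω => cnt_nonneg _ _ _ _)
    (Finset.sum_nonneg fun e _ =>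
      Zt_nonneg (le_trans (Kb_nonneg h.u_pos.le M) ha) h.u_pos.le M t e)

theorem ch_disjoint {c : Crd α} {d d' : Crd α} (hd : d ∈ ch L W c)
    (hd' : d' ∈ ch L W c) (hne : d ≠ d') : ∀ e ∈ Behind d.1 d.2, e ∉ Behind d'.1 d'.2 := by
  intro e he he'
  by_cases h : d.1 = d'.1
  · exact behind_disjoint (fun h2 => hne (Prod.ext h h2)) he (h ▸ he')
  · exact below_kids_disjoint (mem_ch.1 hd).1 (mem_ch.1 hd').1 h (behind_subset _ _ he)
      (behind_subset _ _ he')

theorem pairs_flatten {κ ν : Type*} (S : Finset κ) (A : κ → Finset ν) (g : ν → ν → ℝ) :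
    ∑ p ∈ S ×ˢ S, ∑ σ ∈ A p.1, ∑ τ ∈ A p.2, g σ τ
      = ∑ d ∈ S, ∑ σ ∈ A d, ∑ d' ∈ S, ∑ τ ∈ A d', g σ τ := by
  rw [Finset.sum_product]
  refine Finset.sum_congr rfl fun d _ => ?_
  dsimp only
  exact Finset.sum_comm

theorem loc_ch_le (h : Hyp L W M u) (ha : Kb M u M ≤ a) {c : Crd α} (hc : VC L W c)
    (hl : c.1.2.length ≤ M) :
    avgF (idx L W M) M (fun ω => loc L W (ch L W c) ω) ≤ LX a u M (Atc L W c) := by
  have hM := h.M_pos
  refine (loc_mean_le h ha (fun d hd => ⟨(vc_ch hc hd).1, by rw [(vc_ch hc hd).2]; omega⟩)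
    fun d hd d' hd' => ch_disjoint hd hd').trans ?_
  refine Finset.sum_le_sum fun t _ => ?_
  have ha0 : 0 ≤ a := le_trans (Kb_nonneg h.u_pos.le M) ha
  refine add_le_add ?_ ?_
  · rw [sum_ch hc]
    exact mul_le_mul_of_nonneg_right (ind_count_ch hc t)
      (Finset.sum_nonneg fun e _ => BZ_nonneg ha0 h.u_pos.le M t e)
  set Z := L.Zt W a u M t
  calc ∑ p ∈ (ch L W c).offDiag, (∑ e ∈ Atc L W p.1, Z e) * ∑ e ∈ Atc L W p.2, Z e
      ≤ ∑ p ∈ ch L W c ×ˢ ch L W c, ∑ σ ∈ Atc L W p.1, ∑ τ ∈ Atc L W p.2,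
          ind (σ.tri ≠ τ.tri) * (Z σ * Z τ) := by
        refine le_trans (le_of_eq ?_) (Finset.sum_le_sum_of_subset_of_nonneg
          (s := (ch L W c).offDiag) (fun p hp => ?_) fun p _ _ => Finset.sum_nonneg fun σ _ => Finset.sum_nonneg fun τ _ =>
            mul_nonneg (ind_nonneg _) (mul_nonneg (Zt_nonneg ha0 h.u_pos.le M t σ)
              (Zt_nonneg ha0 h.u_pos.le M t τ)))
        · refine Finset.sum_congr rfl fun p hp => ?_
          rw [Finset.mem_offDiag] at hp
          rw [Finset.sum_mul_sum]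
          refine Finset.sum_congr rfl fun σ hσ => Finset.sum_congr rfl fun τ hτ => ?_
          rw [mem_Atc] at hσ hτ
          rw [ind_true (show σ.tri ≠ τ.tri by
            rw [hσ.2, hτ.2]; exact fun h2 => hp.2.2 (ch_edge_inj hc hp.1 hp.2.1 h2)), one_mul]
        · rw [Finset.mem_offDiag] at hp
          exact Finset.mem_product.2 ⟨hp.1, hp.2.1⟩
    _ = ∑ d ∈ ch L W c, ∑ σ ∈ Atc L W d,
          ∑ ρ' ∈ Atc L W c, (L.Bm W *ᵥ fun τ => ind (σ.tri ≠ τ.tri) * (Z σ * Z τ)) ρ' := by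
        rw [pairs_flatten (ch L W c) (Atc L W) fun σ τ => ind (σ.tri ≠ τ.tri) * (Z σ * Z τ)]
        exact Finset.sum_congr rfl fun d _ => Finset.sum_congr rfl fun σ _ =>
          sum_ch hc fun τ => ind (σ.tri ≠ τ.tri) * (Z σ * Z τ)
    _ = _ := by
        rw [sum_ch hc]
        simp only [Matrix.mulVec, dotProduct, Finset.mul_sum]
        refine Finset.sum_congr rfl fun ρ _ => ?_
        rw [Finset.sum_comm]
        exact Finset.sum_congr rfl fun ρ' _ => Finset.sum_congr rfl fun σ _ =>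
          Finset.sum_congr rfl fun τ _ => by ring

theorem Atc_eq_At {c : Crd α} {ρ : L.St W} (h : ρ ∈ Atc L W c) : Atc L W c = At ρ := by
  rw [mem_Atc] at h
  ext e
  simp [mem_Atc, At, h.1, h.2]

theorem pr_mean_le (h : Hyp L W M u) (ha : Kb M u M ≤ a) {d : Crd α} (hd : VC L W d)
    (hl : d.1.2.length = 0) :
    avgF (idx L W M) M (fun ω => pr L W (ω d) d ω)
      ≤ ∑ e ∈ Atc L W d, ∑ l ∈ range M,
          LH.om a u l * (L.Bm W ^ l *ᵥ fun ρ => LX a u M (At ρ)) e := by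
  have hu := h.u_pos
  have hM := h.M_pos
  have ha0 : 0 ≤ a := le_trans (Kb_nonneg hu.le M) ha
  have hV : ∀ ρ : L.St W, 0 ≤ LX a u M (At ρ) := fun ρ => LX_nonneg ha0 hu.le _
  rw [avgF_slot hM (vc_idx hd (by omega)) (fun i => pr L W i d) fun i =>
    depOn_gen (fun c => depOn_loc c) i d]
  calc ∑ i ∈ range M, 1 / (M : ℝ) * avgF (idx L W M) M (pr L W i d)
      ≤ ∑ i ∈ range M, 1 / (M : ℝ) * ∑ e ∈ Atc L W d, ∑ l ∈ range M,
          LH.om a u l * (L.Bm W ^ l *ᵥ fun ρ => LX a u M (At ρ)) e := by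
        refine Finset.sum_le_sum fun i hi => mul_le_mul_of_nonneg_left ?_ (by positivity)
        rw [Finset.mem_range] at hi
        refine (gen_le h (fun c ω => loc_nonneg _ ω) depOn_loc hV (by omega : M ≤ 3 * M)
          (fun c hc hcl => ?_) i hi.le d hd (by omega)).trans ?_
        · refine (loc_ch_le h ha hc hcl).trans ?_
          obtain ⟨ρ, hρ⟩ := Atc_nonempty hc
          rw [Atc_eq_At hρ]
          exact Finset.single_le_sum (f := fun ρ => LX a u M (At ρ)) (fun e _ => hV e)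
            (Atc_eq_At hρ ▸ hρ)
        refine Finset.sum_le_sum fun e _ => ?_
        have hnn : ∀ l, 0 ≤ (L.Bm W ^ l *ᵥ fun ρ => LX a u M (At ρ)) e := fun l =>
          Finset.sum_nonneg fun g _ => mul_nonneg (LH.pow_nn l e g) (hV g)
        refine (Finset.sum_le_sum fun l _ => mul_le_mul_of_nonneg_right (LH.om_mono
          (Kb_nonneg hu.le i) ((Kb_mono hu.le hi.le).trans ha) hu.le l) (hnn l)).trans ?_
        exact Finset.sum_le_sum_of_subset_of_nonneg (Finset.range_mono hi) fun l _ _ =>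
          mul_nonneg (LH.om_nonneg ha0 hu.le l) (hnn l)
    _ = _ := by
        rw [Finset.sum_const, Finset.card_range, nsmul_eq_mul]
        field_simp

theorem At_card_le (ρ : L.St W) : (At ρ).card ≤ 2 := by
  refine (Finset.card_le_card_of_injOn (t := ρ.tri.erase ρ.tl) LH.St.hd ?_ ?_).trans ?_
  · intro e he
    simp only [At, Finset.coe_filter, Finset.mem_univ, true_and, Set.mem_ofPred_eq] at he
    rw [Finset.mem_coe, Finset.mem_erase, ← he.1, ← he.2]
    exact ⟨e.prop.2.2.2.symm, e.prop.2.2.1⟩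
  · intro e he f hf h
    simp only [At, Finset.coe_filter, Finset.mem_univ, true_and, Set.mem_ofPred_eq] at he hf
    exact LH.St.ext' (he.1.trans hf.1.symm) (he.2.trans hf.2.symm) h
  · rw [Finset.card_erase_of_mem ρ.prop.2.1, LH.card_tri ρ.prop.1]

theorem at_pair {F : L.St W → L.St W → ℝ} (hF : ∀ e f, 0 ≤ F e f) :
    ∑ ρ₀ : L.St W, ∑ ρ ∈ At ρ₀, ∑ ρ' ∈ At ρ₀, F ρ ρ' ≤ 2 * ∑ ρ, ∑ ρ', L.R0 W ρ ρ' * F ρ ρ' := by
  rw [Finset.sum_comm' (t' := Finset.univ) (s' := fun ρ => At ρ) (h := fun ρ₀ ρ => by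
    simp only [At, Finset.mem_filter, Finset.mem_univ, true_and, and_true]
    exact ⟨fun h => ⟨h.1.symm, h.2.symm⟩, fun h => ⟨h.1.symm, h.2.symm⟩⟩), Finset.mul_sum]
  refine Finset.sum_le_sum fun ρ _ => ?_
  calc ∑ ρ₀ ∈ At ρ, ∑ ρ' ∈ At ρ₀, F ρ ρ'
      = ∑ ρ₀ ∈ At ρ, ∑ ρ' ∈ At ρ, F ρ ρ' := by
        refine Finset.sum_congr rfl fun ρ₀ h₀ => Finset.sum_congr ?_ fun _ _ => rfl
        simp only [At, Finset.mem_filter, Finset.mem_univ, true_and] at h₀ ⊢
        rw [h₀.1, h₀.2]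
    _ ≤ 2 * ∑ ρ' ∈ At ρ, F ρ ρ' := by
        rw [Finset.sum_const, nsmul_eq_mul]
        exact mul_le_mul_of_nonneg_right (by exact_mod_cast At_card_le ρ)
          (Finset.sum_nonneg fun e _ => hF ρ e)
    _ ≤ 2 * ∑ ρ', L.R0 W ρ ρ' * F ρ ρ' := by
        refine mul_le_mul_of_nonneg_left ?_ (by norm_num)
        refine (Finset.sum_le_sum fun ρ' hρ' => ?_).trans (Finset.sum_le_sum_of_subset_of_nonneg
          (Finset.subset_univ _) fun e _ _ => mul_nonneg (LH.R0_nn ρ e) (hF ρ e))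
        refine le_mul_of_one_le_left (hF ρ ρ') ?_
        simp only [At, Finset.mem_filter, Finset.mem_univ, true_and] at hρ'
        rw [LH.R0, Matrix.add_apply]
        by_cases he : ρ = ρ'
        · subst he
          rw [Matrix.one_apply_eq]
          have := LH.mul_nn (LH.mul_nn LH.Jm_nn LH.Sm_nn) LH.Jm_nn ρ ρ
          simp only [Matrix.zero_apply] at this
          linarith
        · rw [Matrix.one_apply_ne he, zero_add, LH.mul_Jm, LH.Jm_mul, LH.Sm, if_pos]
          exact ⟨hρ'.2.symm, hρ'.1.symm, fun h => he (by simpa using congrArg LH.St.rev h)⟩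

theorem kernel_le (hu : 1 ≤ u) (hdeg : ∀ x ∈ W, (L.deg W x : ℝ) ≤ 2 * u) (σ τ : L.St W) :
    ind (σ.tri ≠ τ.tri) * ((L.Bm W).transpose * L.R0 W * L.Bm W) σ τ
      ≤ 4 * u * L.Rb W σ τ := by
  have hRb : 0 ≤ L.Rb W σ τ := LH.Rb_nn σ τ
  by_cases hne : σ.tri ≠ τ.tri
  · rw [ind_true hne, one_mul, LH.R0, mul_add, mul_one, add_mul, Matrix.add_apply, LH.Rb,
      Matrix.add_apply, mul_add]
    refine add_le_add ?_ ?_
    · have e1 : (L.Bm W).transpose * L.Bm W
          = L.Jm W * (L.Bm W * (L.Bm W).transpose) * L.Jm W := by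
        rw [LH.Bm_transpose]; simp only [mul_assoc, LH.Jm_Jm, mul_one]
      rw [e1, LH.mul_Jm, LH.Jm_mul]
      refine (LH.mul_transpose_le hu hdeg σ.rev τ.rev).trans (le_of_eq ?_)
      rw [Matrix.smul_apply, Matrix.add_apply, Matrix.add_apply, smul_eq_mul, LH.mul_Jm,
        Matrix.one_apply_ne (fun h => hne (congrArg LH.St.tri (by
          simpa using congrArg LH.St.rev h))), LH.Jm_mul,
        LH.St.rev_rev, show L.Sm W σ.rev τ.rev = 0 from if_neg fun h => hne h.1]
      ring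
    · have e2 : (L.Bm W).transpose * (L.Jm W * L.Sm W * L.Jm W) * L.Bm W
          = L.Jm W * (L.Bm W * (L.Sm W * L.Jm W) * L.Bm W) := by
        rw [LH.Bm_transpose]; simp only [mul_assoc, LH.JJ_cancel]
      rw [e2, LH.Jm_mul, mul_assoc (L.Jm W), LH.Jm_mul]
      exact (LH.Bm_SJ_Bm_le σ.rev τ).trans
        (le_mul_of_one_le_left (LH.mul_nn LH.Bm_nn LH.Bm_nn σ.rev τ) (by linarith))
  · rw [ind_false hne, zero_mul]
    exact mul_nonneg (by linarith) hRb

theorem sum_LX_le (ha : 1 ≤ a) (hu : 1 ≤ u) (hdeg : ∀ x ∈ W, (L.deg W x : ℝ) ≤ 2 * u) :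
    ∑ ρ₀ : L.St W, LX a u M (At ρ₀)
      ≤ 1568 * u ^ 5 * Real.exp (16 * a) * L.psi W (4 * a) u (2 * M + 3) := by
  have ha0 : (0:ℝ) ≤ a := by linarith
  have hu0 : (0:ℝ) ≤ u := by linarith
  unfold LX
  rw [Finset.sum_comm]
  calc ∑ t ∈ L.tris W, ∑ ρ₀ : L.St W, ((∑ ρ ∈ At ρ₀, L.Vt W t ρ)
          * (∑ ρ ∈ At ρ₀, (L.Bm W *ᵥ L.Zt W a u M t) ρ)
        + ∑ ρ ∈ At ρ₀, ∑ ρ' ∈ At ρ₀, ∑ σ, ∑ τ, L.Bm W ρ σ * L.Bm W ρ' τ
            * (ind (σ.tri ≠ τ.tri) * (L.Zt W a u M t σ * L.Zt W a u M t τ)))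
      ≤ ∑ t ∈ L.tris W, (2 * (∑ e, ∑ f,
            L.R0 W e f * ((L.Bm W *ᵥ L.Zt W a u M t) e * L.Vt W t f))
          + 8 * u * ∑ σ, ∑ τ, L.Rb W σ τ * (L.Zt W a u M t σ * L.Zt W a u M t τ)) := by
        refine Finset.sum_le_sum fun t _ => ?_
        rw [Finset.sum_add_distrib]
        refine add_le_add ?_ ?_
        · refine le_trans (le_of_eq (Finset.sum_congr rfl fun ρ₀ _ => ?_))
            (at_pair fun e f => mul_nonneg (BZ_nonneg ha0 hu0 M t e) (LH.Vt_nn t f))
          rw [mul_comm, Finset.sum_mul_sum]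
        · have hnn : ∀ ρ ρ' : L.St W, 0 ≤ ∑ σ, ∑ τ, L.Bm W ρ σ * L.Bm W ρ' τ
              * (ind (σ.tri ≠ τ.tri) * (L.Zt W a u M t σ * L.Zt W a u M t τ)) := fun ρ ρ' =>
            Finset.sum_nonneg fun σ _ => Finset.sum_nonneg fun τ _ =>
              mul_nonneg (mul_nonneg (LH.Bm_nn _ _) (LH.Bm_nn _ _))
                (mul_nonneg (ind_nonneg _) (mul_nonneg (Zt_nonneg ha0 hu0 M t σ)
                  (Zt_nonneg ha0 hu0 M t τ)))
          refine (at_pair hnn).trans ?_
          calc 2 * ∑ ρ, ∑ ρ', L.R0 W ρ ρ' * ∑ σ, ∑ τ, L.Bm W ρ σ * L.Bm W ρ' τ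
                * (ind (σ.tri ≠ τ.tri) * (L.Zt W a u M t σ * L.Zt W a u M t τ))
              = 2 * ∑ σ, ∑ τ, ind (σ.tri ≠ τ.tri) * ((L.Bm W).transpose * L.R0 W * L.Bm W) σ τ
                  * (L.Zt W a u M t σ * L.Zt W a u M t τ) := by
                congr 1
                simp only [Matrix.mul_apply, Matrix.transpose_apply, Finset.mul_sum, Finset.sum_mul]
                rw [Finset.sum_congr rfl fun ρ _ => Finset.sum_comm, Finset.sum_comm]
                refine Finset.sum_congr rfl fun σ _ => ?_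
                rw [Finset.sum_congr rfl fun ρ _ => Finset.sum_comm, Finset.sum_comm]
                refine Finset.sum_congr rfl fun τ _ => ?_
                rw [Finset.sum_comm]
                exact Finset.sum_congr rfl fun ρ' _ => Finset.sum_congr rfl fun ρ _ => by ring
            _ ≤ 2 * ∑ σ, ∑ τ, 4 * u * L.Rb W σ τ * (L.Zt W a u M t σ * L.Zt W a u M t τ) :=
                mul_le_mul_of_nonneg_left (Finset.sum_le_sum fun σ _ => Finset.sum_le_sum
                  fun τ _ => mul_le_mul_of_nonneg_right (kernel_le hu hdeg σ τ)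
                    (mul_nonneg (Zt_nonneg ha0 hu0 M t σ) (Zt_nonneg ha0 hu0 M t τ)))
                  (by norm_num)
            _ = _ := by
                simp only [Finset.mul_sum]
                exact Finset.sum_congr rfl fun σ _ => Finset.sum_congr rfl fun τ _ => by ring
    _ ≤ _ := by
        rw [Finset.sum_add_distrib, ← Finset.mul_sum, ← Finset.mul_sum]
        have h1 := LH.lolly_sum (L := L) (W := W) ha hu hdeg M
        have h2 := mul_le_mul_of_nonneg_left (LH.branch_sum (L := L) (W := W) ha hu hdeg M)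
          (by linarith : 0 ≤ 8 * u)
        linarith

theorem stem_sum_le (ha : 0 ≤ a) (hu : 1 ≤ u) (hdeg : ∀ x ∈ W, (L.deg W x : ℝ) ≤ 2 * u)
    {V : L.St W → ℝ} (hV : ∀ e, 0 ≤ V e) :
    ∑ e, ∑ l ∈ range M, LH.om a u l * (L.Bm W ^ l *ᵥ V) e ≤ Real.exp (4 * a) * ∑ e, V e := by
  rw [Finset.sum_comm]
  calc ∑ l ∈ range M, ∑ e, LH.om a u l * (L.Bm W ^ l *ᵥ V) e
      ≤ ∑ l ∈ range M, LH.om a u l * (4 * u) ^ l * ∑ e, V e := by
        refine Finset.sum_le_sum fun l _ => ?_
        rw [← Finset.mul_sum, mul_assoc]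
        exact mul_le_mul_of_nonneg_left (LH.pow_mulVec_col hu hdeg hV l)
          (LH.om_nonneg ha (by linarith) l)
    _ ≤ _ := by
        rw [← Finset.sum_mul]
        exact mul_le_mul_of_nonneg_right (LH.stem_le ha (by linarith) M)
          (Finset.sum_nonneg fun e _ => hV e)

theorem roots_count (b : α) (t : Finset α) :
    ∑ d ∈ roots L W b, ind (d.2 = t) ≤ ind (b ∈ t) := by
  by_cases h : ∃ d ∈ roots L W b, d.2 = t
  · obtain ⟨d, hd, hdt⟩ := h
    obtain ⟨h1, h2⟩ := mem_roots.1 hd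
    rw [Finset.sum_eq_single_of_mem d hd fun e he hne => ind_false fun het =>
      hne (Prod.ext ((mem_roots.1 he).1.trans h1.symm) (het.trans hdt.symm)), ind_true hdt,
      ind_true (hdt ▸ (Finset.mem_filter.1 h2).2)]
  · push Not at h
    rw [Finset.sum_eq_zero fun d hd => ind_false (h d hd)]
    exact ind_nonneg _

theorem sum_tl (G : L.St W → ℝ) :
    ∑ b ∈ W, ∑ e : L.St W, (if e.tl = b then G e else 0) = ∑ e, G e := by
  rw [Finset.sum_comm]
  exact Finset.sum_congr rfl fun e _ => by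
    rw [Finset.sum_ite_eq, if_pos ((LH.mem_tris.1 e.prop.1).2 e.prop.2.1)]

theorem roots_disjoint {b : α} {d d' : Crd α} (hd : d ∈ roots L W b) (hd' : d' ∈ roots L W b)
    (hne : d ≠ d') : ∀ e ∈ Behind d.1 d.2, e ∉ Behind d'.1 d'.2 := fun e he he' => by
  have h := (mem_roots.1 hd).1.trans (mem_roots.1 hd').1.symm
  exact behind_disjoint (fun h2 => hne (Prod.ext h h2)) he (h ▸ he')

theorem prRoot_mean_le (h : Hyp L W M u) (ha : Kb M u M ≤ a) {b : α} (hb : b ∈ W) :
    avgF (idx L W M) M (prRoot L W b) ≤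
      ∑ t ∈ L.tris W, (∑ e : L.St W, (if e.tl = b then
            (if e.tl ∈ t then 1 else 0) * L.Zt W a u M t e else 0)
          + ∑ e : L.St W, (if e.tl = b then
              ∑ f : L.St W, L.Rb W e f * (L.Zt W a u M t e * L.Zt W a u M t f) else 0))
      + ∑ e : L.St W, (if e.tl = b then ∑ l ∈ range M,
          LH.om a u l * (L.Bm W ^ l *ᵥ fun ρ => LX a u M (At ρ)) e else 0) := by
  have hu := h.u_pos
  have ha0 : 0 ≤ a := le_trans (Kb_nonneg hu.le M) ha
  show avgF (idx L W M) M (fun ω => prRoot L W b ω) ≤ _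
  unfold prRoot
  rw [avgF_add, avgF_sum]
  refine add_le_add ?_ ((Finset.sum_le_sum fun d hd =>
    pr_mean_le h ha (vc_roots hb hd).1 (vc_roots hb hd).2).trans_eq (sum_roots b _))
  refine (loc_mean_le h ha (fun d hd => ⟨(vc_roots hb hd).1, by rw [(vc_roots hb hd).2]; omega⟩)
    fun d hd d' hd' => roots_disjoint hd hd').trans ?_
  refine Finset.sum_le_sum fun t _ => ?_
  have hZ : ∀ e : L.St W, 0 ≤ L.Zt W a u M t e := Zt_nonneg ha0 hu.le M t
  refine add_le_add ?_ ?_
  · rw [sum_roots]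
    refine (mul_le_mul_of_nonneg_right (roots_count b t) (Finset.sum_nonneg fun e _ => ?_)).trans
      (le_of_eq ?_)
    · split_ifs
      · exact hZ e
      · exact le_rfl
    rw [Finset.mul_sum]
    refine Finset.sum_congr rfl fun e _ => ?_
    by_cases he : e.tl = b
    · rw [if_pos he, if_pos he, he]
      by_cases hbt : b ∈ t <;> simp [ind, hbt]
    · rw [if_neg he, if_neg he, mul_zero]
  · calc ∑ p ∈ (roots L W b).offDiag,
          (∑ e ∈ Atc L W p.1, L.Zt W a u M t e) * ∑ e ∈ Atc L W p.2, L.Zt W a u M t e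
        ≤ ∑ p ∈ roots L W b ×ˢ roots L W b, ∑ e ∈ Atc L W p.1, ∑ f ∈ Atc L W p.2,
            L.Rb W e f * (L.Zt W a u M t e * L.Zt W a u M t f) := by
          refine le_trans (Finset.sum_le_sum fun p hp => ?_)
            (Finset.sum_le_sum_of_subset_of_nonneg (fun p hp => ?_) fun p _ _ =>
              Finset.sum_nonneg fun e _ => Finset.sum_nonneg fun f _ =>
                mul_nonneg (LH.Rb_nn e f) (mul_nonneg (hZ e) (hZ f)))
          · rw [Finset.mem_offDiag] at hp
            rw [Finset.sum_mul_sum]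
            refine Finset.sum_le_sum fun e he => Finset.sum_le_sum fun f hf => ?_
            rw [mem_Atc] at he hf
            refine le_mul_of_one_le_left (mul_nonneg (hZ e) (hZ f)) ?_
            have h1 : p.1.1 = p.2.1 := (mem_roots.1 hp.1).1.trans (mem_roots.1 hp.2.1).1.symm
            have hJB : (L.Jm W * L.Bm W) e f = 1 := by
              rw [LH.Jm_mul]
              exact if_pos ⟨by rw [LH.St.rev_hd, he.1, hf.1, h1],
                by rw [LH.St.rev_tri, he.2, hf.2]; exact fun h2 => hp.2.2 (Prod.ext h1 h2)⟩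
            have hJBB := LH.mul_nn (LH.mul_nn LH.Jm_nn LH.Bm_nn) LH.Bm_nn e f
            simp only [Matrix.zero_apply] at hJBB
            rw [LH.Rb, Matrix.add_apply, hJB]
            linarith
          · rw [Finset.mem_offDiag] at hp
            exact Finset.mem_product.2 ⟨hp.1, hp.2.1⟩
      _ = ∑ d ∈ roots L W b, ∑ e ∈ Atc L W d, ∑ f : L.St W, (if f.tl = b then
            L.Rb W e f * (L.Zt W a u M t e * L.Zt W a u M t f) else 0) := by
          rw [pairs_flatten (roots L W b) (Atc L W)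
            fun e f => L.Rb W e f * (L.Zt W a u M t e * L.Zt W a u M t f)]
          exact Finset.sum_congr rfl fun d _ => Finset.sum_congr rfl fun e _ =>
            sum_roots b fun f => L.Rb W e f * (L.Zt W a u M t e * L.Zt W a u M t f)
      _ ≤ _ := by
          rw [sum_roots]
          refine Finset.sum_le_sum fun e _ => ?_
          split_ifs with he
          · refine Finset.sum_le_sum fun f _ => ?_
            split_ifs
            · exact le_rfl
            · exact mul_nonneg (LH.Rb_nn e f) (mul_nonneg (hZ e) (hZ f))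
          · exact le_rfl

theorem bad_sum_le (h : Hyp L W M u) (ha : Kb M u M ≤ a) (ha1 : 1 ≤ a) :
    ∑ b ∈ W, treeP L W M (Bad L W M {b})
      ≤ 2000 * u ^ 5 * Real.exp (20 * a) * L.psi W (4 * a) u (2 * M + 3) := by
  have hu : 1 ≤ u := by linarith [h.two_le]
  have hdeg := h.deg_le
  have ha0 : 0 ≤ a := by linarith
  refine (Finset.sum_le_sum fun b hb => (avgF_mono fun ω _ => bad_le_prRoot hb).trans
    (prRoot_mean_le h ha hb)).trans ?_
  rw [Finset.sum_add_distrib, sum_tl, Finset.sum_comm]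
  simp only [Finset.sum_add_distrib, sum_tl]
  have hV : ∀ ρ : L.St W, 0 ≤ LX a u M (At ρ) := fun ρ => LX_nonneg ha0 (by linarith) _
  have h1 := LH.root_sum (L := L) (W := W) ha1 hu hdeg M
  have h2 := LH.branch_sum (L := L) (W := W) ha1 hu hdeg M
  have h3 := (stem_sum_le (M := M) ha0 hu hdeg hV).trans
    (mul_le_mul_of_nonneg_left (sum_LX_le ha1 hu hdeg) (Real.exp_nonneg _))
  have hψ := LH.psi_nonneg' (L := L) (W := W) (by linarith : 0 ≤ 4 * a)
    (by linarith : 0 ≤ u) (2 * M + 3)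
  set ψ := L.psi W (4 * a) u (2 * M + 3)
  have he : Real.exp (4 * a) * Real.exp (16 * a) = Real.exp (20 * a) := by
    rw [← Real.exp_add]; congr 1; ring
  have he2 : Real.exp (16 * a) ≤ Real.exp (20 * a) := Real.exp_le_exp.2 (by linarith)
  have hu45 : u ^ 4 ≤ u ^ 5 := pow_le_pow_right₀ hu (by norm_num)
  have h4 : u ^ 4 * Real.exp (16 * a) * ψ ≤ u ^ 5 * Real.exp (20 * a) * ψ :=
    mul_le_mul_of_nonneg_right (mul_le_mul hu45 he2 (Real.exp_nonneg _) (by positivity)) hψ
  have h5 : Real.exp (4 * a) * (1568 * u ^ 5 * Real.exp (16 * a) * ψ)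
      = 1568 * (u ^ 5 * Real.exp (20 * a) * ψ) := by rw [← he]; ring
  have h6 : 0 ≤ u ^ 5 * Real.exp (20 * a) * ψ := by positivity
  linarith

theorem sum_Vt_le (hdeg : ∀ x ∈ W, (L.deg W x : ℝ) ≤ 2 * u) (hu : 0 ≤ u) {t : Finset α}
    (ht : t ∈ L.tris W) : ∑ e : L.St W, L.Vt W t e ≤ 12 * u := by
  calc ∑ e : L.St W, L.Vt W t e ≤ ∑ e : L.St W, (if e.hd ∈ t then (1:ℝ) else 0) :=
        Finset.sum_le_sum fun e _ => by
          unfold LH.Vt
          by_cases h : e.hd ∈ t ∧ t ≠ e.tri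
          · rw [if_pos h, if_pos h.1]
          · rw [if_neg h]; split_ifs <;> norm_num
    _ = ∑ x ∈ t, ∑ e : L.St W, (if e.hd = x then (1:ℝ) else 0) := by
        rw [Finset.sum_comm]
        exact Finset.sum_congr rfl fun e _ => by rw [Finset.sum_ite_eq]
    _ ≤ ∑ _x ∈ t, 4 * u := by
        refine Finset.sum_le_sum fun x hx => ?_
        by_cases h : ∃ e : L.St W, e.hd = x
        · obtain ⟨e₀, he₀⟩ := h
          rw [Finset.sum_boole]
          set S := Finset.univ.filter fun e : L.St W => e.hd = x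
          have h1 : S.card ≤ ((L.star W x).sigma fun r => r.erase x).card := by
            refine Finset.card_le_card_of_injOn (fun c => ⟨c.tri, c.tl⟩) (fun c hc => ?_) ?_
            · simp only [S, Finset.coe_filter, Finset.mem_univ, true_and, Set.mem_ofPred_eq] at hc
              simp only [Finset.mem_coe, Finset.mem_sigma, LH.star, Finset.mem_filter,
                Finset.mem_erase]
              exact ⟨⟨c.prop.1, hc ▸ c.prop.2.2.1⟩, hc ▸ c.prop.2.2.2, c.prop.2.1⟩
            · intro c hc d hd h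
              simp only [S, Finset.coe_filter, Finset.mem_univ, true_and, Set.mem_ofPred_eq] at hc hd
              simp only [Sigma.mk.injEq, heq_eq_eq] at h
              exact LH.St.ext' h.2 h.1 (hc.trans hd.symm)
          have h2 : ((L.star W x).sigma fun r => r.erase x).card = 2 * L.deg W x := by
            rw [Finset.card_sigma, Finset.sum_congr rfl fun r hr => by
              rw [Finset.card_erase_of_mem (Finset.mem_filter.1 hr).2,
                LH.card_tri (Finset.mem_filter.1 hr).1],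
              Finset.sum_const, smul_eq_mul, LH.deg_eq, mul_comm]
          have h3 : (S.card : ℝ) ≤ 2 * L.deg W x := by exact_mod_cast h2 ▸ h1
          linarith [hdeg x ((LH.mem_tris.1 ht).2 hx)]
        · push Not at h
          rw [Finset.sum_eq_zero fun e _ => if_neg (h e)]
          linarith
    _ = _ := by
        rw [Finset.sum_const, LH.card_tri ht, nsmul_eq_mul]; ring

theorem reach_sum_le (h : Hyp L W M u) (ha : Kb M u M ≤ a) {f : α} (hf : f ∈ W) :
    ∑ b ∈ W, treeP L W M (Reach L W M b f) ≤ 31 * u ^ 2 * Real.exp (4 * a) := by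
  have hu : 1 ≤ u := by linarith [h.two_le]
  have hM := h.M_pos
  have ha0 : 0 ≤ a := le_trans (Kb_nonneg h.u_pos.le M) ha
  have hb : ∀ b ∈ W, treeP L W M (Reach L W M b f) ≤ ind (b = f) + ∑ t ∈ L.star W f,
      (ind (b ∈ t) + ∑ e : L.St W, (if e.tl = b then L.Zt W a u M t e else 0)) := by
    intro b hb
    unfold treeP prob
    refine (avgF_mono (g := fun ω => ind (b = f) + ∑ t ∈ L.star W f, cntRoot L W t b ω)
      fun ω _ => reach_le_cntRoot).trans ?_
    rw [avgF_add, avgF_const hM, avgF_sum]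
    refine add_le_add le_rfl (Finset.sum_le_sum fun t _ => ?_)
    unfold cntRoot
    rw [avgF_add, avgF_const hM, avgF_sum, ← sum_roots]
    exact add_le_add (roots_count b t) (Finset.sum_le_sum fun d hd =>
      cnt_mean_le h ha t (vc_roots hb hd).1 (by rw [(vc_roots hb hd).2]; omega))
  refine (Finset.sum_le_sum hb).trans ?_
  rw [Finset.sum_add_distrib, Finset.sum_comm (t := L.star W f)]
  simp only [Finset.sum_add_distrib, sum_tl]
  have h1 : ∑ b ∈ W, ind (b = f) = 1 := by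
    rw [Finset.sum_eq_single_of_mem f hf fun b _ hbf => ind_false hbf, ind_true rfl]
  have hs : ((L.star W f).card : ℝ) ≤ 2 * u := h.deg_le f hf
  have h2 : ∀ t ∈ L.star W f, ∑ b ∈ W, ind (b ∈ t) ≤ 3 := by
    intro t ht
    have ht' := (Finset.mem_filter.1 ht).1
    rw [← Finset.sum_subset (LH.mem_tris.1 ht').2 fun b _ hbt => ind_false hbt,
      Finset.sum_congr rfl fun b hbt => ind_true hbt, Finset.sum_const, LH.card_tri ht']
    norm_num
  have h3 : ∀ t ∈ L.star W f,
      ∑ e, L.Zt W a u M t e ≤ Real.exp (4 * a) * (12 * u) := fun t ht =>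
    (stem_sum_le (M := M) ha0 hu h.deg_le (LH.Vt_nn t)).trans (mul_le_mul_of_nonneg_left
      (sum_Vt_le h.deg_le (by linarith) (Finset.mem_filter.1 ht).1) (Real.exp_nonneg _))
  have h2' := Finset.sum_le_sum h2
  have h3' := Finset.sum_le_sum h3
  rw [Finset.sum_const, nsmul_eq_mul] at h2' h3'
  have he : 1 ≤ Real.exp (4 * a) := Real.one_le_exp (by linarith)
  have hu2 : u ≤ u ^ 2 := by nlinarith
  have hue : u ≤ u ^ 2 * Real.exp (4 * a) := by nlinarith [mul_le_mul hu2 he zero_le_one (sq_nonneg u)]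
  have hcard : ((L.star W f).card : ℝ) * (Real.exp (4 * a) * (12 * u))
      ≤ 2 * u * (Real.exp (4 * a) * (12 * u)) :=
    mul_le_mul_of_nonneg_right hs (by positivity)
  have h4 : ∑ t ∈ L.star W f, ∑ b ∈ W, ind (b ∈ t) ≤ 6 * u := by linarith
  nlinarith

/-- The path half of part III. -/
theorem paths : PathsStmt := by
  refine ⟨70000, fun α _ L W M u hu hM hdeg hsurv => ?_⟩
  have h : Hyp L W M u := ⟨hu, hM, hdeg, hsurv⟩
  set lg := Real.log (1 + 2 * u) with hlg
  have hlg1 : 1 ≤ lg := by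
    rw [hlg, Real.le_log_iff_exp_le (by linarith)]
    exact le_trans Real.exp_one_lt_d9.le (by linarith)
  have hK := Kb_le_log h
  have hexp : ∀ k : ℕ, Real.exp ((k : ℝ) * lg) ≤ u ^ (3 * k) := by
    intro k
    rw [Real.exp_nat_mul, hlg, Real.exp_log (by linarith), pow_mul]
    exact pow_le_pow_left₀ (by linarith)
      (by nlinarith [mul_le_mul hu hu (by norm_num) (by linarith : (0:ℝ) ≤ u)]) k
  have hcl : L.psi W (4 * (1000 * lg)) u (2 * M + 3) ≤ ∑ l ∈ Finset.Ico 2 (2 * M + 3),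
      ((70000 : ℕ) : ℝ) ^ 0 * ((((70000 : ℕ) : ℝ) * lg) ^ l / l.factorial
        * ((L.closed W l).card / u ^ l)) := by
    refine Finset.sum_le_sum fun l hl => ?_
    rw [Finset.mem_Ico] at hl
    rw [pow_zero, one_mul]
    calc LH.om (4 * (1000 * lg)) u l * L.tw W l
        ≤ LH.om (((70000 : ℕ) : ℝ) * lg) u l * (L.closed W l).card :=
          mul_le_mul (LH.om_mono (by linarith) (by push_cast; linarith) (by linarith) l)
            (LH.tw_le_closed (by omega)) (LH.tw_nonneg l)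
            (LH.om_nonneg (by positivity) (by linarith) l)
      _ = _ := by rw [LH.om]; field_simp
  simp only [pow_zero, one_mul] at hcl
  constructor
  · refine (bad_sum_le h hK (by linarith)).trans ?_
    unfold LH.collErr
    refine mul_le_mul ?_ hcl (LH.psi_nonneg' (by positivity) (by linarith) _) (by positivity)
    have e1 : Real.exp (20 * (1000 * lg)) ≤ u ^ 60000 := by
      have := hexp 20000
      rwa [show (((20000 : ℕ) : ℝ) * lg) = 20 * (1000 * lg) by push_cast; ring] at this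
    have e2 : (2000 : ℝ) ≤ u ^ 11 :=
      le_trans (by norm_num) (pow_le_pow_left₀ (by norm_num) hu 11)
    calc 2000 * u ^ 5 * Real.exp (20 * (1000 * lg)) ≤ u ^ 11 * u ^ 5 * u ^ 60000 := by gcongr
      _ ≤ u ^ 70000 := by
          rw [← pow_add, ← pow_add]
          exact pow_le_pow_right₀ (by linarith) (by omega)
  · intro f hf
    refine (reach_sum_le h hK hf).trans ?_
    have e1 : Real.exp (4 * (1000 * lg)) ≤ u ^ 12000 := by
      have := hexp 4000
      rwa [show (((4000 : ℕ) : ℝ) * lg) = 4 * (1000 * lg) by push_cast; ring] at this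
    have e2 : (31 : ℝ) ≤ u ^ 5 :=
      le_trans (by norm_num) (pow_le_pow_left₀ (by norm_num) hu 5)
    calc 31 * u ^ 2 * Real.exp (4 * (1000 * lg)) ≤ u ^ 5 * u ^ 2 * u ^ 12000 := by gcongr
      _ ≤ u ^ 70000 := by
          rw [← pow_add, ← pow_add]
          exact pow_le_pow_right₀ (by linarith) (by omega)

/-- Part III. -/
theorem coupling : LH.CouplingStmt := coupling_of_paths paths

end P046.Tree
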