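import Vale.Agent.P046.Full.TreeSurv

/-!
P046, part III: segments. A segment is a path down from a base with decreasing slots, the nodes of
every intermediate edge uncovered up to the next slot. Its probability is at most
`3u (A log(1+2u) / u) ^ r / r!`.
-/

namespace P046.Tree

open Finset

variable {α : Type} [DecidableEq α]

/-- The node reached from `q` by the steps `l`, newest first. -/
def nd (q : Node α) (l : List (Finset α × α)) : Node α := (q.1, l ++ q.2)

omit [DecidableEq α] in
theorem nd_cons (q : Node α) (r : Finset α) (x : α) (l : List (Finset α × α)) :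
    nd q ((r, x) :: l) = child (nd q l) r x := rfl

variable (L : LH α) (W : Finset α)

/-- The path `l` from `q` looks as a path to a node looked at, between its own ends. -/
def Seg (ω : Crd α → ℕ) (q : Node α) : List (Finset α × α) → Prop
  | [] => True
  | [_] => True
  | (r, _) :: (s, y) :: l => Seg ω q ((s, y) :: l) ∧
      ω (nd q ((s, y) :: l), r) < ω (nd q l, s) ∧
      ∀ z ∈ s.erase (cur (nd q l)),
        aliveX L W (if z = y then {r} else ∅) ω (ω (nd q ((s, y) :: l), r)) (child (nd q l) s z)

variable {L W} {M : ℕ}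

/-- The coordinates on which a segment depends. -/
def SegSet (q : Node α) : List (Finset α × α) → Set (Crd α)
  | [] => ∅
  | (r, _) :: l => {e | e ∈ Below q ∧ ∀ z, e ∉ Below (child (nd q l) r z)}

omit [DecidableEq α] in
theorem below_nd_subset (q : Node α) (l : List (Finset α × α)) : Below (nd q l) ⊆ Below q :=
  fun _ he => ⟨he.1, (List.suffix_append l q.2).trans he.2⟩

omit [DecidableEq α] in
theorem segSet_subset (q : Node α) : ∀ l : List (Finset α × α), SegSet q l ⊆ Below q
  | [] => Set.empty_subset _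
  | (_, _) :: _ => fun _ he => he.1

omit [DecidableEq α] in
theorem coord_mem_segSet (q : Node α) (r : Finset α) (x : α) (l : List (Finset α × α)) :
    (nd q l, r) ∈ SegSet q ((r, x) :: l) :=
  ⟨below_nd_subset q l (self_mem_below _ r), fun z => self_notMem_below_child _ _ _ z⟩

omit [DecidableEq α] in
theorem segSet_cons_subset (q : Node α) (r : Finset α) (x : α) (s : Finset α) (y : α)
    (l : List (Finset α × α)) : SegSet q ((s, y) :: l) ⊆ SegSet q ((r, x) :: (s, y) :: l) := by
  rintro e ⟨h1, h2⟩
  refine ⟨h1, fun z hz => h2 y ?_⟩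
  exact below_child_subset (nd q ((s, y) :: l)) r z hz

theorem aliveX_congr_behind {X : Finset (Finset α)} {j : ℕ} {p : Node α} {ω ω' : Crd α → ℕ}
    (h : ∀ r ∈ edgesAt L W p \ X, ∀ e ∈ Behind p r, ω e = ω' e) :
    aliveX L W X ω j p ↔ aliveX L W X ω' j p := by
  refine forall₂_congr fun r hr => ?_
  rw [← h r hr _ (Or.inl rfl)]
  refine imp_congr_right fun _ => not_congr (forall₂_congr fun x _ => ?_)
  exact talive_congr _ _ fun e he => h r hr e (Or.inr ⟨x, he⟩)

theorem depOn_seg (q : Node α) : ∀ l : List (Finset α × α),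
    DepOn (fun ω => Seg L W ω q l) (SegSet q l)
  | [] => fun _ _ _ => rfl
  | [_] => fun _ _ _ => rfl
  | (r, x) :: (s, y) :: l => by
    intro ω ω' h
    have h1 := depOn_seg q ((s, y) :: l) ω ω' fun e he => h e (segSet_cons_subset q r x s y l he)
    have h2 : ω (nd q ((s, y) :: l), r) = ω' (nd q ((s, y) :: l), r) :=
      h _ (coord_mem_segSet q r x _)
    have h3 : ω (nd q l, s) = ω' (nd q l, s) :=
      h _ (segSet_cons_subset q r x s y l (coord_mem_segSet q s y l))
    show (Seg L W ω q ((r, x) :: (s, y) :: l)) = Seg L W ω' q ((r, x) :: (s, y) :: l)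
    simp only [Seg]
    rw [show Seg L W ω q ((s, y) :: l) = Seg L W ω' q ((s, y) :: l) from h1, h2, h3]
    refine propext (and_congr_right fun _ => and_congr_right fun _ => forall₂_congr fun z _ => ?_)
    refine aliveX_congr_behind fun r' hr' e he => h e ⟨?_, fun w hw => ?_⟩
    · refine below_nd_subset q l (below_child_subset _ s z ?_)
      exact behind_subset _ _ he
    · have hzc : e ∈ Below (child (nd q l) s z) := behind_subset _ _ he
      have hyc : e ∈ Below (child (nd q l) s y) := below_child_subset _ r w hw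
      obtain ⟨-, hzy⟩ := below_child_inj hzc hyc
      rw [if_pos hzy, Finset.mem_sdiff, Finset.mem_singleton] at hr'
      subst hzy
      exact behind_disjoint hr'.2 he (Or.inr ⟨w, hw⟩)

theorem seg_of_rel {ω : Crd α → ℕ} {q : Node α} : ∀ l : List (Finset α × α),
    Rel L W M ω (nd q l) → Seg L W ω q l
  | [], _ => trivial
  | [_], _ => trivial
  | (r, x) :: (s, y) :: l, h => by
    rw [nd_cons, rel_child] at h
    obtain ⟨hp, -, -, hlt, hB⟩ := h
    refine ⟨seg_of_rel _ hp, ?_, fun z hz => ?_⟩
    · rwa [nd_cons q s y l, bound_child] at hlt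
    · rw [nd_cons q s y l, both_child] at hB
      have := hB z hz
      rw [talive_iff] at this
      exact fun r' hr' => this r' (Finset.mem_sdiff.1 hr').1

namespace Hyp

variable {u : ℝ} (h : Hyp L W M u)

/-- The constant of the segment weights. -/
def segA : ℝ := 576

/-- The weight of one step at slot `t`. -/
noncomputable def wgt (M : ℕ) (u : ℝ) (t : ℕ) : ℝ := segA / (M * (1 + 2 * u * t / M))

/-- The weight of the slots after `t`. -/
noncomputable def tail (M : ℕ) (u : ℝ) (t : ℕ) : ℝ := ∑ i ∈ Finset.Ico t M, wgt M u i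

include h in
theorem wgt_nonneg (t : ℕ) : 0 ≤ wgt M u t := by
  have := h.u_pos
  rw [wgt, segA]; positivity

include h in
theorem one_div_le_wgt {t : ℕ} (ht : t < M) : 1 / (M : ℝ) ≤ 3 * u / segA * wgt M u t := by
  have hu := h.two_le
  have hM : (0 : ℝ) < M := by exact_mod_cast h.M_pos
  have ht' : 2 * u * t / M ≤ 2 * u := by
    rw [div_le_iff₀ hM]
    exact mul_le_mul_of_nonneg_left (by exact_mod_cast ht.le) (by linarith)
  have h1 : 0 ≤ 2 * u * (t : ℝ) / M := by positivity
  have h2 : 3 * u / segA * wgt M u t = 3 * u / (1 + 2 * u * t / M) / M := by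
    rw [wgt, segA]
    generalize 2 * u * (t : ℝ) / M = v at ht' h1 ⊢
    have : (1 + v) ≠ 0 := by linarith
    field_simp
  rw [h2]
  exact div_le_div_of_nonneg_right ((one_le_div (by linarith)).2 (by linarith)) hM.le

include h in
theorem tail_nonneg (t : ℕ) : 0 ≤ tail M u t := Finset.sum_nonneg fun i _ => h.wgt_nonneg i

include h in
theorem tail_zero_le : tail M u 0 ≤ segA * Real.log (1 + 2 * u) / u := by
  have hu := h.two_le
  have hu0 := h.u_pos
  have hM : (0 : ℝ) < M := by exact_mod_cast h.M_pos
  let f : ℕ → ℝ := fun t => Real.log (1 + 2 * u * t / M) / (2 * u)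
  have hstep : ∀ t ∈ Finset.range (M - 1),
      1 / (M * (1 + 2 * u * ((t + 1 : ℕ) : ℝ) / M)) ≤ f (t + 1) - f t := by
    intro t _
    simp only [f]
    have ha : 0 < 1 + 2 * u * ((t + 1 : ℕ) : ℝ) / M := by positivity
    have hb : 0 < 1 + 2 * u * (t : ℝ) / M := by positivity
    rw [← sub_div, ← Real.log_div ha.ne' hb.ne', le_div_iff₀ (by positivity)]
    refine le_trans (le_of_eq ?_) (Real.one_sub_inv_le_log_of_pos (div_pos ha hb))
    rw [inv_div]
    field_simp
    push_cast
    ring
  have hsum : ∑ i ∈ Finset.range M, 1 / ((M : ℝ) * (1 + 2 * u * i / M))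
      ≤ Real.log (1 + 2 * u) / u := by
    obtain ⟨m, hm⟩ : ∃ m, M = m + 1 := ⟨M - 1, by have := h.M_pos; omega⟩
    have h1 : ∑ i ∈ Finset.range m, 1 / ((M : ℝ) * (1 + 2 * u * ((i + 1 : ℕ) : ℝ) / M))
        ≤ f m - f 0 :=
      (Finset.sum_le_sum fun t ht => hstep t (by rw [hm]; simpa using ht)).trans_eq
        (Finset.sum_range_sub f m)
    have h2 : f m ≤ Real.log (1 + 2 * u) / (2 * u) := by
      refine div_le_div_of_nonneg_right ?_ (by positivity)
      refine Real.log_le_log (by positivity) ?_
      gcongr 1 + ?_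
      rw [div_le_iff₀ hM]
      exact mul_le_mul_of_nonneg_left (by rw [hm]; simp) (by positivity)
    have h3 : f 0 = 0 := by simp [f]
    have h4 : 1 / (M : ℝ) ≤ Real.log (1 + 2 * u) / (2 * u) := by
      have hl : 1 / 2 ≤ Real.log (1 + 2 * u) := by
        refine le_trans ?_ (Real.one_sub_inv_le_log_of_pos (by linarith))
        have : (1 + 2 * u)⁻¹ ≤ 1 / 2 := by
          rw [one_div]; exact inv_anti₀ (by norm_num) (by linarith)
        linarith
      have hc : u ^ 3 ≤ M := h.cube_le
      rw [div_le_div_iff₀ hM (by positivity)]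
      calc 1 * (2 * u) ≤ 1 / 2 * u ^ 3 := by
            nlinarith [mul_le_mul hu hu (by norm_num) hu0.le]
        _ ≤ _ := mul_le_mul hl hc (by positivity) (by linarith)
    have hs := Finset.sum_range_succ' (fun i : ℕ => 1 / ((M : ℝ) * (1 + 2 * u * i / M))) m
    rw [← hm] at hs
    rw [hs]
    simp only [Nat.cast_zero, mul_zero, zero_div, add_zero, mul_one]
    calc _ ≤ Real.log (1 + 2 * u) / (2 * u) + Real.log (1 + 2 * u) / (2 * u) := by linarith
      _ = _ := by ring
  rw [tail, Nat.Ico_zero_eq_range, mul_div_assoc,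
    Finset.sum_congr rfl (g := fun i : ℕ => segA * (1 / ((M : ℝ) * (1 + 2 * u * i / M))))
      (fun i _ => by rw [wgt]; ring), ← Finset.mul_sum]
  exact mul_le_mul_of_nonneg_left hsum (by norm_num [segA])

theorem pow_succ_add_ge {T w : ℝ} (hT : 0 ≤ T) (hw : 0 ≤ w) :
    ∀ k : ℕ, T ^ (k + 1) + (k + 1) * w * T ^ k ≤ (T + w) ^ (k + 1)
  | 0 => by simp
  | k + 1 => by
    have := mul_le_mul_of_nonneg_left (pow_succ_add_ge hT hw k) (add_nonneg hT hw)
    have h2 : (T + w) ^ (k + 2) = (T + w) * (T + w) ^ (k + 1) := by ring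
    push_cast
    rw [h2]
    refine le_trans ?_ this
    have : 0 ≤ (k + 1 : ℝ) * w * w * T ^ k := by positivity
    simp only [pow_succ] at this ⊢
    linarith

include h in
theorem sum_tail_pow (k : ℕ) : ∀ t ≤ M,
    ∑ i ∈ Finset.Ico t M, wgt M u i * (tail M u (i + 1) ^ k / k.factorial)
      ≤ tail M u t ^ (k + 1) / (k + 1).factorial := by
  suffices ∀ d t, t + d = M → ∑ i ∈ Finset.Ico t M, wgt M u i * (tail M u (i + 1) ^ k / k.factorial)
      ≤ tail M u t ^ (k + 1) / (k + 1).factorial from
    fun t ht => this (M - t) t (by omega)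
  intro d
  induction d with
  | zero => intro t ht; simp [tail, show t = M by omega]
  | succ d ih =>
    intro t ht
    have htM : t < M := by omega
    have hT : tail M u t = wgt M u t + tail M u (t + 1) := by
      rw [tail, tail, Finset.sum_eq_sum_Ico_succ_bot htM]
    rw [Finset.sum_eq_sum_Ico_succ_bot htM, hT]
    refine (add_le_add le_rfl (ih (t + 1) (by omega))).trans ?_
    have hb := pow_succ_add_ge (h.tail_nonneg (t + 1)) (h.wgt_nonneg t) k
    have hk : (0 : ℝ) < (k + 1).factorial := by exact_mod_cast Nat.factorial_pos _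
    rw [add_comm (wgt M u t) (tail M u (t + 1)), le_div_iff₀ hk]
    refine le_trans (le_of_eq ?_) hb
    rw [Nat.factorial_succ]
    have : (k.factorial : ℝ) ≠ 0 := by exact_mod_cast (Nat.factorial_pos k).ne'
    push_cast
    field_simp
    ring

include h in
theorem step_le {n : Node α} {s r : Finset α} {x y : α} (hv : Valid L W (child (child n s y) r x))
    (hlen : n.2.length + 1 ≤ 3 * M + 4) {t : ℕ} (ht : t < M) :
    treeP L W M (fun ω => ω (child n s y, r) = t ∧ ∀ z ∈ s.erase (cur n),
        aliveX L W (if z = y then {r} else ∅) ω t (child n s z)) ≤ wgt M u t := by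
  rw [valid_child] at hv
  obtain ⟨hn, hr, -⟩ := hv
  obtain ⟨hn0, hs, hy⟩ := valid_child.1 hn
  have hmem : (child n s y, r) ∈ idx L W M :=
    mem_idx.2 ⟨hn, hr, by simp only [child, List.length_cons]; omega⟩
  have hdep : ∀ z, DepOn (fun ω => aliveX L W (if z = y then {r} else ∅) ω t (child n s z))
      ({(child n s y, r)}ᶜ : Set (Crd α)) := fun z ω ω' hω =>
    propext (aliveX_congr_behind fun r' hr' e he => hω e (by
      rintro rfl
      have hb : (child n s y, r) ∈ Below (child n s y) := self_mem_below _ _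
      obtain ⟨-, hzy⟩ := below_child_inj (behind_subset _ _ he) hb
      rw [if_pos hzy, Finset.mem_sdiff, Finset.mem_singleton] at hr'
      subst hzy
      exact behind_disjoint hr'.2 he (Or.inl rfl)))
  unfold treeP
  rw [prob_and h.M_pos (S := {(child n s y, r)}) (fun ω ω' hω => by rw [hω _ rfl]) fun ω ω' hω =>
    propext (forall₂_congr fun z _ => iff_of_eq (hdep z ω ω' hω))]
  rw [show prob (idx L W M) M (fun ω => ω (child n s y, r) = t) = 1 / (M : ℝ) from
    prob_single h.M_pos hmem ht]
  unfold prob
  simp only [ind_forall]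
  rw [avgF_prod h.M_pos _
    (F := fun z ω => ind (aliveX L W (if z = y then {r} else ∅) ω t (child n s z)))
    (S := fun z => Below (child n s z))
    (fun z _ ω ω' hω => ind_congr (iff_of_eq (depOn_aliveX _ _ _ ω ω' hω)))
    (fun z _ z' _ hne e he he' => hne (below_child_inj he he').2)]
  have hu := h.u_pos
  have hpos : (0 : ℝ) < 1 + 2 * u * t / M := by positivity
  have hk : ∀ z ∈ s.erase (cur n),
      avgF (idx L W M) M (fun ω => ind (aliveX L W (if z = y then {r} else ∅) ω t (child n s z)))
        ≤ (if z = y then (144 : ℝ) else 1) * (2 / Real.sqrt (1 + 2 * u * t / M)) := by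
    intro z hz
    refine (h.aliveX_le (X := if z = y then {r} else ∅) (valid_child.2 ⟨hn0, hs, hz⟩) ht.le
      (by simp only [child, List.length_cons]; omega)).trans (le_of_eq ?_)
    split <;> simp
  refine (mul_le_mul_of_nonneg_left (Finset.prod_le_prod
    (fun z _ => avgF_nonneg fun ω => ind_nonneg _) hk) (by positivity)).trans (le_of_eq ?_)
  rw [Finset.prod_mul_distrib, Finset.prod_const, Finset.prod_ite_eq' (s.erase (cur n)) y
    (fun _ => (144 : ℝ)), if_pos hy, Finset.card_erase_of_mem (mem_edgesAt.1 hs).2.2,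
    LH.card_tri (mem_edgesAt.1 hs).2.1, div_pow, Real.sq_sqrt hpos.le, wgt, segA]
  field_simp
  ring

include h in
theorem seg_slot_le (q : Node α) : ∀ (l : List (Finset α × α)) (r : Finset α) (x : α) (t : ℕ),
    Valid L W (nd q ((r, x) :: l)) → q.2.length + l.length ≤ 3 * M + 4 → t < M →
    treeP L W M (fun ω => Seg L W ω q ((r, x) :: l) ∧ ω (nd q l, r) = t)
      ≤ 3 * u / segA * (wgt M u t * (tail M u (t + 1) ^ l.length / l.length.factorial))
  | [], r, x, t, hv, hlen, ht => by
    rw [nd_cons, valid_child] at hv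
    have hmem : (nd q [], r) ∈ idx L W M :=
      mem_idx.2 ⟨hv.1, hv.2.1, by simp only [nd, List.nil_append]; simp at hlen; omega⟩
    simp only [Seg, true_and, List.length_nil, pow_zero, Nat.factorial_zero, Nat.cast_one,
      div_one, mul_one]
    rw [prob_single h.M_pos hmem ht]
    exact h.one_div_le_wgt ht
  | (s, y) :: l, r, x, t, hv, hlen, ht => by
    have hvs : Valid L W (nd q ((s, y) :: l)) := by rw [nd_cons, valid_child] at hv; exact hv.1
    simp only [List.length_cons] at hlen
    have hu := h.u_pos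
    have hmem : (nd q l, s) ∈ idx L W M := by
      rw [nd_cons, valid_child] at hvs
      exact mem_idx.2 ⟨hvs.1, hvs.2.1, by simp only [nd, List.length_append]; omega⟩
    let K : (Crd α → ℕ) → Prop := fun ω => ω (nd q ((s, y) :: l), r) = t ∧
      ∀ z ∈ s.erase (cur (nd q l)),
        aliveX L W (if z = y then {r} else ∅) ω t (child (nd q l) s z)
    have hK : treeP L W M K ≤ wgt M u t := by
      have hl : (nd q l).2.length + 1 ≤ 3 * M + 4 := by
        simp only [nd, List.length_append]; omega
      exact h.step_le (n := nd q l) (x := x) hv hl ht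
    refine (prob_mono (Q := fun ω => ∃ t' ∈ Finset.Ico (t + 1) M,
      (Seg L W ω q ((s, y) :: l) ∧ ω (nd q l, s) = t') ∧ K ω) fun ω hω hP => ?_).trans ?_
    · obtain ⟨⟨h1, h2, h3⟩, h4⟩ := hP
      refine ⟨ω (nd q l, s), Finset.mem_Ico.2 ⟨by omega, hω _ hmem⟩, ⟨h1, rfl⟩, h4, fun z hz => ?_⟩
      rw [← h4]; exact h3 z hz
    refine (prob_exists_le _ _).trans ?_
    have hS : DepOn K (SegSet q ((s, y) :: l))ᶜ := by
      intro ω ω' hω
      have hout : ∀ z, ∀ e ∈ Below (child (nd q l) s z), ω e = ω' e :=
        fun z e he => hω e fun he' => he'.2 z he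
      refine propext (and_congr ?_ (forall₂_congr fun z _ => ?_))
      · rw [hout y (nd q ((s, y) :: l), r) (self_mem_below _ _)]
      · exact iff_of_eq (depOn_aliveX _ _ _ ω ω' (hout z))
    calc ∑ t' ∈ Finset.Ico (t + 1) M, prob (idx L W M) M
          (fun ω => (Seg L W ω q ((s, y) :: l) ∧ ω (nd q l, s) = t') ∧ K ω)
        ≤ ∑ t' ∈ Finset.Ico (t + 1) M, 3 * u / segA *
            (wgt M u t' * (tail M u (t' + 1) ^ l.length / l.length.factorial)) * wgt M u t := by
          refine Finset.sum_le_sum fun t' ht' => ?_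
          rw [prob_and h.M_pos (S := SegSet q ((s, y) :: l)) (fun ω ω' hω => by
            rw [show Seg L W ω q ((s, y) :: l) = Seg L W ω' q ((s, y) :: l) from
              depOn_seg q _ ω ω' hω, hω _ (coord_mem_segSet q s y l)]) hS]
          exact mul_le_mul (seg_slot_le q l s y t' hvs (by omega) (Finset.mem_Ico.1 ht').2) hK
            (prob_nonneg _) (by have := h.wgt_nonneg t'; have := h.tail_nonneg (t' + 1)
                                rw [segA]; positivity)
      _ ≤ _ := by
          rw [← Finset.sum_mul, ← Finset.mul_sum, List.length_cons, mul_assoc,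
            mul_comm (wgt M u t)]
          refine mul_le_mul_of_nonneg_left (mul_le_mul_of_nonneg_right
            (h.sum_tail_pow l.length (t + 1) ht) (h.wgt_nonneg t)) (by rw [segA]; positivity)

include h in
/-- The probability of a segment. -/
theorem seg_le (q : Node α) (l : List (Finset α × α)) (hv : Valid L W (nd q l))
    (hlen : q.2.length + l.length ≤ 3 * M + 5) :
    treeP L W M (fun ω => Seg L W ω q l)
      ≤ 3 * u * ((segA * Real.log (1 + 2 * u) / u) ^ l.length / l.length.factorial) := by
  have hu := h.two_le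
  rcases l with _ | ⟨⟨r, x⟩, l⟩
  · refine (prob_le_one h.M_pos _).trans ?_
    simp only [List.length_nil, pow_zero, Nat.factorial_zero, Nat.cast_one, div_one, mul_one]
    linarith
  simp only [List.length_cons] at hlen
  have hmem : (nd q l, r) ∈ idx L W M := by
    rw [nd_cons, valid_child] at hv
    have := h.eight_le
    exact mem_idx.2 ⟨hv.1, hv.2.1, by simp only [nd, List.length_append]; omega⟩
  refine (prob_mono (Q := fun ω => ∃ t ∈ Finset.Ico 0 M,
    Seg L W ω q ((r, x) :: l) ∧ ω (nd q l, r) = t) fun ω hω hP =>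
      ⟨_, Finset.mem_Ico.2 ⟨Nat.zero_le _, hω _ hmem⟩, hP, rfl⟩).trans ?_
  refine (prob_exists_le _ _).trans ((Finset.sum_le_sum fun t ht =>
    h.seg_slot_le q l r x t hv (by omega) (Finset.mem_Ico.1 ht).2).trans ?_)
  rw [← Finset.mul_sum]
  refine mul_le_mul ?_ ((h.sum_tail_pow l.length 0 (Nat.zero_le _)).trans ?_)
    (Finset.sum_nonneg fun i _ => by
      have := h.wgt_nonneg i; have := h.tail_nonneg (i + 1); positivity) (by linarith)
  · rw [segA, div_le_iff₀ (by norm_num)]; linarith
  · rw [List.length_cons]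
    exact div_le_div_of_nonneg_right (pow_le_pow_left₀ (h.tail_nonneg 0) h.tail_zero_le _)
      (by positivity)

end Hyp

end P046.Tree
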