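import Vale.Agent.P046.Full.PathsSum
import Vale.Agent.P046.Full.TreeSeg

/-!
P046, part III: counting what is looked at below a coordinate, by recursion on the slot, and the
mean of these counts.
-/

namespace P046.Tree

open Finset Matrix

variable {α : Type} [DecidableEq α]

/-- The two nodes behind a coordinate. -/
def kids (c : Crd α) : Finset (Node α) := (c.2.erase (cur c.1)).image (child c.1 c.2)

variable (L : LH α) (W : Finset α)

/-- The coordinates at a set of nodes. -/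
def chs (K : Finset (Node α)) : Finset (Crd α) :=
  K.biUnion fun q => (edgesAt L W q).image (Prod.mk q)

/-- The coordinates at the nodes behind `c`. -/
def ch (c : Crd α) : Finset (Crd α) := chs L W (kids c)

/-- A sum over the looked-at coordinates below `c`, the bound being `b`. -/
noncomputable def gen (base : Crd α → (Crd α → ℕ) → ℝ) : ℕ → Crd α → (Crd α → ℕ) → ℝ
  | b, c, ω => base c ω + ∑ d ∈ ch L W c,
      if _h : ω d < b then ind (∀ q ∈ kids c, talive L W ω (ω d) q) * gen base (ω d) d ω else 0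
termination_by b => b

/-- `e` is looked at below `c` with bound `b`. -/
def Below' (e : Crd α) : ℕ → Crd α → (Crd α → ℕ) → Prop
  | b, c, ω => e ∈ ch L W c ∨ ∃ d ∈ ch L W c, ∃ _h : ω d < b,
      (∀ q ∈ kids c, talive L W ω (ω d) q) ∧ Below' e (ω d) d ω
termination_by b => b

/-- The number of coordinates over `t` looked at below `c`. -/
noncomputable def cnt (t : Finset α) : ℕ → Crd α → (Crd α → ℕ) → ℝ :=
  gen L W fun c _ => ∑ d ∈ ch L W c, ind (d.2 = t)

/-- The pairs over one edge that split at the coordinates `S`. -/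
noncomputable def loc (S : Finset (Crd α)) (ω : Crd α → ℕ) : ℝ :=
  ∑ t ∈ L.tris W, ((∑ d ∈ S, ind (d.2 = t)) * (∑ d ∈ S, cnt L W t (ω d) d ω)
    + ∑ p ∈ S.offDiag, cnt L W t (ω p.1) p.1 ω * cnt L W t (ω p.2) p.2 ω)

/-- The pairs over one edge below `c`. -/
noncomputable def pr : ℕ → Crd α → (Crd α → ℕ) → ℝ := gen L W fun c ω => loc L W (ch L W c) ω

/-- The coordinates at the root `a`. -/
def roots (a : α) : Finset (Crd α) := chs L W {(a, [])}

/-- The pairs over one edge looked at from the root `a`. -/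
noncomputable def prRoot (a : α) (ω : Crd α → ℕ) : ℝ :=
  loc L W (roots L W a) ω + ∑ d ∈ roots L W a, pr L W (ω d) d ω

/-- The coordinates over `t` looked at from the root `a`. -/
noncomputable def cntRoot (t : Finset α) (a : α) (ω : Crd α → ℕ) : ℝ :=
  ∑ d ∈ roots L W a, ind (d.2 = t) + ∑ d ∈ roots L W a, cnt L W t (ω d) d ω

variable {L W}

/-- A coordinate of the forest. -/
def VC (L : LH α) (W : Finset α) (c : Crd α) : Prop := Valid L W c.1 ∧ c.2 ∈ edgesAt L W c.1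

theorem mem_chs {K : Finset (Node α)} {d : Crd α} :
    d ∈ chs L W K ↔ d.1 ∈ K ∧ d.2 ∈ edgesAt L W d.1 := by
  simp only [chs, Finset.mem_biUnion, Finset.mem_image]
  constructor
  · rintro ⟨q, hq, r, hr, rfl⟩; exact ⟨hq, hr⟩
  · exact fun h => ⟨d.1, h.1, d.2, h.2, rfl⟩

theorem mem_ch {c d : Crd α} :
    d ∈ ch L W c ↔ d.1 ∈ kids c ∧ d.2 ∈ edgesAt L W d.1 := mem_chs

theorem mem_kids {c : Crd α} {q : Node α} :
    q ∈ kids c ↔ ∃ x ∈ c.2.erase (cur c.1), child c.1 c.2 x = q := by simp [kids]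

theorem vc_ch {c d : Crd α} (hc : VC L W c) (hd : d ∈ ch L W c) :
    VC L W d ∧ d.1.2.length = c.1.2.length + 1 := by
  obtain ⟨h1, h2⟩ := mem_ch.1 hd
  obtain ⟨x, hx, hq⟩ := mem_kids.1 h1
  refine ⟨⟨hq ▸ valid_child.2 ⟨hc.1, hc.2, hx⟩, h2⟩, ?_⟩
  rw [← hq]; simp [child]

theorem mem_roots {a : α} {d : Crd α} :
    d ∈ roots L W a ↔ d.1 = (a, []) ∧ d.2 ∈ L.star W a := by
  rw [roots, mem_chs, Finset.mem_singleton]
  exact and_congr_right fun h => by rw [h, edgesAt_root]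

theorem vc_roots {a : α} (ha : a ∈ W) {d : Crd α} (hd : d ∈ roots L W a) :
    VC L W d ∧ d.1.2.length = 0 := by
  obtain ⟨h1, h2⟩ := mem_roots.1 hd
  exact ⟨⟨h1 ▸ valid_root.2 ha, by rwa [h1, edgesAt_root]⟩, by simp [h1]⟩

/-- Different coordinates behind one edge lie over different edges. -/
theorem ch_edge_inj {c : Crd α} (hc : VC L W c) {d d' : Crd α} (hd : d ∈ ch L W c)
    (hd' : d' ∈ ch L W c) (h : d.2 = d'.2) : d = d' := by
  obtain ⟨h1, h2⟩ := mem_ch.1 hd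
  obtain ⟨h1', h2'⟩ := mem_ch.1 hd'
  obtain ⟨x, hx, hq⟩ := mem_kids.1 h1
  obtain ⟨x', hx', hq'⟩ := mem_kids.1 h1'
  refine Prod.ext ?_ h
  rw [← hq, ← hq']
  congr 1
  have m2 := mem_edgesAt.1 h2
  have m2' := mem_edgesAt.1 h2'
  rw [← hq, exc_child, cur_child] at m2
  rw [← hq', exc_child, cur_child, ← h] at m2'
  by_contra hne
  exact m2.1 (L.linear _ (LH.mem_tris.1 m2.2.1).1 _ (LH.mem_tris.1 (mem_edgesAt.1 hc.2).2.1).1
    x m2.2.2 x' m2'.2.2 (Finset.mem_of_mem_erase hx) (Finset.mem_of_mem_erase hx') hne)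

theorem gen_nonneg {base : Crd α → (Crd α → ℕ) → ℝ} (h : ∀ c ω, 0 ≤ base c ω) :
    ∀ b c ω, 0 ≤ gen L W base b c ω := by
  intro b
  induction b using Nat.strong_induction_on with
  | _ b ih =>
    intro c ω
    rw [gen]
    refine add_nonneg (h c ω) (Finset.sum_nonneg fun d _ => ?_)
    split_ifs with hd
    · exact mul_nonneg (ind_nonneg _) (ih _ hd d ω)
    · exact le_rfl

theorem gen_ge_child {base : Crd α → (Crd α → ℕ) → ℝ} (h : ∀ c ω, 0 ≤ base c ω) {b : ℕ}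
    {c d : Crd α} {ω : Crd α → ℕ} (hd : d ∈ ch L W c) (hlt : ω d < b)
    (hal : ∀ q ∈ kids c, talive L W ω (ω d) q) :
    gen L W base (ω d) d ω ≤ gen L W base b c ω := by
  conv_rhs => rw [gen]
  refine le_trans ?_ (le_add_of_nonneg_left (h c ω))
  refine le_trans (le_of_eq ?_) (Finset.single_le_sum (fun e _ => ?_) hd)
  · rw [dif_pos hlt, ind_true hal, one_mul]
  · split_ifs
    · exact mul_nonneg (ind_nonneg _) (gen_nonneg h _ _ _)
    · exact le_rfl

theorem gen_ge_base {base : Crd α → (Crd α → ℕ) → ℝ} (h : ∀ c ω, 0 ≤ base c ω) (b : ℕ)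
    (c : Crd α) (ω : Crd α → ℕ) : base c ω ≤ gen L W base b c ω := by
  rw [gen]
  refine le_add_of_nonneg_right (Finset.sum_nonneg fun e _ => ?_)
  split_ifs
  · exact mul_nonneg (ind_nonneg _) (gen_nonneg h _ _ _)
  · exact le_rfl

theorem cnt_nonneg (t : Finset α) (b : ℕ) (c : Crd α) (ω : Crd α → ℕ) :
    0 ≤ cnt L W t b c ω :=
  gen_nonneg (fun _ _ => Finset.sum_nonneg fun _ _ => ind_nonneg _) b c ω

theorem loc_nonneg (S : Finset (Crd α)) (ω : Crd α → ℕ) : 0 ≤ loc L W S ω :=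
  Finset.sum_nonneg fun _ _ => add_nonneg
    (mul_nonneg (Finset.sum_nonneg fun _ _ => ind_nonneg _)
      (Finset.sum_nonneg fun _ _ => cnt_nonneg _ _ _ _))
    (Finset.sum_nonneg fun _ _ => mul_nonneg (cnt_nonneg _ _ _ _) (cnt_nonneg _ _ _ _))

theorem pr_nonneg (b : ℕ) (c : Crd α) (ω : Crd α → ℕ) : 0 ≤ pr L W b c ω :=
  gen_nonneg (fun _ _ => loc_nonneg _ _) b c ω

theorem one_le_cnt {e : Crd α} : ∀ {b : ℕ} {c : Crd α} {ω : Crd α → ℕ},
    Below' L W e b c ω → 1 ≤ cnt L W e.2 b c ω := by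
  intro b
  induction b using Nat.strong_induction_on with
  | _ b ih =>
    intro c ω h
    have h0 : ∀ c' (ω' : Crd α → ℕ), 0 ≤ ∑ d ∈ ch L W c', ind (d.2 = e.2) := fun _ _ =>
      Finset.sum_nonneg fun _ _ => ind_nonneg _
    rw [Below'] at h
    rcases h with h | ⟨d, hd, hlt, hal, hb⟩
    · refine le_trans ?_ (gen_ge_base h0 b c ω)
      rw [← ind_true (rfl : e.2 = e.2)]
      exact Finset.single_le_sum (f := fun d : Crd α => ind (d.2 = e.2))
        (fun _ _ => ind_nonneg _) h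
    · exact le_trans (ih _ hlt hb) (gen_ge_child h0 hd hlt hal)

/-- Two branches out of `S` over one edge. -/
theorem one_le_loc {S : Finset (Crd α)} (hS : ∀ d ∈ S, ∀ d' ∈ S, d.2 = d'.2 → d = d')
    {e e' : Crd α} {ω : Crd α → ℕ} (hne : e ≠ e') (heq : e.2 = e'.2) (ht : e.2 ∈ L.tris W)
    (he : e ∈ S ∨ ∃ d ∈ S, Below' L W e (ω d) d ω)
    (he' : e' ∈ S ∨ ∃ d ∈ S, Below' L W e' (ω d) d ω)
    (hsame : ∀ d ∈ S, Below' L W e (ω d) d ω → Below' L W e' (ω d) d ω → False) :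
    1 ≤ loc L W S ω := by
  refine le_trans ?_ (Finset.single_le_sum (fun t _ => add_nonneg
    (mul_nonneg (Finset.sum_nonneg fun _ _ => ind_nonneg _)
      (Finset.sum_nonneg fun _ _ => cnt_nonneg _ _ _ _))
    (Finset.sum_nonneg fun _ _ => mul_nonneg (cnt_nonneg _ _ _ _) (cnt_nonneg _ _ _ _))) ht)
  have hlol : ∀ f g : Crd α, f.2 = e.2 → g.2 = e.2 → f ∈ S →
      (∃ d ∈ S, Below' L W g (ω d) d ω) →
      1 ≤ (∑ d ∈ S, ind (d.2 = e.2)) * ∑ d ∈ S, cnt L W e.2 (ω d) d ω := by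
    intro f g hf hg hfS ⟨d, hd, hb⟩
    have h1 : 1 ≤ ∑ d ∈ S, ind (d.2 = e.2) := by
      rw [← ind_true hf]
      exact Finset.single_le_sum (f := fun d : Crd α => ind (d.2 = e.2))
        (fun _ _ => ind_nonneg _) hfS
    have h2 : 1 ≤ ∑ d ∈ S, cnt L W e.2 (ω d) d ω :=
      le_trans (hg ▸ one_le_cnt hb)
        (Finset.single_le_sum (fun _ _ => cnt_nonneg _ _ _ _) hd)
    nlinarith
  have hp : 0 ≤ ∑ p ∈ S.offDiag, cnt L W e.2 (ω p.1) p.1 ω * cnt L W e.2 (ω p.2) p.2 ω :=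
    Finset.sum_nonneg fun _ _ => mul_nonneg (cnt_nonneg _ _ _ _) (cnt_nonneg _ _ _ _)
  rcases he with he | ⟨d, hd, hb⟩
  · rcases he' with he' | he'
    · exact absurd (hS e he e' he' heq) hne
    · linarith [hlol e e' rfl heq.symm he he']
  rcases he' with he' | ⟨d', hd', hb'⟩
  · linarith [hlol e' e heq.symm rfl he' ⟨d, hd, hb⟩]
  have hdd : d ≠ d' := fun h => hsame d hd hb (h ▸ hb')
  have h3 : 1 ≤ ∑ p ∈ S.offDiag, cnt L W e.2 (ω p.1) p.1 ω * cnt L W e.2 (ω p.2) p.2 ω := by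
    refine le_trans ?_ (Finset.single_le_sum
      (fun _ _ => mul_nonneg (cnt_nonneg _ _ _ _) (cnt_nonneg _ _ _ _))
      (Finset.mem_offDiag.2 ⟨hd, hd', hdd⟩ : (d, d') ∈ S.offDiag))
    exact one_le_mul_of_one_le_of_one_le (one_le_cnt hb) (heq ▸ one_le_cnt hb')
  have : 0 ≤ (∑ d ∈ S, ind (d.2 = e.2)) * ∑ d ∈ S, cnt L W e.2 (ω d) d ω :=
    mul_nonneg (Finset.sum_nonneg fun _ _ => ind_nonneg _)
      (Finset.sum_nonneg fun _ _ => cnt_nonneg _ _ _ _)
  linarith

theorem one_le_pr {e e' : Crd α} (hne : e ≠ e') (heq : e.2 = e'.2) (ht : e.2 ∈ L.tris W) :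
    ∀ {b : ℕ} {c : Crd α} {ω : Crd α → ℕ}, VC L W c →
      Below' L W e b c ω → Below' L W e' b c ω → 1 ≤ pr L W b c ω := by
  intro b
  induction b using Nat.strong_induction_on with
  | _ b ih =>
    intro c ω hc h h'
    have h0 : ∀ c' ω', 0 ≤ loc L W (ch L W c') ω' := fun _ _ => loc_nonneg _ _
    by_cases hsame : ∃ d ∈ ch L W c, ∃ _ : ω d < b, (∀ q ∈ kids c, talive L W ω (ω d) q) ∧
        Below' L W e (ω d) d ω ∧ Below' L W e' (ω d) d ω
    · obtain ⟨d, hd, hlt, hal, hb, hb'⟩ := hsame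
      exact le_trans (ih _ hlt (vc_ch hc hd).1 hb hb') (gen_ge_child h0 hd hlt hal)
    rw [Below'] at h h'
    refine le_trans ?_ (gen_ge_base h0 b c ω)
    by_cases hboth : ∀ d ∈ ch L W c, Below' L W e (ω d) d ω → Below' L W e' (ω d) d ω → False
    · exact one_le_loc (fun d hd d' hd' => ch_edge_inj hc hd hd') hne heq ht
        (h.imp_right fun ⟨d, hd, _, _, hb⟩ => ⟨d, hd, hb⟩)
        (h'.imp_right fun ⟨d, hd, _, _, hb⟩ => ⟨d, hd, hb⟩) hboth
    push Not at hboth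
    obtain ⟨d, hd, hb, hb'⟩ := hboth
    refine le_trans ?_ (Finset.single_le_sum (fun t _ => add_nonneg
      (mul_nonneg (Finset.sum_nonneg fun _ _ => ind_nonneg _)
        (Finset.sum_nonneg fun _ _ => cnt_nonneg _ _ _ _))
      (Finset.sum_nonneg fun _ _ => mul_nonneg (cnt_nonneg _ _ _ _) (cnt_nonneg _ _ _ _))) ht)
    have hc0 : ∀ f, f ∈ ch L W c → f.2 = e.2 →
        1 ≤ (∑ d ∈ ch L W c, ind (d.2 = e.2)) * ∑ d ∈ ch L W c, cnt L W e.2 (ω d) d ω := by
      intro f hf hfe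
      have h1 : 1 ≤ ∑ d ∈ ch L W c, ind (d.2 = e.2) := by
        rw [← ind_true hfe]
        exact Finset.single_le_sum (f := fun d : Crd α => ind (d.2 = e.2))
          (fun _ _ => ind_nonneg _) hf
      have h2 : 1 ≤ ∑ d ∈ ch L W c, cnt L W e.2 (ω d) d ω :=
        le_trans (one_le_cnt hb) (Finset.single_le_sum (f := fun d => cnt L W e.2 (ω d) d ω)
          (fun _ _ => cnt_nonneg _ _ _ _) hd)
      nlinarith
    have hp : 0 ≤ ∑ p ∈ (ch L W c).offDiag,
        cnt L W e.2 (ω p.1) p.1 ω * cnt L W e.2 (ω p.2) p.2 ω :=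
      Finset.sum_nonneg fun _ _ => mul_nonneg (cnt_nonneg _ _ _ _) (cnt_nonneg _ _ _ _)
    rcases h with h | ⟨d1, hd1, hlt1, hal1, hb1⟩
    · linarith [hc0 e h rfl]
    rcases h' with h' | ⟨d2, hd2, hlt2, hal2, hb2⟩
    · linarith [hc0 e' h' heq.symm]
    have hdd : d1 ≠ d2 := fun h12 => hsame ⟨d1, hd1, hlt1, hal1, hb1, h12 ▸ hb2⟩
    have h3 : 1 ≤ ∑ p ∈ (ch L W c).offDiag,
        cnt L W e.2 (ω p.1) p.1 ω * cnt L W e.2 (ω p.2) p.2 ω := by
      refine le_trans ?_ (Finset.single_le_sum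
        (fun _ _ => mul_nonneg (cnt_nonneg _ _ _ _) (cnt_nonneg _ _ _ _))
        (Finset.mem_offDiag.2 ⟨hd1, hd2, hdd⟩ : (d1, d2) ∈ (ch L W c).offDiag))
      exact one_le_mul_of_one_le_of_one_le (one_le_cnt hb1) (heq ▸ one_le_cnt hb2)
    have : 0 ≤ (∑ d ∈ ch L W c, ind (d.2 = e.2)) * ∑ d ∈ ch L W c, cnt L W e.2 (ω d) d ω :=
      mul_nonneg (Finset.sum_nonneg fun _ _ => ind_nonneg _)
        (Finset.sum_nonneg fun _ _ => cnt_nonneg _ _ _ _)
    linarith

/-- A looked-at coordinate is at the root or below one of its coordinates. -/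
theorem rel_below {M : ℕ} {ω : Crd α → ℕ} {a : α} :
    ∀ (l : List (Finset α × α)) (r : Finset α) (x : α), Rel L W M ω (a, (r, x) :: l) →
      ∀ e, Below' L W e (ω ((a, l), r)) ((a, l), r) ω →
        ∃ d ∈ roots L W a, Below' L W e (ω d) d ω := by
  intro l
  induction l with
  | nil =>
    intro r x h e he
    exact ⟨((a, []), r), mem_roots.2 ⟨rfl, by simpa [edgesAt_root] using h.2.1⟩, he⟩
  | cons s l ih =>
    obtain ⟨r0, x0⟩ := s
    intro r x h e he
    obtain ⟨h0, hr, hx, hlt, hb⟩ := h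
    refine ih r0 x0 h0 e ?_
    rw [Below']
    refine Or.inr ⟨((a, (r0, x0) :: l), r), mem_ch.2 ⟨mem_kids.2 ⟨x0, ?_, rfl⟩, hr⟩, hlt, ?_, he⟩
    · exact (valid_child (p := (a, l))).1 (rel_valid h0) |>.2.2
    · intro q hq
      obtain ⟨y, hy, rfl⟩ := mem_kids.1 hq
      exact hb y hy

theorem mem_Q_below {M : ℕ} {ω : Crd α → ℕ} {a : α} {e : Crd α}
    (he : e ∈ Q L W M {a} ω) :
    e ∈ roots L W a ∨ ∃ d ∈ roots L W a, Below' L W e (ω d) d ω := by
  obtain ⟨h1, h2, h3⟩ := mem_Q.1 he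
  rw [Finset.mem_singleton] at h1
  obtain ⟨⟨a', l⟩, t⟩ := e
  obtain rfl : a' = a := h1
  match l with
  | [] => exact Or.inl (mem_roots.2 ⟨rfl, by simpa [edgesAt_root] using h3⟩)
  | (r, x) :: l =>
    refine Or.inr (rel_below l r x h2 _ ?_)
    rw [Below']
    exact Or.inl (mem_ch.2 ⟨mem_kids.2 ⟨x, ((valid_child (p := (a', l))).1 (rel_valid h2)).2.2,
      rfl⟩, h3⟩)

theorem bad_le_prRoot {M : ℕ} {ω : Crd α → ℕ} {a : α} (ha : a ∈ W) :
    ind (Bad L W M {a} ω) ≤ prRoot L W a ω := by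
  have h0 : 0 ≤ prRoot L W a ω :=
    add_nonneg (loc_nonneg _ _) (Finset.sum_nonneg fun _ _ => pr_nonneg _ _ _)
  by_cases h : Bad L W M {a} ω
  · rw [ind_true h]
    obtain ⟨e, he, e', he', hne, heq⟩ := h
    have ht : e.2 ∈ L.tris W := (mem_edgesAt.1 (mem_Q.1 he).2.2).2.1
    by_cases hs : ∃ d ∈ roots L W a, Below' L W e (ω d) d ω ∧ Below' L W e' (ω d) d ω
    · obtain ⟨d, hd, hb, hb'⟩ := hs
      refine le_trans (one_le_pr hne heq ht (vc_roots ha hd).1 hb hb') ?_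
      refine le_trans ?_ (le_add_of_nonneg_left (loc_nonneg _ _))
      exact Finset.single_le_sum (f := fun d => pr L W (ω d) d ω)
        (fun _ _ => pr_nonneg _ _ _) hd
    · refine le_trans ?_ (le_add_of_nonneg_right (Finset.sum_nonneg fun _ _ => pr_nonneg _ _ _))
      refine one_le_loc (fun d hd d' hd' h => ?_) hne heq ht (mem_Q_below he) (mem_Q_below he')
        fun d hd hb hb' => hs ⟨d, hd, hb, hb'⟩
      exact Prod.ext ((mem_roots.1 hd).1.trans (mem_roots.1 hd').1.symm) h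
  · rw [ind_false h]; exact h0

theorem reach_le_cntRoot {M : ℕ} {ω : Crd α → ℕ} {a f : α} :
    ind (Reach L W M a f ω) ≤ ind (a = f)
      + ∑ t ∈ L.star W f, cntRoot L W t a ω := by
  have hc : ∀ t, 0 ≤ cntRoot L W t a ω := fun t => add_nonneg
    (Finset.sum_nonneg fun _ _ => ind_nonneg _) (Finset.sum_nonneg fun _ _ => cnt_nonneg _ _ _ _)
  by_cases h : Reach L W M a f ω
  · rw [ind_true h]
    obtain ⟨⟨a', l⟩, rfl, hrel, hcur⟩ := h
    match l with
    | [] =>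
      rw [ind_true (show a' = f from hcur)]
      exact le_add_of_nonneg_right (Finset.sum_nonneg fun t _ => hc t)
    | (r, x) :: l =>
      refine le_trans ?_ (le_add_of_nonneg_left (ind_nonneg _))
      obtain rfl : x = f := hcur
      obtain ⟨h0, hr, hx, -⟩ := hrel
      have hmem : r ∈ L.star W x := by
        simp only [LH.star, Finset.mem_filter]
        exact ⟨(mem_edgesAt.1 hr).2.1, Finset.mem_of_mem_erase hx⟩
      refine le_trans ?_ (Finset.single_le_sum (fun t _ => hc t) hmem)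
      have hQ : (((a', l), r) : Crd α) ∈ Q L W M {a'} ω :=
        mem_Q.2 ⟨Finset.mem_singleton_self _, h0, hr⟩
      rcases mem_Q_below hQ with h1 | ⟨d, hd, hb⟩
      · refine le_trans ?_ (le_add_of_nonneg_right (Finset.sum_nonneg fun _ _ => cnt_nonneg _ _ _ _))
        rw [← ind_true (rfl : r = r)]
        exact Finset.single_le_sum (f := fun d : Crd α => ind (d.2 = r))
          (fun _ _ => ind_nonneg _) h1
      · refine le_trans ?_ (le_add_of_nonneg_left (Finset.sum_nonneg fun _ _ => ind_nonneg _))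
        exact le_trans (one_le_cnt hb) (Finset.single_le_sum (f := fun d => cnt L W r (ω d) d ω)
          (fun _ _ => cnt_nonneg _ _ _ _) hd)
  · rw [ind_false h]
    exact add_nonneg (ind_nonneg _) (Finset.sum_nonneg fun t _ => hc t)

end P046.Tree
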