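import Vale.Agent.P046.Full.PathsCount

/-!
P046, part III: the means of the counts below a coordinate.
-/

namespace P046.Tree

open Finset Matrix

variable {α : Type} [DecidableEq α] {L : LH α} {W : Finset α} {M : ℕ} {u : ℝ}

/-- The coordinates strictly behind `c`. -/
def Bk (c : Crd α) : Set (Crd α) := {e | ∃ x, e ∈ Below (child c.1 c.2 x)}

omit [DecidableEq α] in
theorem bk_subset_behind (c : Crd α) : Bk c ⊆ Behind c.1 c.2 := fun _ h => Or.inr h

omit [DecidableEq α] in
theorem self_notMem_bk (c : Crd α) : c ∉ Bk c := fun ⟨x, hx⟩ =>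
  self_notMem_below_child c.1 c.2 c.2 x hx

theorem behind_subset_bk {c d : Crd α} (hd : d ∈ ch L W c) : Behind d.1 d.2 ⊆ Bk c := by
  intro e he
  obtain ⟨x, _, hq⟩ := mem_kids.1 (mem_ch.1 hd).1
  exact ⟨x, hq ▸ behind_subset d.1 d.2 he⟩

theorem depOn_gen {base : Crd α → (Crd α → ℕ) → ℝ} (hdep : ∀ c, DepOn (base c) (Bk c)) :
    ∀ b c, DepOn (gen L W base b c) (Bk c) := by
  intro b
  induction b using Nat.strong_induction_on with
  | _ b ih =>
    intro c ω ω' h
    rw [gen, gen, hdep c ω ω' h]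
    congr 1
    refine Finset.sum_congr rfl fun d hd => ?_
    have he : ω d = ω' d := h d (behind_subset_bk hd (Or.inl rfl))
    rw [he]
    split_ifs with hlt
    · congr 1
      · refine ind_congr (forall₂_congr fun q hq => talive_congr _ _ fun e heq => h e ?_)
        obtain ⟨x, _, rfl⟩ := mem_kids.1 hq
        exact ⟨x, heq⟩
      · exact ih _ hlt d ω ω' fun e heq => h e (behind_subset_bk hd (bk_subset_behind d heq))
    · rfl

theorem depOn_cnt (t : Finset α) (b : ℕ) (c : Crd α) : DepOn (cnt L W t b c) (Bk c) :=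
  depOn_gen (fun _ _ _ _ => rfl) b c

theorem depOn_cnt_slot (t : Finset α) (d : Crd α) :
    DepOn (fun ω => cnt L W t (ω d) d ω) (Behind d.1 d.2) := by
  intro ω ω' h
  show cnt L W t (ω d) d ω = cnt L W t (ω' d) d ω'
  rw [h d (Or.inl rfl)]
  exact depOn_cnt t _ d ω ω' fun e he => h e (bk_subset_behind d he)

theorem depOn_loc (c : Crd α) : DepOn (fun ω => loc L W (ch L W c) ω) (Bk c) := by
  intro ω ω' h
  have e : ∀ t, ∀ d ∈ ch L W c, cnt L W t (ω d) d ω = cnt L W t (ω' d) d ω' := fun t d hd =>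
    depOn_cnt_slot t d ω ω' fun e he => h e (behind_subset_bk hd he)
  refine Finset.sum_congr rfl fun t _ => ?_
  congr 1
  · congr 1
    exact Finset.sum_congr rfl fun d hd => e t d hd
  · refine Finset.sum_congr rfl fun p hp => ?_
    rw [Finset.mem_offDiag] at hp
    rw [e t _ hp.1, e t _ hp.2.1]

/-- The mean of a function of a slot and of what is strictly behind it. -/
theorem avgF_slot (hM : 0 < M) {d : Crd α} (hd : d ∈ idx L W M)
    (F : ℕ → (Crd α → ℕ) → ℝ) (hF : ∀ i, DepOn (F i) (Bk d)) :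
    avgF (idx L W M) M (fun ω => F (ω d) ω)
      = ∑ i ∈ range M, 1 / (M : ℝ) * avgF (idx L W M) M (F i) := by
  rw [avgF_congr (g := fun ω => ∑ i ∈ range M, ind (ω d = i) * F i ω) fun ω hω => by
    rw [Finset.sum_eq_single (ω d)]
    · rw [ind_true rfl, one_mul]
    · intro i _ hi
      rw [ind_false (Ne.symm hi), zero_mul]
    · intro h
      exact absurd (Finset.mem_range.2 (hω d hd)) h]
  rw [avgF_sum]
  refine Finset.sum_congr rfl fun i hi => ?_
  rw [avgF_mul hM (S := {d}) (fun ω ω' h => by rw [h d rfl]) fun ω ω' h =>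
    hF i ω ω' fun e he => h e fun hed => self_notMem_bk d ((Set.mem_singleton_iff.1 hed) ▸ he)]
  rw [show avgF (idx L W M) M (fun ω => ind (ω d = i)) = 1 / (M : ℝ) from
    prob_single hM hd (Finset.mem_range.1 hi)]

theorem vc_idx {c : Crd α} (hc : VC L W c) (hl : c.1.2.length ≤ 4 * M + 4) : c ∈ idx L W M :=
  mem_idx.2 ⟨hc.1, hc.2, hl⟩

theorem kids_card {c : Crd α} (hc : VC L W c) : (kids c).card = 2 := by
  rw [kids, Finset.card_image_of_injective _ fun x y h => by simpa [child] using h,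
    Finset.card_erase_of_mem (mem_edgesAt.1 hc.2).2.2, LH.card_tri (mem_edgesAt.1 hc.2).2.1]

theorem below_kids_disjoint {c : Crd α} {q q' : Node α} (hq : q ∈ kids c) (hq' : q' ∈ kids c)
    (hne : q ≠ q') {e : Crd α} (he : e ∈ Below q) : e ∉ Below q' := by
  obtain ⟨x, _, rfl⟩ := mem_kids.1 hq
  obtain ⟨x', _, rfl⟩ := mem_kids.1 hq'
  exact fun he' => hne (by rw [(below_child_inj he he').2])

/-- The weight of one step. -/
noncomputable def kap (M : ℕ) (u : ℝ) (i : ℕ) : ℝ :=
  1 / (M : ℝ) * (576 / (1 + 2 * u * i / M))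

/-- The weight of all steps before `b`. -/
noncomputable def Kb (M : ℕ) (u : ℝ) (b : ℕ) : ℝ := u * ∑ i ∈ range b, kap M u i

theorem kap_nonneg (hu : 0 ≤ u) (i : ℕ) : 0 ≤ kap M u i := by
  unfold kap; positivity

theorem Kb_nonneg (hu : 0 ≤ u) (b : ℕ) : 0 ≤ Kb M u b :=
  mul_nonneg hu (Finset.sum_nonneg fun i _ => kap_nonneg hu i)

theorem Kb_mono (hu : 0 ≤ u) {b b' : ℕ} (h : b ≤ b') : Kb M u b ≤ Kb M u b' :=
  mul_le_mul_of_nonneg_left (Finset.sum_le_sum_of_subset_of_nonneg (Finset.range_mono h)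
    fun i _ _ => kap_nonneg hu i) hu

theorem pow_add_ge {x h : ℝ} (hx : 0 ≤ x) (hh : 0 ≤ h) (l : ℕ) :
    x ^ (l + 1) + ((l : ℝ) + 1) * h * x ^ l ≤ (x + h) ^ (l + 1) := by
  induction l with
  | zero => simp
  | succ l ih =>
    rw [pow_succ' (x + h) (l + 1)]
    refine le_trans ?_ (mul_le_mul_of_nonneg_left ih (by linarith))
    push_cast
    have : 0 ≤ ((l : ℝ) + 1) * (h * h) * x ^ l := by positivity
    rw [pow_succ x (l + 1), pow_succ x l]
    nlinarith

theorem sum_kap_om (hu : 0 < u) (b l : ℕ) :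
    ∑ i ∈ range b, kap M u i * LH.om (Kb M u i) u l ≤ LH.om (Kb M u b) u (l + 1) := by
  induction b with
  | zero => simpa using LH.om_nonneg (Kb_nonneg hu.le 0) hu.le (l + 1)
  | succ b ih =>
    rw [Finset.sum_range_succ]
    refine (add_le_add ih le_rfl).trans ?_
    have hK : Kb M u (b + 1) = Kb M u b + u * kap M u b := by
      rw [Kb, Kb, Finset.sum_range_succ, mul_add]
    have hk := pow_add_ge (Kb_nonneg (M := M) hu.le b)
      (mul_nonneg hu.le (kap_nonneg (M := M) hu.le b)) l
    rw [hK, LH.om, LH.om, LH.om]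
    have hden : (0 : ℝ) < (l + 1).factorial * u ^ (l + 1) := by positivity
    rw [le_div_iff₀ hden, add_mul, div_mul_cancel₀ _ hden.ne', Nat.factorial_succ]
    push_cast
    refine le_trans (le_of_eq ?_) hk
    field_simp
    ring

theorem Kb_le_log (h : Hyp L W M u) : Kb M u M ≤ 1000 * Real.log (1 + 2 * u) := by
  have hu := h.u_pos
  have hu2 := h.two_le
  have hM : (0 : ℝ) < M := by exact_mod_cast h.M_pos
  have key : ∀ b : ℕ, 1 ≤ b → ∑ i ∈ range b, u / M / (1 + 2 * u * i / M)
      ≤ u / M + 1 / 2 * Real.log (1 + 2 * u * ((b : ℝ) - 1) / M) := by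
    intro b hb
    induction b, hb using Nat.le_induction with
    | base => simp
    | succ b hb ih =>
      rw [Finset.sum_range_succ]
      have hb1 : (1 : ℝ) ≤ b := by exact_mod_cast hb
      set p := 1 + 2 * u * ((b : ℝ) - 1) / M with hp
      set q := 1 + 2 * u * (b : ℝ) / M with hq
      have hp0 : 0 < p := by
        have : 0 ≤ 2 * u * ((b : ℝ) - 1) / M :=
          div_nonneg (mul_nonneg (by linarith) (by linarith)) hM.le
        linarith
      have hq0 : 0 < q := by positivity
      have hl := Real.log_le_sub_one_of_pos (show 0 < p / q by positivity)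
      rw [Real.log_div hp0.ne' hq0.ne'] at hl
      have e : p / q - 1 = -(2 * (u / M / q)) := by
        rw [hp, hq]; field_simp; ring
      push_cast
      rw [show (b : ℝ) + 1 - 1 = b by ring, ← hq]
      linarith
  have h1 := key M h.M_pos
  have h2 : Real.log (1 + 2 * u * ((M : ℝ) - 1) / M) ≤ Real.log (1 + 2 * u) := by
    have h8 : (8 : ℝ) ≤ M := by exact_mod_cast h.eight_le
    refine Real.log_le_log ?_ ?_
    · have : 0 ≤ 2 * u * ((M : ℝ) - 1) / M :=
        div_nonneg (mul_nonneg (by linarith) (by linarith)) hM.le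
      linarith
    · rw [add_le_add_iff_left, div_le_iff₀ hM]; nlinarith
  have h3 : u / M ≤ 1 := by
    rw [div_le_one hM]
    exact le_trans (by nlinarith [mul_le_mul hu2 hu2 (by norm_num) hu.le]) h.cube_le
  have h4 : 1 ≤ Real.log (1 + 2 * u) := by
    rw [Real.le_log_iff_exp_le (by linarith)]
    exact le_trans Real.exp_one_lt_d9.le (by linarith)
  have e : Kb M u M = 576 * ∑ i ∈ range M, u / M / (1 + 2 * u * i / M) := by
    rw [Kb, Finset.mul_sum, Finset.mul_sum]
    exact Finset.sum_congr rfl fun i _ => by rw [kap]; ring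
  rw [e]
  linarith

/-- The steps behind a coordinate. -/
def Atc (L : LH α) (W : Finset α) (c : Crd α) : Finset (L.St W) :=
  Finset.univ.filter fun e => e.tl = cur c.1 ∧ e.tri = c.2

theorem mem_Atc {c : Crd α} {e : L.St W} : e ∈ Atc L W c ↔ e.tl = cur c.1 ∧ e.tri = c.2 := by
  simp [Atc]

theorem sum_roots (a : α) (G : L.St W → ℝ) :
    ∑ d ∈ roots L W a, ∑ e ∈ Atc L W d, G e
      = ∑ e : L.St W, (if e.tl = a then G e else 0) := by
  rw [← Finset.sum_filter, ← Finset.sum_fiberwise_of_maps_to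
    (g := fun e : L.St W => (((a, []), e.tri) : Crd α)) (t := roots L W a) fun e he => by
      rw [Finset.mem_filter] at he
      refine mem_roots.2 ⟨rfl, ?_⟩
      simp only [LH.star, Finset.mem_filter]
      exact ⟨e.prop.1, he.2 ▸ e.prop.2.1⟩]
  refine Finset.sum_congr rfl fun d hd => Finset.sum_congr ?_ fun _ _ => rfl
  obtain ⟨h1, -⟩ := mem_roots.1 hd
  ext e
  simp only [mem_Atc, Finset.mem_filter, Finset.mem_univ, true_and, h1, cur]
  exact and_congr_right fun _ => ⟨fun h => Prod.ext h1.symm h, fun h => congrArg Prod.snd h⟩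

theorem sum_ch {c : Crd α} (hc : VC L W c) (G : L.St W → ℝ) :
    ∑ d ∈ ch L W c, ∑ e ∈ Atc L W d, G e = ∑ ρ ∈ Atc L W c, (L.Bm W *ᵥ G) ρ := by
  simp only [Matrix.mulVec, dotProduct, LH.Bm, ite_mul, one_mul, zero_mul, ← Finset.sum_filter]
  rw [← Finset.sum_biUnion, ← Finset.sum_biUnion]
  · refine Finset.sum_congr ?_ fun _ _ => rfl
    ext e
    simp only [Finset.mem_biUnion, mem_Atc, Finset.mem_filter, Finset.mem_univ, true_and]
    constructor
    · rintro ⟨d, hd, h1, h2⟩
      obtain ⟨hk, he⟩ := mem_ch.1 hd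
      obtain ⟨x, hx, hq⟩ := mem_kids.1 hk
      rw [← hq, cur_child] at h1
      have hm := mem_edgesAt.1 he
      rw [← hq, exc_child] at hm
      refine ⟨⟨(cur c.1, c.2, x), LH.mem_steps.2 ⟨(mem_edgesAt.1 hc.2).2.1,
        (mem_edgesAt.1 hc.2).2.2, Finset.mem_of_mem_erase hx,
        Ne.symm (Finset.ne_of_mem_erase hx)⟩⟩, ⟨rfl, rfl⟩, h1.symm, ?_⟩
      show c.2 ≠ e.tri
      rw [h2]
      exact hm.1.symm
    · rintro ⟨ρ, ⟨h1, h2⟩, h3, h4⟩
      refine ⟨(child c.1 c.2 e.tl, e.tri), mem_ch.2 ⟨mem_kids.2 ⟨e.tl, ?_, rfl⟩, ?_⟩, ?_, rfl⟩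
      · rw [← h3, Finset.mem_erase, ← h1, ← h2]
        exact ⟨ρ.prop.2.2.2.symm, ρ.prop.2.2.1⟩
      · rw [mem_edgesAt, exc_child, cur_child, ← h2]
        exact ⟨h4.symm, e.prop.1, e.prop.2.1⟩
      · rfl
  · intro ρ hρ σ hσ hne
    rw [Finset.mem_coe, mem_Atc] at hρ hσ
    simp only [Function.onFun, Finset.disjoint_left, Finset.mem_filter, Finset.mem_univ, true_and]
    intro e he he'
    exact hne (LH.St.ext' (hρ.1.trans hσ.1.symm) (hρ.2.trans hσ.2.symm) (he.1.trans he'.1.symm))
  · intro d hd d' hd' hne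
    simp only [Function.onFun, Finset.disjoint_left, mem_Atc]
    intro e he he'
    exact hne (ch_edge_inj hc (Finset.mem_coe.1 hd) (Finset.mem_coe.1 hd') (he.2.symm.trans he'.2))

theorem Atc_nonempty {c : Crd α} (hc : VC L W c) : (Atc L W c).Nonempty := by
  have hm := mem_edgesAt.1 hc.2
  obtain ⟨x, hx, hne⟩ := Finset.exists_mem_ne (s := c.2) (by rw [LH.card_tri hm.2.1]; norm_num)
    (cur c.1)
  exact ⟨⟨(cur c.1, c.2, x), LH.mem_steps.2 ⟨hm.2.1, hm.2.2, hx, hne.symm⟩⟩,
    mem_Atc.2 ⟨rfl, rfl⟩⟩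

theorem weight_le (h : Hyp L W M u) {c d : Crd α} (hc : VC L W c) (hd : d ∈ ch L W c) {i : ℕ}
    (hi : i ≤ M) (hl : c.1.2.length + 1 + i ≤ 4 * M + 4) :
    avgF (idx L W M) M (fun ω => ind (∀ q ∈ kids c,
      aliveX L W (if q = d.1 then {d.2} else ∅) ω i q)) ≤ 576 / (1 + 2 * u * i / M) := by
  let F : Node α → (Crd α → ℕ) → ℝ :=
    fun q ω => ind (aliveX L W (if q = d.1 then {d.2} else ∅) ω i q)
  have hdepF : ∀ q ∈ kids c, DepOn (F q) (Below q) := fun q _ ω ω' hω =>
    congrArg ind (depOn_aliveX (L := L) (W := W) _ i q ω ω' hω)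
  have hprod := avgF_prod (I := idx L W M) h.M_pos (kids c) (F := F) (S := fun q => Below q) hdepF
    (fun q hq q' hq' hne e he => below_kids_disjoint hq hq' hne he)
  refine le_trans (le_of_eq ((avgF_congr fun ω _ => ?_).trans hprod)) ?_
  · exact ind_forall (kids c) fun q => aliveX L W (if q = d.1 then {d.2} else ∅) ω i q
  have hval : ∀ q ∈ kids c, Valid L W q ∧ q.2.length = c.1.2.length + 1 := by
    intro q hq
    obtain ⟨x, hx, rfl⟩ := mem_kids.1 hq
    exact ⟨valid_child.2 ⟨hc.1, hc.2, hx⟩, by simp [child]⟩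
  have hF : ∀ q ∈ kids c, avgF (idx L W M) M (F q)
      ≤ 144 ^ (if q = d.1 then ({d.2} : Finset (Finset α)) else ∅).card
        * (2 / Real.sqrt (1 + 2 * u * i / M)) := fun q hq => by
    have := h.aliveX_le (X := if q = d.1 then {d.2} else ∅) (hval q hq).1 hi
      (by rw [(hval q hq).2]; exact hl)
    unfold treeP prob at this
    exact this
  refine le_trans (Finset.prod_le_prod (f := fun q => avgF (idx L W M) M (F q))
    (fun q _ => avgF_nonneg fun ω => ind_nonneg _) hF) ?_
  rw [Finset.prod_mul_distrib, Finset.prod_pow_eq_pow_sum, Finset.prod_const, kids_card hc]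
  have hs : ∑ q ∈ kids c, (if q = d.1 then ({d.2} : Finset (Finset α)) else ∅).card = 1 := by
    rw [Finset.sum_eq_single_of_mem d.1 (mem_ch.1 hd).1 fun q _ hq => by rw [if_neg hq]; rfl,
      if_pos rfl]
    rfl
  have hu := h.u_pos
  rw [hs, div_pow, Real.sq_sqrt (by positivity)]
  exact le_of_eq (by ring)

/-- The mean of a count below a coordinate. -/
theorem gen_le (h : Hyp L W M u) {base : Crd α → (Crd α → ℕ) → ℝ} (h0 : ∀ c ω, 0 ≤ base c ω)
    (hdep : ∀ c, DepOn (base c) (Bk c)) {V : L.St W → ℝ} (hV : ∀ ρ, 0 ≤ V ρ) {D : ℕ}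
    (hD : D ≤ 3 * M)
    (hbase : ∀ c, VC L W c → c.1.2.length ≤ D →
      avgF (idx L W M) M (base c) ≤ ∑ ρ ∈ Atc L W c, V ρ) :
    ∀ b, b ≤ M → ∀ c, VC L W c → c.1.2.length + b ≤ D →
      avgF (idx L W M) M (gen L W base b c) ≤ ∑ ρ ∈ Atc L W c,
        ∑ l ∈ range (b + 1), LH.om (Kb M u b) u l * (L.Bm W ^ l *ᵥ V) ρ := by
  intro b
  induction b using Nat.strong_induction_on with
  | _ b ih =>
    intro hb c hc hl
    have hM := h.M_pos
    have hu := h.u_pos
    have hBV : ∀ l σ, 0 ≤ (L.Bm W ^ l *ᵥ V) σ := fun l σ =>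
      Finset.sum_nonneg fun e _ => mul_nonneg (LH.pow_nn l σ e) (hV e)
    let T : L.St W → ℝ := fun σ =>
      ∑ l ∈ range b, LH.om (Kb M u b) u (l + 1) * (L.Bm W ^ l *ᵥ V) σ
    have hterm : ∀ d ∈ ch L W c, avgF (idx L W M) M (fun ω =>
        if _h : ω d < b then ind (∀ q ∈ kids c, talive L W ω (ω d) q) * gen L W base (ω d) d ω
        else 0) ≤ ∑ σ ∈ Atc L W d, T σ := by
      intro d hd
      obtain ⟨hvd, hld⟩ := vc_ch hc hd
      refine (avgF_mono (g := fun ω => ∑ i ∈ range b, ind (ω d = i) *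
        (ind (∀ q ∈ kids c, aliveX L W (if q = d.1 then {d.2} else ∅) ω i q) *
          gen L W base i d ω)) fun ω _ => ?_).trans ?_
      · have hnn : ∀ i, 0 ≤ ind (ω d = i) *
            (ind (∀ q ∈ kids c, aliveX L W (if q = d.1 then {d.2} else ∅) ω i q) *
              gen L W base i d ω) := fun i =>
          mul_nonneg (ind_nonneg _) (mul_nonneg (ind_nonneg _) (gen_nonneg h0 _ _ _))
        split_ifs with hlt
        · refine le_trans ?_ (Finset.single_le_sum (fun i _ => hnn i) (Finset.mem_range.2 hlt))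
          rw [ind_true rfl, one_mul]
          refine mul_le_mul_of_nonneg_right (ind_mono fun hal q hq => ?_) (gen_nonneg h0 _ _ _)
          exact fun r hr => (talive_iff.1 (hal q hq)) r (Finset.mem_sdiff.1 hr).1
        · exact Finset.sum_nonneg fun i _ => hnn i
      rw [avgF_sum]
      calc ∑ i ∈ range b, avgF (idx L W M) M (fun ω => ind (ω d = i) *
            (ind (∀ q ∈ kids c, aliveX L W (if q = d.1 then {d.2} else ∅) ω i q) *
              gen L W base i d ω))
          ≤ ∑ i ∈ range b, kap M u i * ∑ σ ∈ Atc L W d,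
              ∑ l ∈ range (i + 1), LH.om (Kb M u i) u l * (L.Bm W ^ l *ᵥ V) σ := by
            refine Finset.sum_le_sum fun i hi => ?_
            rw [Finset.mem_range] at hi
            have hdk : DepOn (fun ω : Crd α → ℕ => ind (∀ q ∈ kids c,
                aliveX L W (if q = d.1 then {d.2} else ∅) ω i q)) (Behind d.1 d.2)ᶜ := by
              intro ω ω' hω
              refine ind_congr (forall₂_congr fun q hq => aliveX_congr_behind fun r hr e he => ?_)
              refine hω e fun hed => ?_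
              by_cases hqd : q = d.1
              · rw [if_pos hqd, Finset.mem_sdiff, Finset.mem_singleton] at hr
                exact behind_disjoint hr.2 (hqd ▸ he) hed
              · exact below_kids_disjoint hq (mem_ch.1 hd).1 hqd (behind_subset q r he)
                  (behind_subset d.1 d.2 hed)
            have hdg := depOn_gen (L := L) (W := W) hdep i d
            rw [avgF_mul hM (S := {d}) (fun ω ω' hω => by rw [hω d rfl]) fun ω ω' hω => ?_]
            · rw [show avgF (idx L W M) M (fun ω => ind (ω d = i)) = 1 / (M : ℝ) from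
                prob_single hM (vc_idx hvd (by omega)) (by omega)]
              rw [avgF_mul hM (S := (Behind d.1 d.2)ᶜ) hdk fun ω ω' hω =>
                hdg ω ω' fun e he => hω e fun hc' => hc' (bk_subset_behind d he), kap, mul_assoc]
              refine mul_le_mul_of_nonneg_left ?_ (by positivity)
              exact mul_le_mul (weight_le h hc hd (by omega) (by omega))
                (ih i hi (by omega) d hvd (by omega))
                (avgF_nonneg fun ω => gen_nonneg h0 _ _ _) (by positivity)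
            · show ind _ * _ = ind _ * _
              congr 1
              · exact hdk ω ω' fun e he => hω e fun hed =>
                  he (Or.inl (Set.mem_singleton_iff.1 hed))
              · exact hdg ω ω' fun e he => hω e fun hed =>
                  self_notMem_bk d ((Set.mem_singleton_iff.1 hed) ▸ he)
        _ ≤ ∑ i ∈ range b, kap M u i * ∑ σ ∈ Atc L W d,
              ∑ l ∈ range b, LH.om (Kb M u i) u l * (L.Bm W ^ l *ᵥ V) σ := by
            refine Finset.sum_le_sum fun i hi => mul_le_mul_of_nonneg_left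
              (Finset.sum_le_sum fun σ _ => ?_) (kap_nonneg hu.le i)
            exact Finset.sum_le_sum_of_subset_of_nonneg
              (Finset.range_mono (Finset.mem_range.1 hi))
              fun l _ _ => mul_nonneg (LH.om_nonneg (Kb_nonneg hu.le i) hu.le l) (hBV l σ)
        _ = ∑ σ ∈ Atc L W d, ∑ l ∈ range b,
              (∑ i ∈ range b, kap M u i * LH.om (Kb M u i) u l) * (L.Bm W ^ l *ᵥ V) σ := by
            simp only [Finset.mul_sum, Finset.sum_mul]
            rw [Finset.sum_comm]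
            refine Finset.sum_congr rfl fun σ _ => ?_
            rw [Finset.sum_comm]
            exact Finset.sum_congr rfl fun l _ => Finset.sum_congr rfl fun i _ => by ring
        _ ≤ _ := Finset.sum_le_sum fun σ _ => Finset.sum_le_sum fun l _ =>
            mul_le_mul_of_nonneg_right (sum_kap_om hu b l) (hBV l σ)
    rw [avgF_congr (g := fun ω => base c ω + ∑ d ∈ ch L W c,
      if _h : ω d < b then ind (∀ q ∈ kids c, talive L W ω (ω d) q) * gen L W base (ω d) d ω
      else 0) fun ω _ => by rw [gen], avgF_add, avgF_sum]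
    refine (add_le_add (hbase c hc (by omega)) (Finset.sum_le_sum hterm)).trans (le_of_eq ?_)
    rw [sum_ch hc, ← Finset.sum_add_distrib]
    refine Finset.sum_congr rfl fun ρ _ => ?_
    rw [Finset.sum_range_succ', add_comm]
    congr 1
    · have hT : T = ∑ l ∈ range b, LH.om (Kb M u b) u (l + 1) • (L.Bm W ^ l *ᵥ V) := by
        funext σ
        simp [T, Finset.sum_apply]
      rw [hT, Matrix.mulVec_sum, Finset.sum_apply]
      exact Finset.sum_congr rfl fun l _ => by
        rw [Matrix.mulVec_smul, Matrix.mulVec_mulVec, ← pow_succ', Pi.smul_apply, smul_eq_mul]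
    · simp [LH.om]

end P046.Tree
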