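import Vale.Agent.P046.Full.Walk

/-!
P046, part III: weighted sums of walks. Pairs of explorations that meet over the same edge are
bounded by closed non-backtracking walks.
-/

namespace P046

open Finset Matrix

namespace LH

variable {α : Type} [DecidableEq α] {L : LH α} {W : Finset α}

/-- The weight of `l` decreasing steps. -/
noncomputable def om (a u : ℝ) (l : ℕ) : ℝ := a ^ l / (l.factorial * u ^ l)

theorem om_nonneg {a u : ℝ} (ha : 0 ≤ a) (hu : 0 ≤ u) (l : ℕ) : 0 ≤ om a u l := by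
  unfold om; positivity

theorem om_mono {a b u : ℝ} (ha : 0 ≤ a) (hab : a ≤ b) (hu : 0 ≤ u) (l : ℕ) :
    om a u l ≤ om b u l := by
  unfold om; gcongr

theorem sum_exp_le {a : ℝ} (ha : 0 ≤ a) (N : ℕ) :
    ∑ k ∈ range N, a ^ k / k.factorial ≤ Real.exp a := Real.sum_le_exp_of_nonneg ha N

theorem om_shift {a u : ℝ} (ha : 1 ≤ a) (hu : 0 < u) {d : ℕ} (hd : d ≤ 4) (p : ℕ) :
    om a u p ≤ 24 * u ^ d * om (2 * a) u (p + d) := by
  have ha0 : 0 < a := by linarith
  have h1 : (p + d).factorial ≤ 24 * 2 ^ (p + d) * p.factorial := by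
    calc (p + d).factorial
        = (p + d).choose d * p.factorial * d.factorial :=
          (Nat.add_choose_mul_factorial_mul_factorial p d).symm
      _ ≤ 2 ^ (p + d) * p.factorial * 24 :=
          Nat.mul_le_mul (Nat.mul_le_mul (Nat.choose_le_two_pow _ _) le_rfl)
            (le_trans (Nat.factorial_le hd) le_rfl)
      _ = _ := by ring
  have h2 : ((p + d).factorial : ℝ) ≤ 24 * 2 ^ (p + d) * p.factorial := by exact_mod_cast h1
  have h3 : a ^ p ≤ a ^ (p + d) := pow_le_pow_right₀ ha (Nat.le_add_right _ _)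
  rw [om, om, mul_pow, pow_add u, mul_div_assoc', div_le_div_iff₀ (by positivity) (by positivity)]
  calc a ^ p * ((p + d).factorial * (u ^ p * u ^ d))
      ≤ a ^ (p + d) * ((24 * 2 ^ (p + d) * p.factorial) * (u ^ p * u ^ d)) := by gcongr
    _ = _ := by ring

theorem double_le {a u : ℝ} (ha : 0 ≤ a) (hu : 0 < u) (N : ℕ) {g : ℕ → ℝ} (hg : ∀ l, 0 ≤ g l) :
    ∑ p ∈ range N, ∑ q ∈ range N, om a u p * om a u q * g (p + q)
      ≤ ∑ l ∈ range (2 * N - 1), om (2 * a) u l * g l := by
  rw [← Finset.sum_product', ← Finset.sum_fiberwise_of_maps_to (g := fun x : ℕ × ℕ => x.1 + x.2)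
    (t := range (2 * N - 1)) (fun x hx => by
      simp only [Finset.mem_product, Finset.mem_range] at hx ⊢; omega)]
  refine Finset.sum_le_sum fun l _ => ?_
  have h1 : ∀ x ∈ (range N ×ˢ range N).filter (fun x => x.1 + x.2 = l),
      om a u x.1 * om a u x.2 * g (x.1 + x.2)
        = (l.choose x.1 : ℝ) * (a ^ l / (l.factorial * u ^ l) * g l) := by
    intro x hx
    obtain ⟨p, q⟩ := x
    obtain ⟨-, rfl⟩ := Finset.mem_filter.1 hx
    have h : ((p + q).choose p * p.factorial * q.factorial : ℝ) = (p + q).factorial := by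
      rw [Nat.choose_symm_add]
      exact_mod_cast Nat.add_choose_mul_factorial_mul_factorial p q
    have hc : (0:ℝ) < (p + q).choose p := by exact_mod_cast Nat.choose_pos (Nat.le_add_right p q)
    dsimp only
    rw [om, om, ← h, pow_add, pow_add]
    field_simp
  rw [Finset.sum_congr rfl h1, ← Finset.sum_mul, om, mul_pow, mul_div_assoc, mul_assoc]
  refine mul_le_mul_of_nonneg_right ?_ (mul_nonneg (by positivity) (hg l))
  have h2 : ∑ x ∈ (range N ×ˢ range N).filter (fun x => x.1 + x.2 = l), (l.choose x.1 : ℝ)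
      = ∑ p ∈ ((range N ×ˢ range N).filter fun x => x.1 + x.2 = l).image Prod.fst,
          (l.choose p : ℝ) := by
    rw [Finset.sum_image]
    intro x hx y hy h
    simp only [Finset.coe_filter, Finset.mem_product, Set.mem_ofPred_eq] at hx hy
    exact Prod.ext h (by omega)
  rw [h2]
  refine (Finset.sum_le_sum_of_subset_of_nonneg (t := range (l + 1)) (fun p hp => ?_)
    fun p _ _ => by positivity).trans (le_of_eq ?_)
  · obtain ⟨x, hx, rfl⟩ := Finset.mem_image.1 hp
    simp only [Finset.mem_filter] at hx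
    rw [Finset.mem_range]; omega
  · exact_mod_cast Nat.sum_range_choose l

variable (L W)

/-- The weighted number of closed walks. -/
noncomputable def psi (a u : ℝ) (N : ℕ) : ℝ := ∑ i ∈ Finset.Ico 2 N, om a u i * L.tw W i

/-- The steps that lead to a node of `t` other than through `t`. -/
def Vt (t : Finset α) : L.St W → ℝ := fun e => if e.hd ∈ t ∧ t ≠ e.tri then 1 else 0

/-- Two steps into the nodes of one further edge. -/
def Qm : Matrix (L.St W) (L.St W) ℝ :=
  L.Bm W * (L.Bm W).transpose + L.Bm W * L.Bm W * L.Jm W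

/-- Steps out of one edge through the same node. -/
def R0 : Matrix (L.St W) (L.St W) ℝ := 1 + L.Jm W * L.Sm W * L.Jm W

/-- First steps of two branches. -/
def Rb : Matrix (L.St W) (L.St W) ℝ :=
  L.Jm W * L.Bm W + L.Jm W * L.Bm W * L.Bm W

/-- The walks into the nodes of `t` with their weights. -/
noncomputable def Zt (a u : ℝ) (N : ℕ) (t : Finset α) : L.St W → ℝ :=
  fun e => ∑ p ∈ range N, om a u p * (L.Bm W ^ p *ᵥ L.Vt W t) e

variable {L W}

theorem psi_nonneg' {a u : ℝ} (ha : 0 ≤ a) (hu : 0 ≤ u) (N : ℕ) : 0 ≤ L.psi W a u N :=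
  Finset.sum_nonneg fun i _ => mul_nonneg (om_nonneg ha hu i) (tw_nonneg i)

theorem vw_nonneg (l : ℕ) : 0 ≤ L.vw W l :=
  Finset.sum_nonneg fun e _ => mul_nn Jm_nn (pow_nn l) e e

theorem sum_tw_le {a u : ℝ} (ha : 1 ≤ a) (hu : 1 ≤ u) {d : ℕ} (hd : d ≤ 4) {S : Finset ℕ}
    {N : ℕ} (h1 : ∀ p ∈ S, 1 ≤ p + d) (h2 : ∀ p ∈ S, p + d < N) :
    ∑ p ∈ S, om a u p * L.tw W (p + d) ≤ 24 * u ^ 4 * L.psi W (2 * a) u N := by
  calc ∑ p ∈ S, om a u p * L.tw W (p + d)
      ≤ ∑ p ∈ S, 24 * u ^ 4 * (om (2 * a) u (p + d) * L.tw W (p + d)) := by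
        refine Finset.sum_le_sum fun p _ => ?_
        rw [← mul_assoc]
        refine mul_le_mul_of_nonneg_right ((om_shift ha (by linarith) hd p).trans ?_) (tw_nonneg _)
        refine mul_le_mul_of_nonneg_right ?_ (om_nonneg (by linarith) (by linarith) _)
        exact mul_le_mul_of_nonneg_left (pow_le_pow_right₀ hu hd) (by norm_num)
    _ = 24 * u ^ 4 * ∑ i ∈ S.image (· + d), om (2 * a) u i * L.tw W i := by
        rw [← Finset.mul_sum, Finset.sum_image fun x _ y _ h => Nat.add_right_cancel h]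
    _ ≤ _ := by
        refine mul_le_mul_of_nonneg_left ?_ (by positivity)
        rw [← Finset.sum_filter_add_sum_filter_not (S.image (· + d)) (fun i => 2 ≤ i)]
        refine le_trans (le_of_eq (add_eq_left.2 (Finset.sum_eq_zero fun i hi => ?_))) ?_
        · rw [Finset.mem_filter, Finset.mem_image] at hi
          obtain ⟨⟨p, hp, rfl⟩, hi⟩ := hi
          have := h1 p hp
          rw [show p + d = 1 by omega, tw_one, mul_zero]
        · refine Finset.sum_le_sum_of_subset_of_nonneg (fun i hi => ?_)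
            fun i _ _ => mul_nonneg (om_nonneg (by linarith) (by linarith) i) (tw_nonneg i)
          rw [Finset.mem_filter, Finset.mem_image] at hi
          obtain ⟨⟨p, hp, rfl⟩, hi⟩ := hi
          exact Finset.mem_Ico.2 ⟨hi, h2 p hp⟩

theorem sum_vw_le {a u : ℝ} (ha : 1 ≤ a) (hu : 1 ≤ u)
    (hdeg : ∀ x ∈ W, (L.deg W x : ℝ) ≤ 2 * u) {d : ℕ} (hd : d ≤ 4) {S : Finset ℕ} {N : ℕ}
    (h2 : ∀ p ∈ S, p + d < N) :
    ∑ p ∈ S, om a u p * L.vw W (p + d)
      ≤ 24 * u ^ 4 * Real.exp (8 * a) * L.psi W (2 * a) u N := by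
  have hu0 : 0 < u := by linarith
  have h0 : ∀ l, 0 ≤ om (2 * a) u l := om_nonneg (by linarith) (by linarith)
  calc ∑ p ∈ S, om a u p * L.vw W (p + d)
      ≤ ∑ p ∈ S, 24 * u ^ 4 * (om (2 * a) u (p + d) * L.vw W (p + d)) := by
        refine Finset.sum_le_sum fun p _ => ?_
        rw [← mul_assoc]
        refine mul_le_mul_of_nonneg_right ((om_shift ha hu0 hd p).trans ?_) (vw_nonneg _)
        refine mul_le_mul_of_nonneg_right ?_ (h0 _)
        exact mul_le_mul_of_nonneg_left (pow_le_pow_right₀ hu hd) (by norm_num)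
    _ ≤ 24 * u ^ 4 * ∑ l ∈ range N, om (2 * a) u l * L.vw W l := by
        rw [← Finset.mul_sum,
          ← Finset.sum_image (g := (· + d)) (f := fun i => om (2 * a) u i * L.vw W i)
            fun x _ y _ h => Nat.add_right_cancel h]
        refine mul_le_mul_of_nonneg_left (Finset.sum_le_sum_of_subset_of_nonneg (fun i hi => ?_)
          fun i _ _ => mul_nonneg (h0 i) (vw_nonneg i)) (by positivity)
        obtain ⟨p, hp, rfl⟩ := Finset.mem_image.1 hi
        exact Finset.mem_range.2 (h2 p hp)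
    _ ≤ _ := by
        rw [mul_assoc (24 * u ^ 4)]
        refine mul_le_mul_of_nonneg_left ?_ (by positivity)
        calc ∑ l ∈ range N, om (2 * a) u l * L.vw W l
            ≤ ∑ l ∈ range N, ∑ i ∈ Finset.Ico 2 l,
                (8 * a) ^ (l - i) / (l - i).factorial * (om (2 * a) u i * L.tw W i) := by
              refine Finset.sum_le_sum fun l _ => ?_
              refine (mul_le_mul_of_nonneg_left (vw_le hu hdeg l) (h0 l)).trans ?_
              rw [Finset.mul_sum]
              refine Finset.sum_le_sum fun i hi => ?_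
              rw [Finset.mem_Ico] at hi
              obtain ⟨k, rfl⟩ := Nat.exists_eq_add_of_le hi.2.le
              rw [← mul_assoc, ← mul_assoc, Nat.add_sub_cancel_left]
              refine mul_le_mul_of_nonneg_right ?_ (tw_nonneg i)
              have h4 : ((i.factorial * k.factorial : ℕ) : ℝ) ≤ (i + k).factorial := by
                exact_mod_cast Nat.le_of_dvd (Nat.factorial_pos _)
                  (Nat.factorial_mul_factorial_dvd_factorial_add i k)
              push_cast at h4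
              rw [om, om, div_mul_eq_mul_div, div_mul_div_comm,
                div_le_div_iff₀ (by positivity) (by positivity)]
              calc (2 * a) ^ (i + k) * (4 * u) ^ k * (k.factorial * (i.factorial * u ^ i))
                  = ((8 * a) ^ k * (2 * a) ^ i) * ((i.factorial * k.factorial) * u ^ (i + k)) := by
                    simp only [pow_add, mul_pow]
                    rw [show (8 : ℝ) ^ k = 2 ^ k * 4 ^ k by rw [← mul_pow]; norm_num]
                    ring
                _ ≤ _ := by gcongr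
          _ ≤ ∑ i ∈ Finset.Ico 2 N, ∑ l ∈ Finset.Ico i N,
                (8 * a) ^ (l - i) / (l - i).factorial * (om (2 * a) u i * L.tw W i) := by
              rw [Finset.sum_comm' (t' := Finset.Ico 2 N) (s' := fun i => Finset.Ico (i + 1) N)
                fun l i => by simp only [Finset.mem_range, Finset.mem_Ico]; omega]
              refine Finset.sum_le_sum fun i _ => Finset.sum_le_sum_of_subset_of_nonneg
                (Finset.Ico_subset_Ico_left (Nat.le_succ i)) fun l _ _ => ?_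
              have := tw_nonneg (L := L) (W := W) i
              have := h0 i
              positivity
          _ ≤ Real.exp (8 * a) * L.psi W (2 * a) u N := by
              rw [psi, Finset.mul_sum]
              refine Finset.sum_le_sum fun i _ => ?_
              rw [← Finset.sum_mul, Finset.sum_Ico_eq_sum_range]
              refine mul_le_mul_of_nonneg_right ?_ (mul_nonneg (h0 i) (tw_nonneg i))
              simp only [Nat.add_sub_cancel_left]
              exact sum_exp_le (by linarith) _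

theorem Vt_nn (t : Finset α) (e : L.St W) : 0 ≤ L.Vt W t e := by
  unfold Vt; split_ifs <;> norm_num

theorem VV_le :
    MLe (∑ t ∈ L.tris W, Matrix.vecMulVec (L.Vt W t) (L.Vt W t)) (L.Qm W) := by
  intro e f
  rw [Matrix.sum_apply, Qm, Matrix.add_apply, mul_Jm, Matrix.mul_apply, Matrix.mul_apply]
  simp only [Matrix.vecMulVec_apply, Matrix.transpose_apply, Vt, Bm, ite_mul, one_mul, zero_mul,
    ← ite_and, Finset.sum_boole]
  rw [← Nat.cast_add, Nat.cast_le]
  by_cases h : e.hd = f.hd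
  · refine le_trans ?_ (Nat.le_add_right _ _)
    refine Finset.card_le_card_of_surjOn (fun c => c.tri) fun t ht => ?_
    simp only [Finset.coe_filter, Set.mem_ofPred_eq] at ht
    obtain ⟨ht, ⟨h1, h2⟩, -, h4⟩ := ht
    obtain ⟨x, hx, hxe⟩ : ∃ x ∈ t, x ≠ e.hd := by
      have : 1 < t.card := by rw [card_tri ht]; norm_num
      exact Finset.exists_mem_ne this _
    refine ⟨⟨(e.hd, t, x), mem_steps.2 ⟨ht, h1, hx, hxe.symm⟩⟩, ?_, rfl⟩
    simp only [Finset.coe_filter, Finset.mem_univ, true_and, Set.mem_ofPred_eq]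
    exact ⟨⟨rfl, h2.symm⟩, h.symm, h4.symm⟩
  · refine le_trans ?_ (Nat.le_add_left _ _)
    refine Finset.card_le_card_of_surjOn (fun c => c.tri) fun t ht => ?_
    simp only [Finset.coe_filter, Set.mem_ofPred_eq] at ht
    obtain ⟨ht, ⟨h1, h2⟩, h3, h4⟩ := ht
    refine ⟨⟨(e.hd, t, f.hd), mem_steps.2 ⟨ht, h1, h3, h⟩⟩, ?_, rfl⟩
    simp only [Finset.coe_filter, Finset.mem_univ, true_and, Set.mem_ofPred_eq]
    exact ⟨⟨rfl, h2.symm⟩, rfl, fun h' => h4 h'⟩

theorem Qm_nn : MLe (L := L) (W := W) 0 (L.Qm W) := fun e f =>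
  add_nonneg (mul_nn Bm_nn (fun a b => Bm_nn b a) e f) (mul_nn (mul_nn Bm_nn Bm_nn) Jm_nn e f)

theorem Qm_symm : (L.Qm W).transpose = L.Qm W := by
  rw [Qm, Matrix.transpose_add, Matrix.transpose_mul, Matrix.transpose_transpose,
    Matrix.transpose_mul, Matrix.transpose_mul, Bm_transpose]
  congr 1
  have hJ : (L.Jm W).transpose = L.Jm W := by
    ext a b
    simp only [Matrix.transpose_apply, Jm]
    refine if_congr ⟨fun h => ?_, fun h => ?_⟩ rfl rfl <;> rw [h, St.rev_rev]
  rw [hJ]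
  simp only [mul_assoc]
  rw [← mul_assoc (L.Jm W) (L.Jm W), Jm_Jm, one_mul, ← mul_assoc (L.Jm W) (L.Jm W), Jm_Jm,
    one_mul]

theorem Jm_transpose : (L.Jm W).transpose = L.Jm W := by
  ext a b
  simp only [Matrix.transpose_apply, Jm]
  refine if_congr ⟨fun h => ?_, fun h => ?_⟩ rfl rfl <;> rw [h, St.rev_rev]

theorem Sm_transpose : (L.Sm W).transpose = L.Sm W := by
  ext a b
  simp only [Matrix.transpose_apply, Sm]
  exact if_congr ⟨fun h => ⟨h.1.symm, h.2.1.symm, Ne.symm h.2.2⟩,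
    fun h => ⟨h.1.symm, h.2.1.symm, Ne.symm h.2.2⟩⟩ rfl rfl

theorem JJ_cancel (A : Matrix (L.St W) (L.St W) ℝ) : L.Jm W * (L.Jm W * A) = A := by
  rw [← mul_assoc, Jm_Jm, one_mul]

theorem quad_le {P : Matrix (L.St W) (L.St W) ℝ} (hP : MLe 0 P) (p q : ℕ) :
    ∑ t ∈ L.tris W, ∑ e, ∑ f,
        P e f * ((L.Bm W ^ p *ᵥ L.Vt W t) e * (L.Bm W ^ q *ᵥ L.Vt W t) f)
      ≤ Matrix.trace (P.transpose * (L.Bm W ^ p * L.Qm W * (L.Bm W ^ q).transpose)) := by
  have hpair : ∀ X : Matrix (L.St W) (L.St W) ℝ,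
      Matrix.trace (P.transpose * X) = ∑ e, ∑ f, P e f * X e f := fun X => by
    rw [Finset.sum_comm]
    simp [Matrix.trace, Matrix.mul_apply, Matrix.transpose_apply]
  have h : ∀ t, L.Bm W ^ p * Matrix.vecMulVec (L.Vt W t) (L.Vt W t) * (L.Bm W ^ q).transpose
      = Matrix.vecMulVec (L.Bm W ^ p *ᵥ L.Vt W t) (L.Bm W ^ q *ᵥ L.Vt W t) := fun t => by
    rw [Matrix.mul_vecMulVec, Matrix.vecMulVec_mul, Matrix.vecMul_transpose]
  have hs : MLe (L.Bm W ^ p * (∑ t ∈ L.tris W, Matrix.vecMulVec (L.Vt W t) (L.Vt W t)) *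
      (L.Bm W ^ q).transpose) (L.Bm W ^ p * L.Qm W * (L.Bm W ^ q).transpose) := by
    have h0 : MLe 0 (∑ t ∈ L.tris W, Matrix.vecMulVec (L.Vt W t) (L.Vt W t)) := fun a b => by
      rw [Matrix.sum_apply]
      exact Finset.sum_nonneg fun t _ => mul_nonneg (Vt_nn t a) (Vt_nn t b)
    exact mul_mono (mul_mono mle_rfl VV_le h0 (pow_nn p)) mle_rfl
      (fun a b => pow_nn q b a) (mul_nn (pow_nn p) Qm_nn)
  rw [hpair, Finset.sum_comm]
  refine Finset.sum_le_sum fun e _ => ?_
  rw [Finset.sum_comm]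
  refine Finset.sum_le_sum fun f _ => ?_
  rw [← Finset.mul_sum]
  refine mul_le_mul_of_nonneg_left ?_ (hP e f)
  have h' := hs e f
  rw [Finset.mul_sum, Finset.sum_mul, Matrix.sum_apply, Finset.sum_congr rfl fun t _ => by
    rw [h t]] at h'
  exact h'

theorem key_BB (r p q : ℕ) :
    Matrix.trace (L.Jm W * L.Bm W ^ r *
        (L.Bm W ^ p * (L.Bm W * (L.Bm W).transpose) * (L.Bm W ^ q).transpose))
      = L.vw W (r + p + q + 2) := by
  have e : L.Jm W * L.Bm W ^ r *
        (L.Bm W ^ p * (L.Bm W * (L.Bm W).transpose) * (L.Bm W ^ q).transpose)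
      = L.Jm W * (L.Bm W ^ (r + p + 1) * L.Jm W * L.Bm W ^ (q + 1)) * L.Jm W := by
    rw [pow_transpose, Bm_transpose, pow_succ, pow_add, pow_succ']
    simp only [mul_assoc, JJ_cancel]
  rw [e, Matrix.trace_mul_comm, JJ_cancel, Matrix.trace_mul_comm, ← mul_assoc, ← pow_add,
    Matrix.trace_mul_comm, show q + 1 + (r + p + 1) = r + p + q + 2 by omega, vw]

theorem key_BBJ (r p q : ℕ) :
    Matrix.trace (L.Jm W * L.Bm W ^ r *
        (L.Bm W ^ p * (L.Bm W * L.Bm W * L.Jm W) * (L.Bm W ^ q).transpose))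
      = L.tw W (r + p + q + 2) := by
  have e : L.Jm W * L.Bm W ^ r *
        (L.Bm W ^ p * (L.Bm W * L.Bm W * L.Jm W) * (L.Bm W ^ q).transpose)
      = L.Jm W * (L.Bm W ^ (r + p + q + 2)) * L.Jm W := by
    rw [pow_transpose, show r + p + q + 2 = r + p + 1 + 1 + q by omega, pow_add, pow_succ,
      pow_succ, pow_add]
    simp only [mul_assoc, JJ_cancel]
  rw [e, Matrix.trace_mul_comm, JJ_cancel, tw]

theorem branch_trace (p q : ℕ) :
    Matrix.trace ((L.Rb W).transpose * (L.Bm W ^ p * L.Qm W * (L.Bm W ^ q).transpose))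
      = L.vw W (p + q + 3) + L.tw W (p + q + 3) + (L.vw W (p + q + 4) + L.tw W (p + q + 4)) := by
  have hR : (L.Rb W).transpose = L.Jm W * L.Bm W ^ 1 + L.Jm W * L.Bm W ^ 2 := by
    rw [Rb, Matrix.transpose_add, Matrix.transpose_mul, Matrix.transpose_mul, Matrix.transpose_mul,
      Jm_transpose, Bm_transpose, pow_one, pow_two]
    simp only [mul_assoc, Jm_Jm, mul_one, JJ_cancel]
  have hX : L.Bm W ^ p * L.Qm W * (L.Bm W ^ q).transpose
      = L.Bm W ^ p * (L.Bm W * (L.Bm W).transpose) * (L.Bm W ^ q).transpose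
        + L.Bm W ^ p * (L.Bm W * L.Bm W * L.Jm W) * (L.Bm W ^ q).transpose := by
    rw [Qm, mul_add, add_mul]
  rw [hR, hX, add_mul, mul_add, mul_add, Matrix.trace_add, Matrix.trace_add, Matrix.trace_add,
    key_BB, key_BBJ, key_BB, key_BBJ, show 1 + p + q + 2 = p + q + 3 by omega,
    show 2 + p + q + 2 = p + q + 4 by omega]

theorem R0_transpose : (L.R0 W).transpose = L.R0 W := by
  rw [R0, Matrix.transpose_add, Matrix.transpose_one, Matrix.transpose_mul, Matrix.transpose_mul,
    Jm_transpose, Sm_transpose, mul_assoc]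

theorem lolly_trace {u : ℝ} (hu : 1 ≤ u) (hdeg : ∀ x ∈ W, (L.deg W x : ℝ) ≤ 2 * u) (p : ℕ) :
    Matrix.trace ((L.R0 W).transpose * (L.Bm W ^ p * L.Qm W))
      ≤ 4 * u * (2 * L.tw W p + L.vw W (p + 1)) + 2 * L.vw W (p + 2) + L.tw W (p + 2) := by
  rw [R0_transpose, R0, Qm, add_mul, one_mul, Matrix.trace_add, mul_add (L.Bm W ^ p),
    Matrix.trace_add, mul_add, Matrix.trace_add]
  have h1 : Matrix.trace (L.Bm W ^ p * (L.Bm W * (L.Bm W).transpose))
      ≤ 4 * u * (2 * L.tw W p + L.vw W (p + 1)) := by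
    refine (trace_mono (mul_mono mle_rfl (mul_transpose_le hu hdeg)
      (mul_nn Bm_nn fun a b => Bm_nn b a) (pow_nn p))).trans ?_
    rw [mul_smul_comm, Matrix.trace_smul, smul_eq_mul, mul_add, mul_add, Matrix.trace_add,
      Matrix.trace_add, mul_one, ← mul_assoc (L.Bm W ^ p), ← pow_succ, Matrix.trace_mul_comm _
      (L.Jm W), ← tw, ← vw]
    refine mul_le_mul_of_nonneg_left ?_ (by linarith)
    linarith [trace_pow_S_le (L := L) (W := W) p]
  have h2 : Matrix.trace (L.Bm W ^ p * (L.Bm W * L.Bm W * L.Jm W)) = L.vw W (p + 2) := by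
    rw [vw, Matrix.trace_mul_comm (L.Jm W)]
    simp only [pow_succ, mul_assoc]
  have h3 : Matrix.trace (L.Jm W * L.Sm W * L.Jm W * (L.Bm W ^ p * (L.Bm W * (L.Bm W).transpose)))
      ≤ L.vw W (p + 2) := by
    set Y := L.Sm W * L.Jm W with hY
    calc Matrix.trace (L.Jm W * L.Sm W * L.Jm W * (L.Bm W ^ p * (L.Bm W * (L.Bm W).transpose)))
        = Matrix.trace (L.Jm W * (Y * L.Bm W ^ (p + 1) * L.Jm W * L.Bm W) * L.Jm W) := by
          rw [Bm_transpose, hY, pow_succ]
          simp only [mul_assoc]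
      _ = Matrix.trace (L.Bm W * (Y * L.Bm W ^ (p + 1) * L.Jm W)) := by
          rw [Matrix.trace_mul_comm, JJ_cancel, Matrix.trace_mul_comm]
      _ = Matrix.trace (L.Bm W * Y * L.Bm W * (L.Bm W ^ p * L.Jm W)) := by
          rw [pow_succ']
          simp only [mul_assoc]
      _ ≤ Matrix.trace (L.Bm W * L.Bm W * (L.Bm W ^ p * L.Jm W)) :=
          trace_mono (mul_mono Bm_SJ_Bm_le mle_rfl (mul_nn (pow_nn p) Jm_nn)
            (mul_nn Bm_nn Bm_nn))
      _ = _ := by
          rw [← mul_assoc, ← pow_two, ← pow_add, add_comm 2 p, Matrix.trace_mul_comm, vw]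
  have h4 : Matrix.trace (L.Jm W * L.Sm W * L.Jm W * (L.Bm W ^ p * (L.Bm W * L.Bm W * L.Jm W)))
      ≤ L.tw W (p + 2) := by
    refine le_trans (le_of_eq ?_) (trace_SJ_pow_le (p + 2))
    calc Matrix.trace (L.Jm W * L.Sm W * L.Jm W * (L.Bm W ^ p * (L.Bm W * L.Bm W * L.Jm W)))
        = Matrix.trace (L.Jm W * (L.Sm W * L.Jm W * L.Bm W ^ (p + 2)) * L.Jm W) := by
          simp only [pow_succ, mul_assoc]
      _ = _ := by rw [Matrix.trace_mul_comm, JJ_cancel]
  linarith

/-- A root inside the further edge. -/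
theorem root_kernel_le (σ f : L.St W) :
    ∑ t ∈ L.tris W, (if σ.tl ∈ t then 1 else 0) * L.Vt W t f
      ≤ (L.Jm W * L.Qm W) σ f + L.Bm W f σ + L.Bm W f σ.rev
        + (L.Bm W * (L.Sm W * L.Jm W)) f σ := by
  have hsplit : ∀ t ∈ L.tris W, (if σ.tl ∈ t then (1:ℝ) else 0) * L.Vt W t f
      ≤ L.Vt W t σ.rev * L.Vt W t f + (if t = σ.tri then L.Vt W t f else 0) := by
    intro t _
    have := Vt_nn (L := L) (W := W) t f
    by_cases h : t = σ.tri
    · rw [if_pos h]
      have h1 : 0 ≤ L.Vt W t σ.rev * L.Vt W t f := mul_nonneg (Vt_nn _ _) this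
      split_ifs <;> linarith
    · rw [if_neg h, add_zero]
      refine mul_le_mul_of_nonneg_right (le_of_eq ?_) this
      simp only [Vt, St.rev_hd, St.rev_tri]
      exact if_congr ⟨fun h' => ⟨h', h⟩, fun h' => h'.1⟩ rfl rfl
  refine (Finset.sum_le_sum hsplit).trans ?_
  rw [Finset.sum_add_distrib, Finset.sum_ite_eq' (L.tris W) σ.tri, if_pos σ.prop.1, Jm_mul]
  have hM := VV_le (L := L) (W := W) σ.rev f
  rw [Matrix.sum_apply] at hM
  simp only [Matrix.vecMulVec_apply] at hM
  have hb : ∀ g : L.St W, 0 ≤ L.Bm W f g := fun g => Bm_nn f g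
  have hbsj : 0 ≤ (L.Bm W * (L.Sm W * L.Jm W)) f σ := mul_nn Bm_nn (mul_nn Sm_nn Jm_nn) f σ
  have hV : L.Vt W σ.tri f
      ≤ L.Bm W f σ + L.Bm W f σ.rev + (L.Bm W * (L.Sm W * L.Jm W)) f σ := by
    by_cases hf : f.hd ∈ σ.tri ∧ σ.tri ≠ f.tri
    · rw [Vt, if_pos hf]
      by_cases h1 : f.hd = σ.tl
      · have : L.Bm W f σ = 1 := if_pos ⟨h1, hf.2.symm⟩
        linarith [hb σ.rev]
      by_cases h2 : f.hd = σ.hd
      · have : L.Bm W f σ.rev = 1 := if_pos ⟨h2, hf.2.symm⟩
        linarith [hb σ]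
      · have hc : (f.hd, σ.tri, σ.tl) ∈ L.steps W :=
          mem_steps.2 ⟨σ.prop.1, hf.1, σ.prop.2.1, h1⟩
        have hterm : L.Bm W f ⟨_, hc⟩ * (L.Sm W * L.Jm W) ⟨_, hc⟩ σ = 1 := by
          have e1 : L.Bm W f ⟨_, hc⟩ = 1 := if_pos ⟨rfl, hf.2.symm⟩
          have e2 : (L.Sm W * L.Jm W) ⟨_, hc⟩ σ = 1 :=
            (mul_Jm _ _ _).trans (if_pos ⟨rfl, rfl, fun h => h2 (congrArg St.tl h)⟩)
          rw [e1, e2, mul_one]
        have hle : 1 ≤ (L.Bm W * (L.Sm W * L.Jm W)) f σ := by
          rw [Matrix.mul_apply, ← hterm]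
          exact Finset.single_le_sum (f := fun c => L.Bm W f c * (L.Sm W * L.Jm W) c σ)
            (fun c _ => mul_nonneg (Bm_nn f c) (mul_nn Sm_nn Jm_nn c σ)) (Finset.mem_univ _)
        linarith [hb σ, hb σ.rev]
    · rw [Vt, if_neg hf]
      linarith [hb σ, hb σ.rev]
  linarith

theorem root_trace (p : ℕ) :
    ∑ t ∈ L.tris W, ∑ σ : L.St W, (if σ.tl ∈ t then 1 else 0) * (L.Bm W ^ p *ᵥ L.Vt W t) σ
      ≤ L.vw W (p + 2) + L.tw W (p + 2) + 2 * L.tw W (p + 1) + L.vw W (p + 1) := by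
  calc ∑ t ∈ L.tris W, ∑ σ : L.St W, (if σ.tl ∈ t then (1:ℝ) else 0) *
        (L.Bm W ^ p *ᵥ L.Vt W t) σ
      = ∑ σ, ∑ f, (L.Bm W ^ p) σ f *
          ∑ t ∈ L.tris W, (if σ.tl ∈ t then 1 else 0) * L.Vt W t f := by
        rw [Finset.sum_comm]
        refine Finset.sum_congr rfl fun σ _ => ?_
        simp only [Matrix.mulVec, dotProduct, Finset.mul_sum]
        rw [Finset.sum_comm]
        exact Finset.sum_congr rfl fun f _ => Finset.sum_congr rfl fun t _ => by ring
    _ ≤ ∑ σ, ∑ f, (L.Bm W ^ p) σ f * ((L.Jm W * L.Qm W) σ f + L.Bm W f σ + L.Bm W f σ.rev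
          + (L.Bm W * (L.Sm W * L.Jm W)) f σ) :=
        Finset.sum_le_sum fun σ _ => Finset.sum_le_sum fun f _ =>
          mul_le_mul_of_nonneg_left (root_kernel_le σ f) (pow_nn p σ f)
    _ = Matrix.trace (L.Bm W ^ p * (L.Qm W * L.Jm W)) + L.tw W (p + 1) + L.vw W (p + 1)
          + Matrix.trace (L.Bm W ^ (p + 1) * (L.Sm W * L.Jm W)) := by
        have e0 : ∀ X : Matrix (L.St W) (L.St W) ℝ,
            ∑ σ, ∑ f, (L.Bm W ^ p) σ f * X f σ = Matrix.trace (L.Bm W ^ p * X) := fun X => by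
          simp only [Matrix.trace, Matrix.diag_apply, Matrix.mul_apply]
        simp only [mul_add, Finset.sum_add_distrib]
        refine congrArg₂ (· + ·) (congrArg₂ (· + ·) (congrArg₂ (· + ·) ?_ ?_) ?_) ?_
        · rw [← e0]
          refine Finset.sum_congr rfl fun σ _ => Finset.sum_congr rfl fun f _ => ?_
          rw [← Qm_symm (L := L) (W := W), ← Jm_transpose (L := L) (W := W),
            ← Matrix.transpose_mul, Matrix.transpose_apply, Qm_symm, Jm_transpose]
        · rw [e0, tw, pow_succ]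
        · rw [vw, Matrix.trace_mul_comm, pow_succ, mul_assoc, ← e0]
          simp only [mul_Jm]
        · rw [e0, pow_succ, mul_assoc]
    _ ≤ _ := by
        have h1 : Matrix.trace (L.Bm W ^ p * (L.Qm W * L.Jm W))
            = L.vw W (p + 2) + L.tw W (p + 2) := by
          rw [Qm, Bm_transpose, add_mul, mul_add, Matrix.trace_add]
          congr 1
          · rw [vw]
            calc Matrix.trace (L.Bm W ^ p * (L.Bm W * (L.Jm W * L.Bm W * L.Jm W) * L.Jm W))
                = Matrix.trace (L.Bm W ^ (p + 1) * L.Jm W * L.Bm W) := by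
                  simp only [pow_succ, mul_assoc, Jm_Jm, mul_one]
              _ = _ := by
                  rw [Matrix.trace_mul_comm, ← mul_assoc, ← pow_succ', Matrix.trace_mul_comm]
          · rw [tw]
            simp only [pow_succ, mul_assoc, Jm_Jm, mul_one]
        have h2 := trace_SJ_pow_le (L := L) (W := W) (p + 1)
        rw [Matrix.trace_mul_comm] at h2
        rw [h1]
        linarith

theorem pow_mulVec_col {u : ℝ} (hu : 1 ≤ u) (hdeg : ∀ x ∈ W, (L.deg W x : ℝ) ≤ 2 * u)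
    {x : L.St W → ℝ} (hx : ∀ e, 0 ≤ x e) (l : ℕ) :
    ∑ e, (L.Bm W ^ l *ᵥ x) e ≤ (4 * u) ^ l * ∑ e, x e := by
  induction l with
  | zero => simp
  | succ l ih =>
    have hcol : ∀ g, ∑ e, L.Bm W e g ≤ 4 * u := fun g => by
      have h := sum_row_le hdeg g.rev
      have e1 : ∀ e : L.St W, L.Bm W e g = L.Bm W g.rev e.rev := fun e => by
        have := congrFun (congrFun (Bm_transpose (L := L) (W := W)) g) e
        rwa [Matrix.transpose_apply, mul_Jm, Jm_mul] at this
      rw [Finset.sum_congr rfl fun e _ => e1 e]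
      refine le_of_eq_of_le ?_ h
      exact Fintype.sum_bijective St.rev ⟨fun a b h => by simpa using congrArg St.rev h,
        fun b => ⟨b.rev, St.rev_rev b⟩⟩ _ _ fun _ => rfl
    have h0 : ∀ g, 0 ≤ (L.Bm W ^ l *ᵥ x) g := fun g =>
      Finset.sum_nonneg fun e _ => mul_nonneg (pow_nn l g e) (hx e)
    rw [pow_succ', ← Matrix.mulVec_mulVec]
    simp only [Matrix.mulVec, dotProduct] at h0 ih ⊢
    rw [Finset.sum_comm]
    calc ∑ g, ∑ e, L.Bm W e g * ∑ f, (L.Bm W ^ l) g f * x f
        ≤ ∑ g, 4 * u * ∑ f, (L.Bm W ^ l) g f * x f := Finset.sum_le_sum fun g _ => by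
          rw [← Finset.sum_mul]
          exact mul_le_mul_of_nonneg_right (hcol g) (h0 g)
      _ ≤ _ := by
          rw [← Finset.mul_sum]
          calc _ ≤ 4 * u * ((4 * u) ^ l * ∑ e, x e) := by
                exact mul_le_mul_of_nonneg_left ih (by linarith)
            _ = _ := by ring

theorem stem_le {a u : ℝ} (ha : 0 ≤ a) (hu : 0 < u) (N : ℕ) :
    ∑ l ∈ range N, om a u l * (4 * u) ^ l ≤ Real.exp (4 * a) := by
  refine le_trans (le_of_eq (Finset.sum_congr rfl fun l _ => ?_))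
    (sum_exp_le (by linarith) N)
  rw [om, mul_pow, mul_pow]
  field_simp

theorem Rb_nn : MLe (L := L) (W := W) 0 (L.Rb W) := fun e f =>
  add_nonneg (mul_nn Jm_nn Bm_nn e f) (mul_nn (mul_nn Jm_nn Bm_nn) Bm_nn e f)

theorem R0_nn : MLe (L := L) (W := W) 0 (L.R0 W) := fun e f =>
  add_nonneg (pow_nn 0 e f) (mul_nn (mul_nn Jm_nn Sm_nn) Jm_nn e f)

/-- Two branches out of one edge. -/
theorem branch_sum {a u : ℝ} (ha : 1 ≤ a) (hu : 1 ≤ u)
    (hdeg : ∀ x ∈ W, (L.deg W x : ℝ) ≤ 2 * u) (M : ℕ) :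
    ∑ t ∈ L.tris W, ∑ e, ∑ f, L.Rb W e f * (L.Zt W a u M t e * L.Zt W a u M t f)
      ≤ 96 * u ^ 4 * Real.exp (16 * a) * L.psi W (4 * a) u (2 * M + 3) := by
  have ha0 : (0:ℝ) ≤ a := by linarith
  have hu0 : (0:ℝ) < u := by linarith
  have h1 : ∑ t ∈ L.tris W, ∑ e, ∑ f, L.Rb W e f * (L.Zt W a u M t e * L.Zt W a u M t f)
      = ∑ p ∈ range M, ∑ q ∈ range M, om a u p * om a u q *
          ∑ t ∈ L.tris W, ∑ e, ∑ f,
            L.Rb W e f * ((L.Bm W ^ p *ᵥ L.Vt W t) e * (L.Bm W ^ q *ᵥ L.Vt W t) f) := by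
    calc ∑ t ∈ L.tris W, ∑ e, ∑ f, L.Rb W e f * (L.Zt W a u M t e * L.Zt W a u M t f)
        = ∑ t ∈ L.tris W, ∑ e, ∑ f, ∑ p ∈ range M, ∑ q ∈ range M, om a u p * om a u q *
            (L.Rb W e f * ((L.Bm W ^ p *ᵥ L.Vt W t) e * (L.Bm W ^ q *ᵥ L.Vt W t) f)) := by
          refine Finset.sum_congr rfl fun t _ => Finset.sum_congr rfl fun e _ =>
            Finset.sum_congr rfl fun f _ => ?_
          rw [Zt, Zt, Finset.sum_mul_sum, Finset.mul_sum]
          refine Finset.sum_congr rfl fun p _ => ?_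
          rw [Finset.mul_sum]
          exact Finset.sum_congr rfl fun q _ => by ring
      _ = _ := by
          have sw : ∀ G : Finset α → L.St W → L.St W → ℕ → ℝ,
              ∑ t ∈ L.tris W, ∑ e, ∑ f, ∑ p ∈ range M, G t e f p
                = ∑ p ∈ range M, ∑ t ∈ L.tris W, ∑ e, ∑ f, G t e f p := fun G => by
            rw [Finset.sum_comm (s := range M)]
            refine Finset.sum_congr rfl fun t _ => ?_
            rw [Finset.sum_comm (s := range M)]
            exact Finset.sum_congr rfl fun e _ => Finset.sum_comm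
          rw [sw]
          refine Finset.sum_congr rfl fun p _ => ?_
          rw [sw]
          simp only [Finset.mul_sum]
  rw [h1]
  refine (Finset.sum_le_sum fun p _ => Finset.sum_le_sum fun q _ => mul_le_mul_of_nonneg_left
    ((quad_le Rb_nn p q).trans (le_of_eq (branch_trace p q)))
    (mul_nonneg (om_nonneg ha0 hu0.le p) (om_nonneg ha0 hu0.le q))).trans ?_
  refine (double_le ha0 hu0 M (g := fun l => L.vw W (l + 3) + L.tw W (l + 3)
    + (L.vw W (l + 4) + L.tw W (l + 4))) fun l => ?_).trans ?_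
  · linarith [vw_nonneg (L := L) (W := W) (l + 3), vw_nonneg (L := L) (W := W) (l + 4),
      tw_nonneg (L := L) (W := W) (l + 3), tw_nonneg (L := L) (W := W) (l + 4)]
  simp only [mul_add, Finset.sum_add_distrib]
  have ha2 : 1 ≤ 2 * a := by linarith
  have v3 := sum_vw_le (S := range (2 * M - 1)) (N := 2 * M + 3) (d := 3) ha2 hu hdeg (by norm_num)
    fun p hp => by rw [Finset.mem_range] at hp; omega
  have v4 := sum_vw_le (S := range (2 * M - 1)) (N := 2 * M + 3) (d := 4) ha2 hu hdeg (by norm_num)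
    fun p hp => by rw [Finset.mem_range] at hp; omega
  have t3 := sum_tw_le (L := L) (W := W) (S := range (2 * M - 1)) (N := 2 * M + 3) (d := 3) ha2 hu
    (by norm_num) (fun p _ => by omega) fun p hp => by rw [Finset.mem_range] at hp; omega
  have t4 := sum_tw_le (L := L) (W := W) (S := range (2 * M - 1)) (N := 2 * M + 3) (d := 4) ha2 hu
    (by norm_num) (fun p _ => by omega) fun p hp => by rw [Finset.mem_range] at hp; omega
  rw [show 2 * (2 * a) = 4 * a by ring, show 8 * (2 * a) = 16 * a by ring] at v3 v4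
  rw [show 2 * (2 * a) = 4 * a by ring] at t3 t4
  have hψ := psi_nonneg' (L := L) (W := W) (by linarith : 0 ≤ 4 * a) hu0.le (2 * M + 3)
  have he : 1 ≤ Real.exp (16 * a) := Real.one_le_exp (by linarith)
  have hk := mul_le_mul_of_nonneg_left he (mul_nonneg (by positivity : 0 ≤ 24 * u ^ 4) hψ)
  nlinarith [v3, v4, t3, t4, hk]

theorem psi_mono {a b u : ℝ} (ha : 0 ≤ a) (hab : a ≤ b) (hu : 0 ≤ u) (N : ℕ) :
    L.psi W a u N ≤ L.psi W b u N :=
  Finset.sum_le_sum fun i _ => mul_le_mul_of_nonneg_right (om_mono ha hab hu i) (tw_nonneg i)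

/-- A further edge at the node itself. -/
theorem lolly_sum {a u : ℝ} (ha : 1 ≤ a) (hu : 1 ≤ u)
    (hdeg : ∀ x ∈ W, (L.deg W x : ℝ) ≤ 2 * u) (M : ℕ) :
    ∑ t ∈ L.tris W, ∑ e, ∑ f, L.R0 W e f * ((L.Bm W *ᵥ L.Zt W a u M t) e * L.Vt W t f)
      ≤ 400 * u ^ 5 * Real.exp (16 * a) * L.psi W (4 * a) u (2 * M + 3) := by
  have ha0 : (0:ℝ) ≤ a := by linarith
  have hu0 : (0:ℝ) < u := by linarith
  have hB : ∀ t e, (L.Bm W *ᵥ L.Zt W a u M t) e
      = ∑ p ∈ range M, om a u p * (L.Bm W ^ (p + 1) *ᵥ L.Vt W t) e := by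
    intro t e
    simp only [Matrix.mulVec, dotProduct, Zt, pow_succ', Matrix.mul_apply, Finset.mul_sum,
      Finset.sum_mul]
    rw [Finset.sum_comm]
    refine Finset.sum_congr rfl fun p _ => ?_
    rw [Finset.sum_comm]
    exact Finset.sum_congr rfl fun f _ => Finset.sum_congr rfl fun g _ => by ring
  calc ∑ t ∈ L.tris W, ∑ e, ∑ f, L.R0 W e f * ((L.Bm W *ᵥ L.Zt W a u M t) e * L.Vt W t f)
      = ∑ p ∈ range M, om a u p * ∑ t ∈ L.tris W, ∑ e, ∑ f,
          L.R0 W e f * ((L.Bm W ^ (p + 1) *ᵥ L.Vt W t) e * (L.Bm W ^ 0 *ᵥ L.Vt W t) f) := by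
        simp only [hB, pow_zero, Matrix.one_mulVec, Finset.mul_sum, Finset.sum_mul]
        rw [Finset.sum_comm (s := range M)]
        refine Finset.sum_congr rfl fun t _ => ?_
        rw [Finset.sum_comm (s := range M)]
        refine Finset.sum_congr rfl fun e _ => ?_
        rw [Finset.sum_comm (s := range M)]
        exact Finset.sum_congr rfl fun f _ => Finset.sum_congr rfl fun p _ => by ring
    _ ≤ ∑ p ∈ range M, om a u p * (4 * u * (2 * L.tw W (p + 1) + L.vw W (p + 2))
          + 2 * L.vw W (p + 3) + L.tw W (p + 3)) := by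
        refine Finset.sum_le_sum fun p _ => mul_le_mul_of_nonneg_left
          ((quad_le R0_nn (p + 1) 0).trans ?_) (om_nonneg ha0 hu0.le p)
        rw [pow_zero, Matrix.transpose_one, mul_one]
        exact lolly_trace hu hdeg (p + 1)
    _ = 8 * u * ∑ p ∈ range M, om a u p * L.tw W (p + 1)
          + 4 * u * ∑ p ∈ range M, om a u p * L.vw W (p + 2)
          + 2 * ∑ p ∈ range M, om a u p * L.vw W (p + 3)
          + ∑ p ∈ range M, om a u p * L.tw W (p + 3) := by
        simp only [Finset.mul_sum, ← Finset.sum_add_distrib]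
        exact Finset.sum_congr rfl fun p _ => by ring
    _ ≤ _ := by
        have hr : ∀ p ∈ range M, ∀ d ≤ 3, p + d < 2 * M + 3 := fun p hp d hd => by
          rw [Finset.mem_range] at hp; omega
        have t1 := sum_tw_le (L := L) (W := W) (d := 1) ha hu (by norm_num) (S := range M)
          (fun p _ => by omega) fun p hp => hr p hp 1 (by norm_num)
        have t3 := sum_tw_le (L := L) (W := W) (d := 3) ha hu (by norm_num) (S := range M)
          (fun p _ => by omega) fun p hp => hr p hp 3 le_rfl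
        have v2 := sum_vw_le (d := 2) ha hu hdeg (by norm_num) (S := range M)
          fun p hp => hr p hp 2 (by norm_num)
        have v3 := sum_vw_le (d := 3) ha hu hdeg (by norm_num) (S := range M)
          fun p hp => hr p hp 3 le_rfl
        have hψ := psi_nonneg' (L := L) (W := W) (by linarith : 0 ≤ 2 * a) hu0.le (2 * M + 3)
        have hψ' := psi_mono (L := L) (W := W) (b := 4 * a) (by linarith : 0 ≤ 2 * a)
          (by linarith) hu0.le (2 * M + 3)
        have he : Real.exp (8 * a) ≤ Real.exp (16 * a) := Real.exp_le_exp.2 (by linarith)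
        have he1 : 1 ≤ Real.exp (16 * a) := Real.one_le_exp (by linarith)
        set X := u ^ 4 * (Real.exp (16 * a) * L.psi W (4 * a) u (2 * M + 3))
        have hT : ∀ S, S ≤ 24 * u ^ 4 * L.psi W (2 * a) u (2 * M + 3) → S ≤ 24 * X := by
          intro S hS
          refine hS.trans ?_
          rw [mul_assoc]
          simp only [X]
          gcongr
          exact hψ'.trans (le_mul_of_one_le_left (hψ.trans hψ') he1)
        have hV : ∀ S, S ≤ 24 * u ^ 4 * Real.exp (8 * a) * L.psi W (2 * a) u (2 * M + 3) →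
            S ≤ 24 * X := by
          intro S hS
          refine hS.trans ?_
          rw [mul_assoc, mul_assoc]
          simp only [X]
          gcongr
        have hX : 0 ≤ X :=
          mul_nonneg (by positivity) (mul_nonneg (Real.exp_nonneg _) (hψ.trans hψ'))
        calc _ ≤ 8 * u * (24 * X) + 4 * u * (24 * X) + 2 * (24 * X) + 24 * X := by
              gcongr
              exacts [hT _ t1, hV _ v2, hV _ v3, hT _ t3]
          _ ≤ 360 * u * X := by nlinarith
          _ ≤ _ := by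
              simp only [X]
              nlinarith [mul_nonneg (mul_nonneg (pow_nonneg hu0.le 5) (Real.exp_nonneg (16 * a)))
                (hψ.trans hψ')]

/-- A further edge at a root. -/
theorem root_sum {a u : ℝ} (ha : 1 ≤ a) (hu : 1 ≤ u)
    (hdeg : ∀ x ∈ W, (L.deg W x : ℝ) ≤ 2 * u) (M : ℕ) :
    ∑ t ∈ L.tris W, ∑ σ : L.St W, (if σ.tl ∈ t then 1 else 0) * L.Zt W a u M t σ
      ≤ 120 * u ^ 4 * Real.exp (16 * a) * L.psi W (4 * a) u (2 * M + 3) := by
  have ha0 : (0:ℝ) ≤ a := by linarith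
  have hu0 : (0:ℝ) < u := by linarith
  calc ∑ t ∈ L.tris W, ∑ σ : L.St W, (if σ.tl ∈ t then 1 else 0) * L.Zt W a u M t σ
      = ∑ p ∈ range M, om a u p * ∑ t ∈ L.tris W, ∑ σ : L.St W,
          (if σ.tl ∈ t then 1 else 0) * (L.Bm W ^ p *ᵥ L.Vt W t) σ := by
        simp only [Zt, Finset.mul_sum]
        rw [Finset.sum_comm (s := range M)]
        refine Finset.sum_congr rfl fun t _ => ?_
        rw [Finset.sum_comm (s := range M)]
        exact Finset.sum_congr rfl fun f _ => Finset.sum_congr rfl fun p _ => by ring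
    _ ≤ ∑ p ∈ range M, om a u p * (L.vw W (p + 2) + L.tw W (p + 2) + 2 * L.tw W (p + 1)
          + L.vw W (p + 1)) :=
        Finset.sum_le_sum fun p _ => mul_le_mul_of_nonneg_left (root_trace p) (om_nonneg ha0 hu0.le p)
    _ = ∑ p ∈ range M, om a u p * L.vw W (p + 2) + ∑ p ∈ range M, om a u p * L.tw W (p + 2)
          + 2 * ∑ p ∈ range M, om a u p * L.tw W (p + 1)
          + ∑ p ∈ range M, om a u p * L.vw W (p + 1) := by
        simp only [Finset.mul_sum, ← Finset.sum_add_distrib]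
        exact Finset.sum_congr rfl fun p _ => by ring
    _ ≤ _ := by
        have hr : ∀ p ∈ range M, ∀ d ≤ 3, p + d < 2 * M + 3 := fun p hp d hd => by
          rw [Finset.mem_range] at hp; omega
        have t1 := sum_tw_le (L := L) (W := W) (d := 1) ha hu (by norm_num) (S := range M)
          (fun p _ => by omega) fun p hp => hr p hp 1 (by norm_num)
        have t2 := sum_tw_le (L := L) (W := W) (d := 2) ha hu (by norm_num) (S := range M)
          (fun p _ => by omega) fun p hp => hr p hp 2 (by norm_num)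
        have v2 := sum_vw_le (d := 2) ha hu hdeg (by norm_num) (S := range M)
          fun p hp => hr p hp 2 (by norm_num)
        have v1 := sum_vw_le (d := 1) ha hu hdeg (by norm_num) (S := range M)
          fun p hp => hr p hp 1 (by norm_num)
        have hψ := psi_nonneg' (L := L) (W := W) (by linarith : 0 ≤ 2 * a) hu0.le (2 * M + 3)
        have hψ' := psi_mono (L := L) (W := W) (b := 4 * a) (by linarith : 0 ≤ 2 * a)
          (by linarith) hu0.le (2 * M + 3)
        have he : Real.exp (8 * a) ≤ Real.exp (16 * a) := Real.exp_le_exp.2 (by linarith)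
        have he1 : 1 ≤ Real.exp (16 * a) := Real.one_le_exp (by linarith)
        have hX := mul_le_mul he hψ' hψ (Real.exp_nonneg _)
        have hY : L.psi W (2 * a) u (2 * M + 3)
            ≤ Real.exp (16 * a) * L.psi W (4 * a) u (2 * M + 3) :=
          hψ'.trans (le_mul_of_one_le_left (hψ.trans hψ') he1)
        have h4 : 0 ≤ 24 * u ^ 4 := by positivity
        have := mul_le_mul_of_nonneg_left hX h4
        have := mul_le_mul_of_nonneg_left hY h4
        linarith

end LH

end P046
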