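import Vale.Agent.P046.Full.Interfaces
import Vale.Agent.P046.Full.Moments
import Vale.Agent.P046.Full.Dev
import Vale.Agent.P046.Full.Drift

/-!
P046, part I: a supermartingale from the even moments of the deviations.
-/

namespace P046.Full

open Finset Filter Topology

variable {n : ℕ} {W : Finset (Finset (Fin n))}

theorem pot_nonneg (W : Finset (Finset (Fin n))) (k : ℕ) {w : ℝ} (hw : 0 ≤ w) :
    0 ≤ pot W (2 * k) w := by
  have hd : 0 ≤ ∑ x, ∑ y, dev W x y ^ (2 * k) :=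
    Finset.sum_nonneg fun x _ => Finset.sum_nonneg fun y _ => (even_two_mul k).pow_nonneg _
  have ha : 0 ≤ ∑ x, adev W x ^ (2 * k) :=
    Finset.sum_nonneg fun x _ => (even_two_mul k).pow_nonneg _
  have hv : 0 ≤ ∑ x, dg W x * vdev W x ^ (2 * k) :=
    Finset.sum_nonneg fun x _ => mul_nonneg (dg_nonneg W x) ((even_two_mul k).pow_nonneg _)
  have hm : 0 ≤ (W.card : ℝ) * mdev W ^ (2 * k) :=
    mul_nonneg (Nat.cast_nonneg _) ((even_two_mul k).pow_nonneg _)
  unfold pot; positivity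

/-- The potential after one step, in the changes of the deviations. -/
theorem pot_sdiff_le {t : Finset (Finset (Fin n))} (ht : t ∈ (kn n).tris W) {k : ℕ}
    (hk : 1 ≤ k) {w : ℝ} (hw : 0 ≤ w) :
    pot (W \ t) (2 * k) w ≤ ∑ x, ∑ y, (dev W x y + dstep W x y t) ^ (2 * k)
      + ∑ x, (adev W x + (adev (W \ t) x - adev W x)) ^ (2 * k)
      + w * ∑ x, dg W x * (vdev W x + vstep W x t) ^ (2 * k)
      + w ^ 2 * ((W.card : ℝ) * (mdev W + (mdev (W \ t) - mdev W)) ^ (2 * k)) := by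
  unfold pot
  refine add_le_add (add_le_add (add_le_add ?_ ?_) (mul_le_mul_of_nonneg_left ?_ hw))
    (mul_le_mul_of_nonneg_left ?_ (by positivity))
  · refine Finset.sum_le_sum fun x _ => Finset.sum_le_sum fun y _ => ?_
    rcases rm_cases t x y with e | e
    · simp [dstep, e]
    · have h1 : dev (W \ t) x y = 0 := by
        have ha : adj W x y = 1 := by
          have := adj_mul_rm ht x y; rwa [e, mul_one] at this
        simp [dev, adj_sdiff ht, ha, e]
      rw [h1, zero_pow (by omega : 2 * k ≠ 0)]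
      exact (even_two_mul k).pow_nonneg _
  · exact le_of_eq (Finset.sum_congr rfl fun x _ => by rw [add_sub_cancel])
  · refine Finset.sum_le_sum fun x _ => ?_
    rw [vstep, add_sub_cancel]
    refine mul_le_mul_of_nonneg_right ?_ ((even_two_mul k).pow_nonneg _)
    rw [dg_sdiff ht]; split_ifs <;> linarith
  · rw [add_sub_cancel]
    refine mul_le_mul_of_nonneg_right ?_ ((even_two_mul k).pow_nonneg _)
    exact_mod_cast Finset.card_le_card Finset.sdiff_subset

/-- The main term of the change of the potential. -/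
noncomputable def pdrift (W : Finset (Finset (Fin n))) (K : ℕ) (w : ℝ) : ℝ :=
  ∑ x, ∑ y, dev W x y ^ (K - 1) * dmain W x y + ∑ x, adev W x ^ (K - 1) * amain W x
    + w * ∑ x, dg W x * (vdev W x ^ (K - 1) * vmain W x)
    + w ^ 2 * ((W.card : ℝ) * (mdev W ^ (K - 1) * mmain W))

variable {η : ℝ}

/-- The potential summed over the steps. -/
theorem Nice.sum_pot_le (h : Nice W η) {k : ℕ} (hk : 1 ≤ k) {w : ℝ} (hw : 1 ≤ w) :
    ∑ t ∈ (kn n).tris W, pot (W \ t) (2 * k) w
      ≤ ((kn n).tris W).card * pot W (2 * k) w + 2 * k * pdrift W (2 * k) w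
        + uexp W / 4 * pot W (2 * k) w
        + noiseC 2000 (1 / 8) k / uexp W ^ (k - 1) * (4 * w ^ 2 * (n : ℝ) ^ 2) := by
  set T : ℝ := (((kn n).tris W).card : ℝ)
  set u : ℝ := uexp W
  set Z : ℝ := noiseC 2000 (1 / 8) k / u ^ (k - 1) with hZ
  have hu0 : 0 < u := h.u_pos
  have hu1 : 1 ≤ u := by linarith [h.hu]
  have hZ0 : 0 ≤ Z := div_nonneg (noiseC_nonneg (by norm_num) (by norm_num) k) (by positivity)
  have hw0 : 0 ≤ w := by linarith
  have hms : ∀ (d main : ℝ) (δ : Finset (Finset (Fin n)) → ℝ),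
      (∀ t ∈ (kn n).tris W, |δ t| ≤ 2000 / u) →
      ∑ t ∈ (kn n).tris W, |δ t| ≤ 2000 * u →
      |∑ t ∈ (kn n).tris W, δ t - main| ≤ 2000 →
      ∑ t ∈ (kn n).tris W, (d + δ t) ^ (2 * k)
        ≤ (T + u / 4) * d ^ (2 * k) + 2 * k * (d ^ (2 * k - 1) * main) + Z := by
    intro d main δ h1 h2 h3
    have := moment_sum ((kn n).tris W) δ hk (by norm_num : (0:ℝ) ≤ 2000)
      (by norm_num : (0:ℝ) < 1 / 8) (d := d) hu1 h1 h2 h3
    refine this.trans_eq ?_
    rw [hZ]; ring
  have hd : ∀ x y, ∑ t ∈ (kn n).tris W, (dev W x y + dstep W x y t) ^ (2 * k)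
      ≤ (T + u / 4) * dev W x y ^ (2 * k)
        + 2 * k * (dev W x y ^ (2 * k - 1) * dmain W x y) + Z := by
    intro x y
    rcases adj_cases W x y with e | e
    · have h0 : dev W x y = 0 := by simp [dev, e]
      have hs : ∀ t ∈ (kn n).tris W, dstep W x y t = 0 := fun t ht => by
        have h1 : rm t x y = 0 := by rw [← adj_mul_rm ht x y, e, zero_mul]
        simp [dstep, dev, adj_sdiff ht, e, h1]
      rw [Finset.sum_eq_zero fun t ht => by rw [h0, hs t ht, add_zero, zero_pow (by omega)], h0,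
        zero_pow (by omega : 2 * k ≠ 0), zero_pow (by omega : 2 * k - 1 ≠ 0)]
      linarith
    · obtain ⟨h1, h2, h3⟩ := h.dstep_bounds e
      exact hms _ _ _ h1 h2 h3
  have ha : ∀ x, ∑ t ∈ (kn n).tris W, (adev W x + (adev (W \ t) x - adev W x)) ^ (2 * k)
      ≤ (T + u / 4) * adev W x ^ (2 * k) + 2 * k * (adev W x ^ (2 * k - 1) * amain W x) + Z := by
    intro x
    obtain ⟨h1, h2, h3⟩ := h.astep_bounds x
    exact hms _ _ _ h1 h2 h3
  have hv : ∀ x, ∑ t ∈ (kn n).tris W, dg W x * (vdev W x + vstep W x t) ^ (2 * k)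
      ≤ (T + u / 4) * (dg W x * vdev W x ^ (2 * k))
        + 2 * k * (dg W x * (vdev W x ^ (2 * k - 1) * vmain W x)) + n * Z := by
    intro x
    obtain ⟨h1, h2, h3⟩ := h.vstep_bounds x
    rw [← Finset.mul_sum]
    have h4 : dg W x * Z ≤ n * Z := mul_le_mul_of_nonneg_right (by
      calc dg W x ≤ ∑ _y : Fin n, (1 : ℝ) := Finset.sum_le_sum fun y _ => adj_le_one W x y
        _ = n := by simp) hZ0
    have := mul_le_mul_of_nonneg_left (hms (vdev W x) _ _ h1 h2 h3) (dg_nonneg W x)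
    linarith
  have hm : ∑ t ∈ (kn n).tris W, (W.card : ℝ) * (mdev W + (mdev (W \ t) - mdev W)) ^ (2 * k)
      ≤ (T + u / 4) * ((W.card : ℝ) * mdev W ^ (2 * k))
        + 2 * k * ((W.card : ℝ) * (mdev W ^ (2 * k - 1) * mmain W)) + (n : ℝ) ^ 2 * Z := by
    obtain ⟨h1, h2, h3⟩ := h.mstep_bounds
    rw [← Finset.mul_sum]
    have hE : (W.card : ℝ) ≤ (n : ℝ) ^ 2 := by nlinarith [h.card_le, h.n_ge]
    have := mul_le_mul_of_nonneg_left (hms (mdev W) _ _ h1 h2 h3)
      (Nat.cast_nonneg W.card : (0:ℝ) ≤ W.card)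
    have := mul_le_mul_of_nonneg_right hE hZ0
    linarith
  have hn := h.n_ge
  have hnoise : (n : ℝ) * (n * Z) + (n : ℝ) * Z + w * ((n : ℝ) * (n * Z))
      + w ^ 2 * ((n : ℝ) ^ 2 * Z) ≤ Z * (4 * w ^ 2 * (n : ℝ) ^ 2) := by
    have h1 : (n : ℝ) * Z ≤ (n : ℝ) ^ 2 * Z :=
      mul_le_mul_of_nonneg_right (by nlinarith) hZ0
    have h2 : 1 * ((n : ℝ) ^ 2 * Z) ≤ w ^ 2 * ((n : ℝ) ^ 2 * Z) :=
      mul_le_mul_of_nonneg_right (one_le_pow₀ hw) (by positivity)
    have h3 : w * ((n : ℝ) ^ 2 * Z) ≤ w ^ 2 * ((n : ℝ) ^ 2 * Z) :=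
      mul_le_mul_of_nonneg_right (le_self_pow₀ hw (by norm_num)) (by positivity)
    linarith
  refine (Finset.sum_le_sum fun t ht => pot_sdiff_le ht hk hw0).trans ?_
  simp only [Finset.sum_add_distrib, ← Finset.mul_sum]
  rw [Finset.sum_comm (s := (kn n).tris W), Finset.sum_comm (s := (kn n).tris W),
    Finset.sum_comm (s := (kn n).tris W)]
  refine (add_le_add (add_le_add (add_le_add
    (Finset.sum_le_sum fun x _ =>
      Finset.sum_comm.trans_le (Finset.sum_le_sum fun y _ => hd x y))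
    (Finset.sum_le_sum fun x _ => ha x))
    (mul_le_mul_of_nonneg_left (Finset.sum_le_sum fun x _ => hv x) hw0))
    (mul_le_mul_of_nonneg_left ((Finset.mul_sum ..).trans_le hm) (sq_nonneg w))).trans ?_
  simp only [Finset.sum_add_distrib, ← Finset.mul_sum, Finset.sum_const, Finset.card_univ,
    Fintype.card_fin, nsmul_eq_mul, pot, pdrift]
  linarith

/-- The supermartingale. -/
noncomputable def potH (W : Finset (Finset (Fin n))) (k : ℕ) (w q η : ℝ) : ℝ :=
  ((W.card : ℝ) * pot W (2 * k) w + q * (W.card : ℝ) ^ 2) / η ^ (2 * k)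

/-- One step of the supermartingale, given the drift. -/
theorem Nice.potH_step (h : Nice W η) {k : ℕ} (hk : 1 ≤ k) {w q η' : ℝ} (hw : 1 ≤ w)
    (hdr : 2 * k * pdrift W (2 * k) w ≤ uexp W / 2 * pot W (2 * k) w)
    (hq : noiseC 2000 (1 / 8) k / uexp W ^ (k - 1) * (4 * w ^ 2 * (n : ℝ) ^ 2) ≤ q)
    (hη' : 0 ≤ η') :
    (kn n).avg (fun V => potH V k w q η') W ≤ potH W k w q η' := by
  obtain ⟨hT0, -⟩ := h.tris_bounds
  have hu := h.u_pos
  have hu20 := h.hu
  have hE := h.card_ge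
  have hμ := abs_le.1 h.abs_mdev
  set T : ℝ := (((kn n).tris W).card : ℝ) with hTd
  set E : ℝ := (W.card : ℝ) with hEd
  set P : ℝ := pot W (2 * k) w with hPd
  have hP : 0 ≤ P := pot_nonneg W k (by linarith)
  have hTlow : 95 / 300 * (E * uexp W) ≤ T := by
    rw [hTd, h.tris_eq, ← hEd]; nlinarith [mul_pos (show (0:ℝ) < E by linarith) hu]
  have hq0 : 0 ≤ q := le_trans (mul_nonneg
    (div_nonneg (noiseC_nonneg (by norm_num) (by norm_num) k) (by positivity)) (by positivity)) hq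
  have hsum := h.sum_pot_le hk hw
  have hcard : ∀ t ∈ (kn n).tris W, ((W \ t).card : ℝ) = E - 3 := fun t ht => by
    rw [hEd, ← LH.card_sdiff_tri ht]; push_cast; ring
  have key : ∑ t ∈ (kn n).tris W, (((W \ t).card : ℝ) * pot (W \ t) (2 * k) w
      + q * ((W \ t).card : ℝ) ^ 2) ≤ T * (E * P + q * E ^ 2) := by
    rw [Finset.sum_congr rfl fun t ht => by rw [hcard t ht], Finset.sum_add_distrib,
      ← Finset.mul_sum, Finset.sum_const, nsmul_eq_mul, ← hTd]
    have hE3 : 0 ≤ E - 3 := by linarith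
    have hT1 : 1 ≤ T := by nlinarith
    have h1 : uexp W * (3 / 4) * P ≤ T * (3 / E) * P := by
      refine mul_le_mul_of_nonneg_right ?_ hP
      rw [mul_div_assoc' T, le_div_iff₀ (by linarith)]
      nlinarith [mul_pos (show (0:ℝ) < E by linarith) hu]
    have h2 : ∑ t ∈ (kn n).tris W, pot (W \ t) (2 * k) w ≤ T * ((1 + 3 / E) * P + q) := by
      have h3 : noiseC 2000 (1 / 8) k / uexp W ^ (k - 1) * (4 * w ^ 2 * (n : ℝ) ^ 2) ≤ T * q :=
        hq.trans (le_mul_of_one_le_left hq0 hT1)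
      linarith
    have h4 := mul_le_mul_of_nonneg_left h2 hE3
    have h5 : T * ((E - 3) * ((1 + 3 / E) * P)) ≤ T * (E * P) := by
      refine mul_le_mul_of_nonneg_left ?_ hT0.le
      rw [← mul_assoc]; refine mul_le_mul_of_nonneg_right ?_ hP
      have : (E - 3) * (1 + 3 / E) = E - 9 / E := by field_simp; ring
      rw [this]; linarith [div_nonneg (show (0:ℝ) ≤ 9 by norm_num) (show (0:ℝ) ≤ E by linarith)]
    have h6 : T * (q * ((E - 3) + (E - 3) ^ 2)) ≤ T * (q * E ^ 2) :=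
      mul_le_mul_of_nonneg_left (mul_le_mul_of_nonneg_left (by nlinarith) hq0) hT0.le
    linarith
  rw [LH.avg, div_le_iff₀ hT0]
  simp only [potH]
  rw [← Finset.sum_div, div_mul_eq_mul_div, mul_comm _ T]
  exact div_le_div_of_nonneg_right key (pow_nonneg hη' _)

/-- A deviation above `η` makes the supermartingale at least one. -/
theorem potH_exit {k : ℕ} {w q : ℝ} (hw : 1 ≤ w) (hq : 0 ≤ q) (hη : 0 < η)
    (hE : 1 ≤ (W.card : ℝ))
    (h : (∃ x y, η < |dev W x y|) ∨ (∃ x, η < |adev W x|) ∨ (∃ x, η < |vdev W x|) ∨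
      η < |mdev W|) :
    1 ≤ potH W k w q η := by
  have hp : ∀ {a : ℝ}, η < |a| → η ^ (2 * k) ≤ a ^ (2 * k) := fun {a} ha =>
    (pow_le_pow_left₀ hη.le ha.le _).trans_eq ((even_two_mul k).pow_abs a)
  have he : ∀ a : ℝ, 0 ≤ a ^ (2 * k) := fun a => (even_two_mul k).pow_nonneg a
  have hd : 0 ≤ ∑ x, ∑ y, dev W x y ^ (2 * k) :=
    Finset.sum_nonneg fun x _ => Finset.sum_nonneg fun y _ => he _
  have ha : 0 ≤ ∑ x, adev W x ^ (2 * k) := Finset.sum_nonneg fun x _ => he _
  have hv : 0 ≤ ∑ x, dg W x * vdev W x ^ (2 * k) :=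
    Finset.sum_nonneg fun x _ => mul_nonneg (dg_nonneg W x) (he _)
  have hm : 0 ≤ (W.card : ℝ) * mdev W ^ (2 * k) := mul_nonneg (Nat.cast_nonneg _) (he _)
  have hv' := mul_nonneg (show (0 : ℝ) ≤ w by linarith) hv
  have hm' := mul_nonneg (sq_nonneg w) hm
  have hP : η ^ (2 * k) ≤ pot W (2 * k) w := by
    unfold pot
    rcases h with ⟨x, y, h⟩ | ⟨x, h⟩ | ⟨x, h⟩ | h
    · have h1 : dev W x y ^ (2 * k) ≤ ∑ x, ∑ y, dev W x y ^ (2 * k) :=
        (Finset.single_le_sum (f := fun y => dev W x y ^ (2 * k)) (fun y _ => he _)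
          (Finset.mem_univ y)).trans
        (Finset.single_le_sum (f := fun x => ∑ y, dev W x y ^ (2 * k))
          (fun x _ => Finset.sum_nonneg fun y _ => he _) (Finset.mem_univ x))
      linarith [hp h]
    · have h1 : adev W x ^ (2 * k) ≤ ∑ x, adev W x ^ (2 * k) :=
        Finset.single_le_sum (f := fun x => adev W x ^ (2 * k)) (fun x _ => he _)
          (Finset.mem_univ x)
      linarith [hp h]
    · have hD : 1 ≤ dg W x := by
        by_cases h0 : ∃ y, adj W x y = 1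
        · obtain ⟨y, hy⟩ := h0
          rw [dg, ← hy]
          exact Finset.single_le_sum (fun z _ => adj_nonneg W x z) (Finset.mem_univ y)
        · push Not at h0
          have : vdev W x = 0 := by
            have hz : ∀ y, adj W x y = 0 := fun y => (adj_cases W x y).resolve_right (h0 y)
            simp [vdev, dev, hz]
          rw [this, abs_zero] at h
          linarith
      have h1 : dg W x * vdev W x ^ (2 * k) ≤ ∑ x, dg W x * vdev W x ^ (2 * k) :=
        Finset.single_le_sum (f := fun x => dg W x * vdev W x ^ (2 * k))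
          (fun x _ => mul_nonneg (dg_nonneg W x) (he _)) (Finset.mem_univ x)
      have h2 := le_mul_of_one_le_left (he (vdev W x)) hD
      have h3 := le_mul_of_one_le_left hv hw
      linarith [hp h]
    · have h2 := le_mul_of_one_le_left (he (mdev W)) hE
      have h3 := le_mul_of_one_le_left hm (one_le_pow₀ hw : 1 ≤ w ^ 2)
      linarith [hp h]
  rw [potH, le_div_iff₀ (pow_pos hη _), one_mul]
  have h1 := le_mul_of_one_le_left (pot_nonneg W k (show (0 : ℝ) ≤ w by linarith)) hE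
  have h2 : 0 ≤ q * (W.card : ℝ) ^ 2 := by positivity
  linarith

/-- The deviations of the complete graph vanish. -/
theorem pot_allPairs (hn : 3 ≤ n) {k : ℕ} (hk : 1 ≤ k) (w : ℝ) :
    pot (allPairs n) (2 * k) w = 0 := by
  have h3 : (3 : ℝ) ≤ n := by exact_mod_cast hn
  have hE : ((allPairs n).card : ℝ) = (n : ℝ) * (n - 1) / 2 := by
    rw [allPairs, Finset.card_powersetCard, Finset.card_univ, Fintype.card_fin,
      Nat.cast_choose_two]
  have hadj : ∀ x y : Fin n, adj (allPairs n) x y = if x ≠ y then 1 else 0 := fun x y => by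
    by_cases h : x ≠ y
    · simp [adj, h, mem_allPairs]
    · simp [adj, h]
  have hdens : dens (allPairs n) = 1 := by
    rw [dens, hE, div_self]; nlinarith
  have hu : uexp (allPairs n) = (n : ℝ) - 2 := by rw [uexp, hdens]; ring
  have hdg : ∀ x, dg (allPairs n) x = (n : ℝ) - 1 := fun x => by
    simp only [dg, hadj, Finset.sum_boole]
    rw [show (univ.filter fun y => x ≠ y) = univ.erase x by ext y; simp [ne_comm],
      Finset.card_erase_of_mem (Finset.mem_univ x), Finset.card_univ, Fintype.card_fin,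
      Nat.cast_sub (by omega)]
    norm_num
  have hcd : ∀ x y : Fin n, x ≠ y → cd (allPairs n) x y = (n : ℝ) - 2 := fun x y hxy => by
    have e : ∀ z, adj (allPairs n) x z * adj (allPairs n) y z
        = if x ≠ z ∧ y ≠ z then 1 else 0 := fun z => by
      rw [hadj, hadj]; split_ifs <;> simp_all
    simp only [cd, e, Finset.sum_boole]
    rw [show (univ.filter fun z => x ≠ z ∧ y ≠ z) = (univ.erase x).erase y by
        ext z; simp [ne_comm, and_comm],
      Finset.card_erase_of_mem (by simp [Ne.symm hxy]),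
      Finset.card_erase_of_mem (Finset.mem_univ x), Finset.card_univ, Fintype.card_fin,
      Nat.cast_sub (by omega), Nat.cast_sub (by omega)]
    norm_num; ring
  have hdev : ∀ x y, dev (allPairs n) x y = 0 := fun x y => by
    by_cases h : x ≠ y
    · rw [dev, hcd x y h, hu, div_self (by linarith)]; ring
    · simp [dev, hadj, h]
  have hT : 6 * (((kn n).tris (allPairs n)).card : ℝ) = (n : ℝ) * ((n - 1) * (n - 2)) := by
    rw [← sum_adj_cd (subset_refl _)]
    have e : ∀ x y, adj (allPairs n) x y * cd (allPairs n) x y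
        = adj (allPairs n) x y * ((n : ℝ) - 2) := fun x y => by
      by_cases h : x ≠ y
      · rw [hcd x y h]
      · simp [hadj, h]
    simp only [e, ← Finset.sum_mul]
    rw [show ∑ x, ∑ y, adj (allPairs n) x y = ∑ x, dg (allPairs n) x from rfl]
    simp only [hdg, Finset.sum_const, Finset.card_univ, Fintype.card_fin, nsmul_eq_mul]
    ring
  have hv : ∀ x, vdev (allPairs n) x = 0 := fun x => by simp [vdev, hdev]
  have ha : ∀ x, adev (allPairs n) x = 0 := fun x => by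
    rw [adev, hdg, hdens, mul_one, div_self (by linarith), sub_self]
  have hm : mdev (allPairs n) = 0 := by
    rw [mdev, hE, hu, sub_eq_zero, div_eq_one_iff_eq]
    · linarith
    · exact mul_ne_zero (by nlinarith) (by linarith)
  have h0 : (0 : ℝ) ^ (2 * k) = 0 := zero_pow (by omega)
  simp [pot, hdev, hv, ha, hm, h0]

/-- Small powers of `n` are eventually below any positive number. -/
theorem eventually_rpow_le {a : ℝ} (ha : a < 0) {ε : ℝ} (hε : 0 < ε) :
    ∀ᶠ n : ℕ in atTop, (n : ℝ) ^ a ≤ ε := by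
  have h := (tendsto_rpow_neg_atTop (neg_pos.2 ha)).comp
    (tendsto_natCast_atTop_atTop (R := ℝ))
  filter_upwards [h.eventually (eventually_le_nhds hε)] with n hn
  simpa using hn

/-- Large powers of `n` are eventually above any number. -/
theorem eventually_le_rpow {a : ℝ} (ha : 0 < a) (M : ℝ) :
    ∀ᶠ n : ℕ in atTop, M ≤ (n : ℝ) ^ a :=
  ((tendsto_rpow_atTop ha).comp (tendsto_natCast_atTop_atTop (R := ℝ))).eventually
    (eventually_ge_atTop M)

/-- Regular states above the level are nice. -/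
theorem nice_of_reg {θ : ℝ} {m : ℕ} (hW : W ⊆ allPairs n) (hl : level n θ ≤ W.card)
    (hR : Reg θ m W) (hn : 20 ≤ n) (hu : 20 ≤ (n : ℝ) ^ θ) (hη : eta n θ ≤ 1 / 20)
    (hinv : 1 / ((n : ℝ) - 2) ≤ eta n θ / 2) : Nice W (eta n θ) :=
  ⟨hW, hn, hu.trans (level_le_uexp (by omega) hl), hη, hinv, hR.dev_le, hR.adev_le, hR.vdev_le,
    hR.mdev_le⟩

/-- The potential half of part I, given the drift and the link bound. -/
theorem potential_of
    (hD : ∀ {n : ℕ} {W : Finset (Finset (Fin n))} {η : ℝ}, Nice W η → ∀ {k : ℕ}, 1 ≤ k →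
      ∀ {κ : ℝ}, 0 < κ → κ ≤ 1 → η * ((1 / κ ^ (2 * k)) ^ 2) ≤ κ →
      (∑ x, ∑ y, (rlink W x y / uexp W) ^ (2 * k)
        ≤ κ ^ (4 * k) * ∑ x, ∑ y, dev W x y ^ (2 * k)) →
      pdrift W (2 * k) (1 / κ ^ (2 * k)) ≤ 40 * κ * uexp W * pot W (2 * k) (1 / κ ^ (2 * k)))
    (hL : ∀ {n : ℕ} {W : Finset (Finset (Fin n))} {η ρ : ℝ} {m : ℕ}, Nice W η → 1 ≤ m → 0 ≤ ρ →
      (∀ x, Matrix.trace (link W x ^ (2 * m)) ≤ (ρ * uexp W) ^ (2 * m)) → ∀ {k : ℕ}, 1 ≤ k →
      ∑ x, ∑ y, (rlink W x y / uexp W) ^ (2 * k)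
        ≤ 4 * ρ ^ 2 * 6 ^ (2 * k - 2) * ∑ x, ∑ y, dev W x y ^ (2 * k)) :
    PotentialStmt := by
  intro θ hθ hθ' A m hm
  obtain ⟨k, hk1, hkθ⟩ : ∃ k : ℕ, 1 ≤ k ∧ 2 * ((A : ℝ) + 8) / θ ≤ k :=
    ⟨max 1 ⌈2 * ((A : ℝ) + 8) / θ⌉₊, le_max_left _ _,
      (Nat.le_ceil _).trans (by exact_mod_cast le_max_right _ _)⟩
  rw [div_le_iff₀ hθ] at hkθ
  have hk0 : (1 : ℝ) ≤ k := by exact_mod_cast hk1
  obtain ⟨κ, hκ⟩ : ∃ κ : ℝ, κ = 1 / (160 * k) := ⟨_, rfl⟩
  have hκ0 : 0 < κ := by rw [hκ]; positivity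
  have hκ1 : κ ≤ 1 := by rw [hκ, div_le_one (by positivity)]; linarith
  obtain ⟨w, hw⟩ : ∃ w : ℝ, w = 1 / κ ^ (2 * k) := ⟨_, rfl⟩
  have hw1 : 1 ≤ w := by
    rw [hw, one_le_div (by positivity)]; exact pow_le_one₀ hκ0.le hκ1
  obtain ⟨C, hC⟩ : ∃ C : ℝ, C = noiseC 2000 (1 / 8) k * (4 * w ^ 2) := ⟨_, rfl⟩
  have hC0 : 0 ≤ C := by
    rw [hC]
    exact mul_nonneg (noiseC_nonneg (by norm_num) (by norm_num) k) (by positivity)
  filter_upwards [eventually_ge_atTop 20, eventually_le_rpow hθ 20,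
    eventually_rpow_le (show -(θ / 4) < 0 by linarith) (show (0:ℝ) < 1 / 20 by norm_num),
    eventually_rpow_le (show -(θ / 4) < 0 by linarith) (show (0:ℝ) < κ / w ^ 2 by positivity),
    eventually_le_rpow (show 0 < 1 - θ / 4 by linarith) 4,
    eventually_rpow_le (show -(θ / 4) < 0 by linarith)
      (show (0:ℝ) < κ ^ (4 * k) / (4 * 6 ^ (2 * k - 2)) by positivity),
    eventually_le_rpow one_pos C] with n hn hu20 hη20 hηκ hn4 hρκ hnC
  have hn0 : (0 : ℝ) < n := by exact_mod_cast (show 0 < n by omega)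
  have hn20 : (20 : ℝ) ≤ n := by exact_mod_cast hn
  have hη0 : 0 < eta n θ := Real.rpow_pos_of_pos hn0 _
  have hinv : 1 / ((n : ℝ) - 2) ≤ eta n θ / 2 := by
    rw [Real.rpow_sub hn0, Real.rpow_one, le_div_iff₀ (Real.rpow_pos_of_pos hn0 _)] at hn4
    rw [eta, Real.rpow_neg hn0.le, div_le_div_iff₀ (by linarith) two_pos, ← div_eq_inv_mul,
      le_div_iff₀ (Real.rpow_pos_of_pos hn0 _)]
    linarith
  have hρ2 : 4 * rho n θ ^ 2 * 6 ^ (2 * k - 2) ≤ κ ^ (4 * k) := by
    have e : rho n θ ^ 2 = (n : ℝ) ^ (-(θ / 4)) := by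
      rw [rho, ← Real.rpow_natCast, ← Real.rpow_mul hn0.le]; congr 1; push_cast; ring
    rw [le_div_iff₀ (by positivity)] at hρκ
    rw [e]; linarith
  have hηw : eta n θ * w ^ 2 ≤ κ := by
    rw [le_div_iff₀ (by positivity)] at hηκ
    exact hηκ
  obtain ⟨q, hq⟩ : ∃ q : ℝ, q = C * (n : ℝ) ^ 2 / ((n : ℝ) ^ θ) ^ (k - 1) := ⟨_, rfl⟩
  have hq0 : 0 ≤ q := by rw [hq]; positivity
  refine ⟨fun W => potH W k w q (eta n θ), fun W _ => ?_, ?_, fun W hW hl hx => ?_,
    fun W hW hl hR => ?_⟩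
  · have := pot_nonneg W k (show (0 : ℝ) ≤ w by linarith)
    exact div_nonneg (by positivity) (by positivity)
  · simp only [potH, pot_allPairs (by omega : 3 ≤ n) hk1 w, mul_zero, zero_add]
    have hE : ((allPairs n).card : ℝ) ≤ (n : ℝ) ^ 2 := by
      rw [allPairs, Finset.card_powersetCard, Finset.card_univ, Fintype.card_fin,
        Nat.cast_choose_two]
      nlinarith
    rw [div_le_div_iff₀ (pow_pos hη0 _) (by positivity), one_mul, hq, eta,
      ← Real.rpow_natCast ((n : ℝ) ^ (-(θ / 4))), ← Real.rpow_mul hn0.le,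
      ← Real.rpow_natCast ((n : ℝ) ^ θ), ← Real.rpow_mul hn0.le, Nat.cast_sub hk1]
    rw [Real.rpow_one] at hnC
    calc C * (n : ℝ) ^ 2 / (n : ℝ) ^ (θ * ((k : ℝ) - ((1 : ℕ) : ℝ)))
          * ((allPairs n).card : ℝ) ^ 2 * (n : ℝ) ^ A
        ≤ (n : ℝ) * (n : ℝ) ^ 2 / (n : ℝ) ^ (θ * ((k : ℝ) - ((1 : ℕ) : ℝ)))
          * ((n : ℝ) ^ 2) ^ 2 * (n : ℝ) ^ A := by gcongr
      _ = (n : ℝ) ^ ((7 : ℝ) + A - θ * ((k : ℝ) - 1)) := by
          rw [Real.rpow_sub hn0, Real.rpow_add hn0, Real.rpow_natCast,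
            show (7 : ℝ) = ((7 : ℕ) : ℝ) by norm_num, Real.rpow_natCast, Nat.cast_one]
          ring
      _ ≤ _ := by
          refine Real.rpow_le_rpow_of_exponent_le (by linarith) ?_
          push_cast
          linarith
  · exact potH_exit hw1 hq0 hη0
      (by
        have := card_pos_of_level (by omega : 3 ≤ n) hl
        exact_mod_cast (show 0 < W.card by exact_mod_cast this)) hx
  · have hl' : level n θ ≤ W.card := by linarith
    have h := nice_of_reg hW hl' hR hn hu20 hη20 hinv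
    refine ⟨hR.tris_ne (lt_of_le_of_lt hη20 (by norm_num)),
      h.potH_step hk1 hw1 ?_ ?_ hη0.le⟩
    · have hlink := hL h hm (Real.rpow_nonneg hn0.le _) hR.link_le hk1
      have hsum : 0 ≤ ∑ x, ∑ y, dev W x y ^ (2 * k) :=
        Finset.sum_nonneg fun x _ => Finset.sum_nonneg fun y _ => (even_two_mul k).pow_nonneg _
      have hd := hD h hk1 hκ0 hκ1 (hw ▸ hηw)
        (hlink.trans (mul_le_mul_of_nonneg_right hρ2 hsum))
      rw [← hw] at hd
      calc 2 * (k : ℝ) * pdrift W (2 * k) w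
          ≤ 2 * k * (40 * κ * uexp W * pot W (2 * k) w) :=
            mul_le_mul_of_nonneg_left hd (by positivity)
        _ = _ := by rw [hκ]; field_simp; ring
    · have hu := level_le_uexp (by omega : 3 ≤ n) hl'
      rw [hq, hC]
      calc noiseC 2000 (1 / 8) k / uexp W ^ (k - 1) * (4 * w ^ 2 * (n : ℝ) ^ 2)
          ≤ noiseC 2000 (1 / 8) k / ((n : ℝ) ^ θ) ^ (k - 1) * (4 * w ^ 2 * (n : ℝ) ^ 2) := by
            refine mul_le_mul_of_nonneg_right (div_le_div_of_nonneg_left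
              (noiseC_nonneg (by norm_num) (by norm_num) k) (by positivity)
              (pow_le_pow_left₀ (by positivity) hu _)) (by positivity)
        _ = _ := by ring

/-- The deviations half of part I. -/
theorem potential : PotentialStmt :=
  potential_of
    (fun {_ _ _} h {k} hk {κ} h0 h1 hηw hR => by
      rw [one_div] at hηw ⊢
      rw [show 4 * k = 2 * (2 * k) by ring] at hR
      exact h.drift hk h0 h1 hηw hR)
    (fun h hm _ htr _ hk => h.rlink_pow_le hm hk htr)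

end P046.Full
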