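import Vale.Agent.P046.Full.Defs
import Vale.Agent.P046.Full.Ident
import Vale.Agent.P046.Full.Tools

/-!
P046, part II, the operator half: `nrm K` is the `ℓ^K` norm on ordered pairs. One step of the
recursion `Z' = Z - w (T Z + F)` is tracked by `nrm Z + Λ * nrm (avg Z)`: the link part of `T` is
small by interpolation and averaging over the neighbours is a contraction.
-/

namespace P046.Full

open Finset Matrix

variable {n : ℕ}

/-- The `ℓ^K` norm on ordered pairs. -/
noncomputable def nrm (K : ℕ) (f : Fin n → Fin n → ℝ) : ℝ :=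
  (∑ p : Fin n × Fin n, |f p.1 p.2| ^ K) ^ (1 / (K : ℝ))

section norm

variable {K : ℕ}

theorem nrm_nonneg (f : Fin n → Fin n → ℝ) : 0 ≤ nrm K f := by unfold nrm; positivity

theorem nrm_pow (hK : 1 ≤ K) (f : Fin n → Fin n → ℝ) :
    nrm K f ^ K = ∑ x, ∑ y, |f x y| ^ K := by
  rw [nrm, one_div, Real.rpow_inv_natCast_pow (by positivity) (by omega), ← Fintype.sum_prod_type']

theorem nrm_add (hK : 1 ≤ K) (f g : Fin n → Fin n → ℝ) :
    nrm K (f + g) ≤ nrm K f + nrm K g := by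
  have h := Real.Lp_add_le Finset.univ (fun p : Fin n × Fin n => f p.1 p.2) (fun p => g p.1 p.2)
    (p := (K : ℝ)) (by exact_mod_cast hK)
  simpa only [nrm, Pi.add_apply, Real.rpow_natCast] using h

theorem nrm_le_mul (hK : 1 ≤ K) {f g : Fin n → Fin n → ℝ} {c : ℝ} (hc : 0 ≤ c)
    (h : ∑ x, ∑ y, |f x y| ^ K ≤ c ^ K * ∑ x, ∑ y, |g x y| ^ K) : nrm K f ≤ c * nrm K g := by
  refine (pow_le_pow_iff_left₀ (n := K) (nrm_nonneg f) (mul_nonneg hc (nrm_nonneg g)) (by omega)).1 ?_
  rw [mul_pow, nrm_pow hK, nrm_pow hK]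
  exact h

theorem nrm_le_pointwise (hK : 1 ≤ K) {f g : Fin n → Fin n → ℝ} {c : ℝ} (hc : 0 ≤ c)
    (h : ∀ x y, |f x y| ≤ c * |g x y|) : nrm K f ≤ c * nrm K g := by
  refine nrm_le_mul hK hc ?_
  simp only [Finset.mul_sum, ← mul_pow]
  exact Finset.sum_le_sum fun x _ => Finset.sum_le_sum fun y _ =>
    pow_le_pow_left₀ (abs_nonneg _) (h x y) K

theorem nrm_swap (f : Fin n → Fin n → ℝ) : nrm K (fun x y => f y x) = nrm K f := by
  unfold nrm
  congr 1
  exact (Equiv.prodComm (Fin n) (Fin n)).sum_comp fun p => |f p.1 p.2| ^ K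

theorem abs_le_nrm (hK : 1 ≤ K) (f : Fin n → Fin n → ℝ) (x y : Fin n) : |f x y| ≤ nrm K f := by
  refine (pow_le_pow_iff_left₀ (abs_nonneg _) (nrm_nonneg f) (n := K) (by omega)).1 ?_
  rw [nrm_pow hK]
  exact (Finset.single_le_sum (f := fun y => |f x y| ^ K) (fun _ _ => by positivity)
    (Finset.mem_univ y)).trans (Finset.single_le_sum (f := fun x => ∑ y, |f x y| ^ K)
      (fun _ _ => by positivity) (Finset.mem_univ x))

theorem nrm_le_const (hK : 1 ≤ K) {f : Fin n → Fin n → ℝ} {c : ℝ} (hc : 0 ≤ c)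
    (h : ∀ x y, |f x y| ≤ c) : nrm K f ≤ c * (n : ℝ) ^ (2 / (K : ℝ)) := by
  refine (pow_le_pow_iff_left₀ (nrm_nonneg f) (by positivity) (n := K) (by omega)).1 ?_
  rw [nrm_pow hK, mul_pow, ← Real.rpow_natCast ((n : ℝ) ^ (2 / (K : ℝ))),
    ← Real.rpow_mul (Nat.cast_nonneg _), div_mul_cancel₀ _ (by exact_mod_cast (by omega : K ≠ 0)),
    show (2 : ℝ) = ((2 : ℕ) : ℝ) by norm_num, Real.rpow_natCast]
  calc ∑ x, ∑ y, |f x y| ^ K ≤ ∑ _x : Fin n, ∑ _y : Fin n, c ^ K :=
        Finset.sum_le_sum fun x _ => Finset.sum_le_sum fun y _ =>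
          pow_le_pow_left₀ (abs_nonneg _) (h x y) K
    _ = c ^ K * (n : ℝ) ^ 2 := by simp; ring

end norm

variable (W : Finset (Finset (Fin n)))

/-- The mean over the neighbours of `x`, as a function on ordered pairs. -/
noncomputable def avgP (f : Fin n → Fin n → ℝ) : Fin n → Fin n → ℝ :=
  fun x y => adj W x y * ((∑ z, adj W x z * f x z) / dg W x)

/-- The link part of the neighbour sum. -/
noncomputable def linkP (f : Fin n → Fin n → ℝ) : Fin n → Fin n → ℝ :=
  fun x y => (link W x *ᵥ f x) y / uexp W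

/-- The vertex part of the neighbour sum. -/
noncomputable def vertP (f : Fin n → Fin n → ℝ) : Fin n → Fin n → ℝ :=
  fun x y => dens W * dg W x / uexp W * avgP W f x y

/-- The neighbour sum in units of `u`. -/
noncomputable def nbrP (f : Fin n → Fin n → ℝ) : Fin n → Fin n → ℝ :=
  fun x y => (linkP W f x y + linkP W f y x) + (vertP W f x y + vertP W f y x)

variable {W}

theorem avgP_apply_sum (f : Fin n → Fin n → ℝ) (x : Fin n) :
    (∑ z, adj W x z * avgP W f x z) / dg W x = (∑ z, adj W x z * f x z) / dg W x := by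
  simp only [avgP, ← mul_assoc, adj_mul_self, ← Finset.sum_mul]
  rcases eq_or_ne (dg W x) 0 with h | h
  · simp [h]
  · rw [show ∑ z, adj W x z = dg W x from rfl]
    field_simp

theorem avgP_mul_avgP (c : Fin n → ℝ) (f : Fin n → Fin n → ℝ) :
    avgP W (fun x y => c x * avgP W f x y) = fun x y => c x * avgP W f x y := by
  funext x y
  conv_lhs => rw [avgP]
  simp only [mul_left_comm (adj W x _) (c x), ← Finset.mul_sum, mul_div_assoc, avgP_apply_sum]
  rw [avgP]

theorem nrm_avgP {K : ℕ} (hK : 1 ≤ K) (f : Fin n → Fin n → ℝ) :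
    nrm K (avgP W f) ≤ nrm K f := by
  refine (nrm_le_mul hK zero_le_one ?_).trans_eq (one_mul _)
  rw [one_pow, one_mul]
  refine Finset.sum_le_sum fun x _ => ?_
  rcases eq_or_ne (dg W x) 0 with h | h
  · simp only [avgP, h, div_zero, mul_zero, abs_zero, zero_pow (by omega : K ≠ 0),
      Finset.sum_const_zero]
    exact Finset.sum_nonneg fun y _ => by positivity
  have hd : 0 < dg W x := lt_of_le_of_ne (dg_nonneg W x) (Ne.symm h)
  have hle : |(∑ z, adj W x z * f x z) / dg W x| ^ K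
      ≤ ∑ z, adj W x z / dg W x * |f x z| ^ K := by
    refine le_trans (pow_le_pow_left₀ (abs_nonneg _) ?_ K)
      (Real.pow_arith_mean_le_arith_mean_pow Finset.univ (fun z => adj W x z / dg W x)
        (fun z => |f x z|) (fun z _ => div_nonneg (adj_nonneg W x z) hd.le)
        (by rw [← Finset.sum_div]; exact div_self h) (fun z _ => abs_nonneg _) K)
    rw [Finset.sum_div]
    refine (Finset.abs_sum_le_sum_abs _ _).trans (le_of_eq (Finset.sum_congr rfl fun z _ => ?_))
    rw [abs_div, abs_mul, abs_of_nonneg (adj_nonneg W x z), abs_of_pos hd]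
    ring
  calc ∑ y, |avgP W f x y| ^ K
      = ∑ y, adj W x y * |(∑ z, adj W x z * f x z) / dg W x| ^ K := by
        refine Finset.sum_congr rfl fun y _ => ?_
        rcases adj_cases W x y with e | e <;> simp [avgP, e, zero_pow (by omega : K ≠ 0)]
    _ ≤ dg W x * ∑ z, adj W x z / dg W x * |f x z| ^ K := by
        rw [← Finset.sum_mul]; exact mul_le_mul_of_nonneg_left hle hd.le
    _ ≤ ∑ y, |f x y| ^ K := by
        rw [Finset.mul_sum]
        refine Finset.sum_le_sum fun z _ => ?_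
        rw [← mul_assoc, mul_div_cancel₀ _ h]
        exact mul_le_of_le_one_left (by positivity) (adj_le_one W x z)

/-- Interpolation: the link part is small. -/
theorem nrm_linkP {K : ℕ} (hK : 2 ≤ K) {ρ ε : ℝ} (hu : 0 < uexp W) (hε : 0 ≤ ε)
    (hop : ∀ x, OpLe (link W x) (ρ * uexp W))
    (hrow : ∀ x y, ∑ z, |link W x y z| ≤ 3 * uexp W)
    (hρε : 4 * ρ ^ 2 * 6 ^ (K - 2) ≤ ε ^ K) (f : Fin n → Fin n → ℝ) :
    nrm K (linkP W f) ≤ ε * nrm K f := by
  refine nrm_le_mul (by omega) hε ?_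
  rw [Finset.mul_sum]
  refine Finset.sum_le_sum fun x _ => ?_
  have h := interp_pow (r := 3 * uexp W) (by positivity) (hop x) (hrow x) (K - 2) (f x)
  rw [show K - 2 + 2 = K by omega] at h
  simp only [linkP, abs_div, abs_of_pos hu, div_pow]
  rw [← Finset.sum_div, div_le_iff₀ (by positivity)]
  refine h.trans ?_
  have e : 4 * (ρ * uexp W) ^ 2 * (2 * (3 * uexp W)) ^ (K - 2)
      = 4 * ρ ^ 2 * 6 ^ (K - 2) * uexp W ^ K := by
    conv_rhs => rw [show K = 2 + (K - 2) by omega, pow_add]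
    rw [show 2 + (K - 2) - 2 = K - 2 by omega]
    ring
  rw [e]
  calc 4 * ρ ^ 2 * 6 ^ (K - 2) * uexp W ^ K * ∑ j, |f x j| ^ K
      ≤ ε ^ K * uexp W ^ K * ∑ j, |f x j| ^ K := by gcongr
    _ = _ := by ring

/-- The potential of the recursion. -/
noncomputable def npot (W : Finset (Finset (Fin n))) (K : ℕ) (Λ : ℝ) (f : Fin n → Fin n → ℝ) : ℝ :=
  nrm K f + Λ * nrm K (avgP W f)

theorem npot_zero {K : ℕ} (hK : 1 ≤ K) (Λ : ℝ) : npot W K Λ (fun _ _ => 0) = 0 := by
  have h : avgP W (fun _ _ => (0 : ℝ)) = fun _ _ => 0 := by funext x y; simp [avgP]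
  have h2 : nrm K (fun (_ : Fin n) (_ : Fin n) => (0 : ℝ)) = 0 := by
    have hK0 : (1 / (K : ℝ)) ≠ 0 := one_div_ne_zero (by exact_mod_cast (by omega : K ≠ 0))
    simp only [nrm, abs_zero, zero_pow (by omega : K ≠ 0), Finset.sum_const_zero, Real.zero_rpow hK0]
  rw [npot, h, h2, mul_zero, add_zero]

/-- One step of the recursion. -/
theorem npot_step {K : ℕ} (hK : 2 ≤ K) {ρ ε η Λ w e : ℝ} (hu : 0 < uexp W) (hε : 0 ≤ ε)
    (hop : ∀ x, OpLe (link W x) (ρ * uexp W))
    (hrow : ∀ x y, ∑ z, |link W x y z| ≤ 3 * uexp W)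
    (hρε : 4 * ρ ^ 2 * 6 ^ (K - 2) ≤ ε ^ K)
    (hη : 0 ≤ η) (hk : ∀ x, 1 - η ≤ dens W * dg W x / uexp W ∧ dens W * dg W x / uexp W ≤ 1 + 3 * η)
    (hη2 : η ≤ 1 / 6) (hw : 0 ≤ w) (hw2 : w ≤ 1 / 2) (hΛ : 1 ≤ Λ)
    (hsmall : 4 * η + 2 * ε * (1 + Λ) ≤ 1 / Λ)
    {Z Z' : Fin n → Fin n → ℝ} (he : 0 ≤ e)
    (hstep : ∀ x y, |Z' x y - Z x y + w * nbrP W Z x y| ≤ e) :
    npot W K Λ Z' ≤ npot W K Λ Z * (1 + 4 * w / Λ) + (1 + Λ) * (e * (n : ℝ) ^ (2 / (K : ℝ))) := by
  have hK1 : 1 ≤ K := by omega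
  set D := nrm K Z
  set B := nrm K (avgP W Z)
  set E : Fin n → Fin n → ℝ := fun x y => Z' x y - Z x y + w * nbrP W Z x y
  set lk : Fin n → Fin n → ℝ := fun x y => -w * (linkP W Z x y + linkP W Z y x) with hlk
  set R' : Fin n → Fin n → ℝ := fun x y => linkP W Z y x
  set kA := vertP W Z
  set kA' : Fin n → Fin n → ℝ := fun x y => vertP W Z y x
  have hB : 0 ≤ B := nrm_nonneg _
  have hD : 0 ≤ D := nrm_nonneg _
  have hE : nrm K E ≤ e * (n : ℝ) ^ (2 / (K : ℝ)) := nrm_le_const hK1 he hstep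
  have hR : nrm K (linkP W Z) ≤ ε * D := nrm_linkP hK hu hε hop hrow hρε Z
  have hlkn : nrm K lk ≤ w * (2 * ε * D) := by
    refine (nrm_le_pointwise hK1 hw (g := linkP W Z + R') fun x y => ?_).trans ?_
    · simp only [hlk, abs_mul, abs_neg, abs_of_nonneg hw]
      exact le_rfl
    · refine mul_le_mul_of_nonneg_left ((nrm_add hK1 _ _).trans ?_) hw
      have : nrm K R' = nrm K (linkP W Z) := nrm_swap (linkP W Z)
      linarith
  have hkA : nrm K kA ≤ (1 + 3 * η) * B :=
    nrm_le_pointwise hK1 (by linarith) fun x y => by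
      show |dens W * dg W x / uexp W * avgP W Z x y| ≤ _
      rw [abs_mul]
      refine mul_le_mul_of_nonneg_right ?_ (abs_nonneg _)
      rw [abs_le]
      constructor <;> linarith [(hk x).1, (hk x).2]
  have hkA' : nrm K kA' ≤ (1 + 3 * η) * B := (nrm_swap (vertP W Z)).trans_le hkA
  set m1 : Fin n → Fin n → ℝ := fun x y => -w * kA x y
  set m2 : Fin n → Fin n → ℝ := fun x y => -w * kA' x y
  have eZ : Z' = Z + lk + m1 + m2 + E := by
    funext x y
    simp only [Pi.add_apply, hlk, m1, m2, E, nbrP, kA, kA']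
    ring
  have hm1 : nrm K m1 ≤ w * ((1 + 3 * η) * B) :=
    (nrm_le_pointwise hK1 hw (g := kA) fun x y => by simp [m1, abs_mul, abs_of_nonneg hw]).trans
      (mul_le_mul_of_nonneg_left hkA hw)
  have hm2 : nrm K m2 ≤ w * ((1 + 3 * η) * B) :=
    (nrm_le_pointwise hK1 hw (g := kA') fun x y => by simp [m2, abs_mul, abs_of_nonneg hw]).trans
      (mul_le_mul_of_nonneg_left hkA' hw)
  have h1 : nrm K Z' ≤ D + w * (2 * ε * D) + w * (2 * (1 + 3 * η) * B)
      + e * (n : ℝ) ^ (2 / (K : ℝ)) := by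
    rw [eZ]
    have := nrm_add hK1 (Z + lk + m1 + m2) E
    have := nrm_add hK1 (Z + lk + m1) m2
    have := nrm_add hK1 (Z + lk) m1
    have := nrm_add hK1 Z lk
    linarith
  set keep : Fin n → Fin n → ℝ :=
    fun x y => (1 - w * (dens W * dg W x / uexp W)) * avgP W Z x y
  have eA : avgP W Z' = keep + avgP W lk + avgP W m2 + avgP W E := by
    have hadd : ∀ f g : Fin n → Fin n → ℝ, avgP W (f + g) = avgP W f + avgP W g := by
      intro f g
      funext x y
      simp only [avgP, Pi.add_apply, mul_add, Finset.sum_add_distrib, add_div]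
    have hm : avgP W m1 = fun x y => -w * kA x y := by
      have := avgP_mul_avgP (W := W) (fun x => -w * (dens W * dg W x / uexp W)) Z
      calc avgP W m1 = avgP W (fun x y => -w * (dens W * dg W x / uexp W) * avgP W Z x y) := by
            congr 1; funext x y; simp only [m1, kA, vertP]; ring
        _ = _ := this
        _ = _ := by funext x y; simp only [kA, vertP]; ring
    rw [eZ, hadd, hadd, hadd, hadd, hm]
    funext x y
    simp only [Pi.add_apply, keep, kA, vertP]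
    ring
  have hkeep : nrm K keep ≤ (1 - w * (1 - η)) * B :=
    nrm_le_pointwise hK1 (by nlinarith) fun x y => by
      simp only [keep, abs_mul]
      refine mul_le_mul_of_nonneg_right ?_ (abs_nonneg _)
      obtain ⟨a, b⟩ := hk x
      rw [abs_of_nonneg (by nlinarith)]
      nlinarith
  have h2 : nrm K (avgP W Z') ≤ B + w * (2 * ε * D) + w * (4 * η * B)
      + e * (n : ℝ) ^ (2 / (K : ℝ)) := by
    rw [eA]
    have := nrm_add hK1 (keep + avgP W lk + avgP W m2) (avgP W E)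
    have := nrm_add hK1 (keep + avgP W lk) (avgP W m2)
    have := nrm_add hK1 keep (avgP W lk)
    have := (nrm_avgP (W := W) hK1 lk).trans hlkn
    have := (nrm_avgP (W := W) hK1 m2).trans hm2
    have := (nrm_avgP (W := W) hK1 E).trans hE
    linarith
  have hinv : Λ * (1 / Λ) = 1 := by field_simp
  have h3 : 2 * ε * D * (1 + Λ) + 2 * (1 + 3 * η) * B + Λ * (4 * η * B)
      ≤ 4 / Λ * (D + Λ * B) := by
    have a1 : 2 * ε * (1 + Λ) * D ≤ 1 / Λ * D :=
      mul_le_mul_of_nonneg_right (by linarith) hD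
    have hε2 : 0 ≤ 2 * ε * (1 + Λ) := by positivity
    have a2 : Λ * (4 * η) ≤ 1 := by
      calc Λ * (4 * η) ≤ Λ * (1 / Λ) := mul_le_mul_of_nonneg_left (by linarith) (by linarith)
        _ = 1 := hinv
    have a3 := mul_le_mul_of_nonneg_right a2 hB
    have a4 : 2 * (1 + 3 * η) * B ≤ 3 * B := mul_le_mul_of_nonneg_right (by linarith) hB
    have a5 : 4 / Λ * (D + Λ * B) = 4 * (1 / Λ * D) + 4 * B := by field_simp
    have a6 : 0 ≤ 1 / Λ * D := by positivity
    rw [a5]
    linarith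
  have h4 := mul_le_mul_of_nonneg_left h3 hw
  have h5 := mul_le_mul_of_nonneg_left h2 (show (0 : ℝ) ≤ Λ by linarith)
  rw [npot, npot]
  calc nrm K Z' + Λ * nrm K (avgP W Z')
      ≤ D + Λ * B + w * (4 / Λ * (D + Λ * B)) + (1 + Λ) * (e * (n : ℝ) ^ (2 / (K : ℝ))) := by
        linarith
    _ = _ := by ring

end P046.Full
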