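import Vale.Agent.P046.Full.RecursionCore
import Vale.Agent.P046.Full.RecursionNorm

/-!
P046, part II: on a regular state the tree recursion follows `1 / √(1 + 2 u j / M)` uniformly
(`RecursionStmt`).
-/

namespace P046.Full

open Finset Filter Matrix LH

variable {n : ℕ} {W : Finset (Finset (Fin n))}

/-- The logarithmic error on ordered pairs. -/
noncomputable def zfun (W : Finset (Finset (Fin n))) (M j : ℕ) : Fin n → Fin n → ℝ :=
  fun x y => adj W x y * (kn n).zeta W (uexp W) M j {x, y}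

theorem exists_pair (hW : W ⊆ allPairs n) {a : Finset (Fin n)} (ha : a ∈ W) :
    ∃ x y, adj W x y = 1 ∧ a = {x, y} := by
  obtain ⟨x, y, hxy, rfl⟩ := Finset.card_eq_two.1 (mem_allPairs.1 (hW ha))
  exact ⟨x, y, adj_eq_one.2 ⟨hxy, ha⟩, rfl⟩

theorem sum_erase_triple {x y z : Fin n} (hxy : x ≠ y) (hxz : x ≠ z) (hyz : y ≠ z)
    (g : Finset (Fin n) → ℝ) :
    ∑ b ∈ (triple x y z).erase {x, y}, g b = g {x, z} + g {y, z} := by
  have h1 : ({x, y} : Finset (Fin n)) ∈ triple x y z := pair_mem_pairs.2 ⟨by simp, by simp, hxy⟩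
  have h2 : ({x, z} : Finset (Fin n)) ∈ triple x y z := pair_mem_pairs.2 ⟨by simp, by simp, hxz⟩
  have h3 : ({y, z} : Finset (Fin n)) ∈ triple x y z := pair_mem_pairs.2 ⟨by simp, by simp, hyz⟩
  have n1 : ({x, z} : Finset (Fin n)) ≠ {x, y} := fun e => by
    have : y ∈ ({x, z} : Finset (Fin n)) := e ▸ by simp
    simp [hxy.symm, hyz] at this
  have n2 : ({y, z} : Finset (Fin n)) ≠ {x, y} := fun e => by
    have : x ∈ ({y, z} : Finset (Fin n)) := e ▸ by simp
    simp [hxy, hxz] at this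
  have n3 : ({x, z} : Finset (Fin n)) ≠ {y, z} := fun e => by
    have : x ∈ ({y, z} : Finset (Fin n)) := e ▸ by simp
    simp [hxy, hxz] at this
  have hc : (triple x y z).card = 3 := by
    rw [triple, Finset.card_powersetCard, Finset.card_eq_three.2 ⟨x, y, z, hxy, hxz, hyz, rfl⟩]
    rfl
  rw [show (triple x y z).erase {x, y} = {{x, z}, {y, z}} from
    (Finset.eq_of_subset_of_card_le (by
      intro b hb
      simp only [Finset.mem_insert, Finset.mem_singleton] at hb
      rcases hb with rfl | rfl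
      · exact Finset.mem_erase.2 ⟨n1, h2⟩
      · exact Finset.mem_erase.2 ⟨n2, h3⟩)
      (by rw [Finset.card_erase_of_mem h1, hc, Finset.card_pair n3])).symm]
  exact Finset.sum_pair n3

theorem zfun_symm (W : Finset (Finset (Fin n))) (M j : ℕ) (x y : Fin n) :
    zfun W M j x y = zfun W M j y x := by
  simp only [zfun, adj_symm W x y, Finset.pair_comm x y]

/-- The neighbour sum of the scalar recursion is `nbrP`. -/
theorem nbrP_zfun {M j : ℕ} {x y : Fin n} (hxy : adj W x y = 1) :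
    nbrP W (zfun W M j) x y
      = (∑ r ∈ (kn n).star W {x, y}, ∑ b ∈ r.erase {x, y}, (kn n).zeta W (uexp W) M j b)
          / uexp W := by
  set Z := zfun W M j with hZ
  set z := (kn n).zeta W (uexp W) M j
  have hyx : adj W y x = 1 := by rw [adj_symm]; exact hxy
  have hne := (adj_eq_one.1 hxy).1
  have hsupp : ∀ a b, adj W a b = 0 → Z a b = 0 := fun a b h => by simp [hZ, zfun, h]
  have hside : ∀ {a b : Fin n}, adj W a b = 1 →
      linkP W Z a b + vertP W Z a b
        = (∑ c, adj W a c * adj W b c * Z a c) / uexp W := by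
    intro a b hab
    have hd : dg W a ≠ 0 := by
      have : (1 : ℝ) ≤ dg W a := hab ▸ Finset.single_le_sum (fun c _ => adj_nonneg W a c)
        (Finset.mem_univ b)
      intro h0; linarith
    rw [link_split hab (Z a) (hsupp a), add_div]
    congr 1
    have hs : ∑ c, adj W a c * Z a c = ∑ c, Z a c := Finset.sum_congr rfl fun c _ => by
      rcases adj_cases W a c with e | e <;> simp [e, hsupp a c]
    simp only [vertP, avgP, hab, one_mul, hs]
    field_simp
  rw [sum_star_pair hxy, nbrP, add_add_add_comm, hside hxy, hside hyx, ← add_div,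
    ← Finset.sum_add_distrib]
  congr 1
  refine Finset.sum_congr rfl fun c _ => ?_
  rcases adj_cases W x c with e | e <;> rcases adj_cases W y c with e' | e'
  · simp [e, e']
  · simp [e, e']
  · simp [e, e']
  · rw [sum_erase_triple hne (adj_eq_one.1 e).1 (adj_eq_one.1 e').1]
    simp only [hZ, zfun, e, e']
    ring

theorem nbrP_off {M j : ℕ} {x y : Fin n} (hxy : adj W x y = 0) :
    nbrP W (zfun W M j) x y = 0 := by
  have hyx : adj W y x = 0 := by rw [adj_symm]; exact hxy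
  have h : ∀ {a b : Fin n}, adj W a b = 0 → linkP W (zfun W M j) a b = 0 := fun hab => by
    simp [linkP, Matrix.mulVec, dotProduct, link, hab]
  simp [nbrP, vertP, avgP, h hxy, h hyx, hxy, hyx]

/-- The deterministic statement. -/
theorem recursion_det {η ρ ε Λ κ ν : ℝ} {m M K : ℕ} (hm : 1 ≤ m) (hW : W ⊆ allPairs n)
    (hu : 0 < uexp W) (hM : uexp W / M ≤ 1 / 4) (hreg : Regular W η ρ m)
    (hk : ∀ x, 1 - η ≤ dens W * dg W x / uexp W ∧ dens W * dg W x / uexp W ≤ 1 + 3 * η)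
    (hn : 2 ≤ n) (hη : 0 ≤ η) (hη2 : η ≤ 1 / 6) (hK : 2 ≤ K) (hε : 0 ≤ ε)
    (hρε : 4 * ρ ^ 2 * 6 ^ (K - 2) ≤ ε ^ K) (hΛ : 1 ≤ Λ)
    (hlog : Real.log (1 + 2 * uexp W) ≤ Λ) (hsmall : 4 * η + 2 * ε * (1 + Λ) ≤ 1 / Λ)
    (hq : 4 * Λ / uexp W ≤ 1 / 2)
    (hκ : 4 * Λ / uexp W + 2 * uexp W * (4 * Λ / uexp W) ^ 2 + uexp W / M * Λ ≤ κ)
    (hνκ : 2 * ν + 2 * κ ≤ 1 / 2)
    (hfix : Real.exp 4 * (1 + Λ) * Λ * ((η + 2 * ((2 * ν + 2 * κ) ^ 2 + 2 * κ))
        * (n : ℝ) ^ (2 / (K : ℝ))) ≤ ν) :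
    ∀ a ∈ W, ∀ (s : Finset (Finset (Fin n))) (j : ℕ), j ≤ M → ∃ δ : ℝ, |δ| ≤ ν + κ ∧
      (kn n).surv W M j s a = ideal (uexp W) M j * Real.exp δ := by
  set u := uexp W
  set f := η + 2 * ((2 * ν + 2 * κ) ^ 2 + 2 * κ) with hf
  set g := f * (n : ℝ) ^ (2 / (K : ℝ))
  have hκ0 : 0 ≤ κ := le_trans (by positivity) hκ
  have hf0 : 0 ≤ f := by positivity
  have hg0 : 0 ≤ g := by positivity
  have hdeg : ∀ a ∈ W, |((kn n).deg W a : ℝ) / u - 1| ≤ η ∧ ((kn n).deg W a : ℝ) ≤ 2 * u := by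
    intro a ha
    obtain ⟨x, y, hxy, rfl⟩ := exists_pair hW ha
    rw [deg_pair hxy]
    refine ⟨?_, (hreg.cd_bounds hu hxy).2.trans
      (mul_le_mul_of_nonneg_right (by linarith) hu.le)⟩
    simpa [dev, hxy] using hreg.dev_le x y
  have hop : ∀ x, OpLe (link W x) (ρ * u) := fun x =>
    opLe_of_trace (Matrix.ext fun y z => by rw [Matrix.transpose_apply]; exact link_symm W x z y)
      hm (hreg.link_le x)
  have hrow : ∀ x y, ∑ z, |link W x y z| ≤ 3 * u := fun x y => by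
    refine (link_row_le hn x y).trans ?_
    rcases adj_cases W x y with e | e
    · simp only [e, zero_mul]; positivity
    · have h1 := (hreg.cd_bounds hu e).2
      have h2 : dens W * dg W x ≤ (1 + 3 * η) * u := (div_le_iff₀ hu).1 (hk x).2
      rw [e, one_mul]
      nlinarith
  have hclockΛ : ∀ j, j ≤ M → clock u M j ≤ Λ := fun j hj => by
    refine ((clock_bounds hu.le (by linarith) j).2.1).trans (le_trans ?_ hlog)
    refine Real.log_le_log (base_pos hu.le j) ?_
    rcases Nat.eq_zero_or_pos M with h0 | h0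
    · simp [h0]; linarith
    · have h1 : (j : ℝ) / M ≤ 1 :=
        div_le_one_of_le₀ (by exact_mod_cast hj) (Nat.cast_nonneg _)
      rw [mul_div_assoc]
      nlinarith
  have hclose : ∀ j, j ≤ M → (∀ i < j, ∀ b ∈ W, ∀ s, (kn n).surv W M i s b ≤ 2 * ideal u M i) →
      ∀ b ∈ W, ∀ s, ∃ δ : ℝ, |δ| ≤ κ ∧
        (kn n).surv W M j s b = ideal u M j * Real.exp ((kn n).zeta W u M j b + δ) :=
    fun j hj hs b hb s => surv_close hu (by linarith) hq hj hs (hclockΛ j hj) le_rfl (hdeg b hb).2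
      hκ s
  have hν : ∀ j, j ≤ M → npot W K Λ (zfun W M j)
        ≤ Real.exp (4 * clock u M j / Λ) * (1 + Λ) * g * clock u M j →
      ∀ b ∈ W, |(kn n).zeta W u M j b| ≤ ν := by
    intro j hj hp b hb
    obtain ⟨x, y, hxy, rfl⟩ := exists_pair hW hb
    calc |(kn n).zeta W u M j {x, y}| = |zfun W M j x y| := by simp [zfun, hxy, u]
      _ ≤ nrm K (zfun W M j) := abs_le_nrm (by omega) _ x y
      _ ≤ npot W K Λ (zfun W M j) :=
          le_add_of_nonneg_right (mul_nonneg (by linarith) (nrm_nonneg _))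
      _ ≤ Real.exp (4 * clock u M j / Λ) * (1 + Λ) * g * clock u M j := hp
      _ ≤ Real.exp 4 * (1 + Λ) * g * Λ := by
          have hc := hclockΛ j hj
          have h4 : 4 * clock u M j / Λ ≤ 4 := by rw [div_le_iff₀ (by linarith)]; linarith
          have := clock_nonneg (M := M) hu.le j
          gcongr
      _ ≤ ν := le_of_eq_of_le (by ring) hfix
  have hbound : ∀ δ : ℝ, |δ| ≤ ν + κ → Real.exp δ ≤ 2 := fun δ hδ => by
    have := (abs_le.1 (Real.abs_exp_sub_one_le (x := δ) (by linarith))).2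
    linarith
  have main : ∀ j, j ≤ M →
      npot W K Λ (zfun W M j) ≤ Real.exp (4 * clock u M j / Λ) * (1 + Λ) * g * clock u M j ∧
        ∀ i < j, ∀ b ∈ W, ∀ s, (kn n).surv W M i s b ≤ 2 * ideal u M i := by
    intro j
    induction j with
    | zero =>
      intro _
      refine ⟨le_of_eq ?_, fun i hi => absurd hi (Nat.not_lt_zero i)⟩
      have : zfun W M 0 = fun _ _ => 0 := by
        funext x y; simp [zfun, zeta, fire, clock]
      rw [this, npot_zero (by omega)]
      simp [clock]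
    | succ j ih =>
      intro hj
      obtain ⟨hp, hs⟩ := ih (by omega)
      have hcl := hclose j (by omega) hs
      have hz := hν j (by omega) hp
      refine ⟨?_, fun i hi => ?_⟩
      · have hw := wt_nonneg (M := M) hu.le j
        have hstep : ∀ x y, |zfun W M (j + 1) x y - zfun W M j x y
            + wt u M j * nbrP W (zfun W M j) x y| ≤ wt u M j * f := by
          intro x y
          rcases adj_cases W x y with e | e
          · rw [nbrP_off e]
            simp only [zfun, e, zero_mul, sub_zero, mul_zero, add_zero, abs_zero]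
            positivity
          · rw [nbrP_zfun e]
            simp only [zfun, e, one_mul]
            exact zeta_step hu hκ0 hcl hz (by linarith) (hdeg _ (adj_eq_one.1 e).2).1 (by linarith)
        have hps := npot_step hK (w := wt u M j) hu hε hop hrow hρε hη hk hη2 hw
          ((wt_le hu.le j).trans (by linarith)) hΛ hsmall (mul_nonneg hw hf0) hstep
        refine hps.trans ?_
        rw [clock_succ]
        set G := clock u M j
        set w := wt u M j
        have hG : 0 ≤ G := clock_nonneg hu.le j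
        have he : 1 + 4 * w / Λ ≤ Real.exp (4 * w / Λ) := by
          have := Real.add_one_le_exp (4 * w / Λ); linarith
        have e1 : Real.exp (4 * (G + w) / Λ) = Real.exp (4 * G / Λ) * Real.exp (4 * w / Λ) := by
          rw [← Real.exp_add]; ring_nf
        have h1 : npot W K Λ (zfun W M j) * (1 + 4 * w / Λ)
            ≤ Real.exp (4 * G / Λ) * (1 + Λ) * g * G * Real.exp (4 * w / Λ) :=
          mul_le_mul hp he (by positivity) (by positivity)
        have h2 : (1 + Λ) * (w * f * (n : ℝ) ^ (2 / (K : ℝ)))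
            ≤ Real.exp (4 * G / Λ) * Real.exp (4 * w / Λ) * ((1 + Λ) * g * w) := by
          rw [← e1]
          refine le_of_eq_of_le ?_ (le_mul_of_one_le_left (by positivity)
            (Real.one_le_exp (by positivity)))
          simp only [g]; ring
        rw [e1]
        linarith
      · rcases Nat.lt_succ_iff_lt_or_eq.1 hi with hi | rfl
        · exact hs i hi
        · intro b hb s
          obtain ⟨δ, hδ, e⟩ := hcl b hb s
          rw [e, mul_comm 2 (ideal u M i)]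
          refine mul_le_mul_of_nonneg_left (hbound _ ?_) (ideal_nonneg i)
          exact (abs_add_le _ _).trans (add_le_add (hz b hb) hδ)
  intro a ha s j hj
  obtain ⟨hp, hs⟩ := main j hj
  obtain ⟨δ, hδ, e⟩ := hclose j hj hs a ha s
  exact ⟨_, (abs_add_le _ _).trans (add_le_add (hν j hj hp a ha) hδ), e⟩

theorem eventually_small (C : ℝ) {s : ℝ} (hs : 0 < s) :
    ∀ᶠ n : ℕ in atTop, C * (2 * Real.log n + 1) ^ 4 * (n : ℝ) ^ (-s) ≤ 1 := by
  have h0 : Tendsto (fun x : ℝ => C * 81 * (Real.log x ^ (4 : ℝ) / x ^ s)) atTop (nhds 0) := by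
    simpa using ((isLittleO_log_rpow_rpow_atTop 4 hs).tendsto_div_nhds_zero).const_mul (C * 81)
  have h1 := (h0.comp tendsto_natCast_atTop_atTop).eventually
    (eventually_le_nhds zero_lt_one)
  have h2 : ∀ᶠ n : ℕ in atTop, 1 ≤ Real.log n :=
    (Real.tendsto_log_atTop.comp tendsto_natCast_atTop_atTop).eventually_ge_atTop 1
  filter_upwards [h1, h2, eventually_gt_atTop 0] with n hn hlog hn0
  rcases le_total C 0 with hC | hC
  · exact le_trans (mul_nonpos_of_nonpos_of_nonneg (mul_nonpos_of_nonpos_of_nonneg hC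
      (by positivity)) (by positivity)) zero_le_one
  refine le_trans ?_ hn
  simp only [Function.comp_apply]
  rw [show (4 : ℝ) = ((4 : ℕ) : ℝ) by norm_num, Real.rpow_natCast,
    Real.rpow_neg (Nat.cast_nonneg _), mul_assoc C, mul_assoc C, div_eq_mul_inv, ← mul_assoc 81,
    show (81 : ℝ) * Real.log n ^ 4 = (3 * Real.log n) ^ 4 by ring]
  gcongr
  linarith

theorem dens_le_one (hn : 2 ≤ n) (hW : W ⊆ allPairs n) : dens W ≤ 1 := by
  have hn' : (2 : ℝ) ≤ n := by exact_mod_cast hn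
  rw [dens, div_le_one (by nlinarith)]
  have h := Finset.card_le_card hW
  rw [allPairs, Finset.card_powersetCard, Finset.card_univ, Fintype.card_fin] at h
  exact le_trans (Nat.cast_le.2 h) (le_of_eq (Nat.cast_choose_two ℝ n))

theorem small_kappa {u M Λ η : ℝ} (hu : 0 < u) (hΛ : 1 ≤ Λ) (hinvu : 1 / u ≤ η)
    (hMu : u / M ≤ 1 / u) :
    4 * Λ / u + 2 * u * (4 * Λ / u) ^ 2 + u / M * Λ ≤ 37 * Λ ^ 2 * η := by
  have e : 2 * u * (4 * Λ / u) ^ 2 = 32 * Λ ^ 2 * (1 / u) := by field_simp; ring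
  have a1 := mul_le_mul_of_nonneg_right hMu (show 0 ≤ Λ by linarith)
  have a2 : 4 * Λ / u = 4 * Λ * (1 / u) := by ring
  have a4 : Λ * (1 / u) ≤ Λ ^ 2 * (1 / u) :=
    mul_le_mul_of_nonneg_right (by nlinarith) (by positivity)
  have a5 : 37 * Λ ^ 2 * (1 / u) ≤ 37 * Λ ^ 2 * η :=
    mul_le_mul_of_nonneg_left hinvu (by positivity)
  linarith

theorem small_links {η e Λ : ℝ} (hΛ : 1 ≤ Λ) (he : 0 ≤ e) (hle : η ≤ e)
    (h : 28 * Λ ^ 2 * e ≤ 1) : 4 * η + 2 * (6 * e) * (1 + Λ) ≤ 1 / Λ := by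
  rw [le_div_iff₀ (by linarith)]
  have a1 : η * Λ ≤ e * Λ := mul_le_mul_of_nonneg_right hle (by linarith)
  have a2 : e * Λ ≤ e * Λ ^ 2 := mul_le_mul_of_nonneg_left (by nlinarith) he
  linarith

theorem small_forcing {η ν κ Λ : ℝ} (hΛ : 1 ≤ Λ) (hκ0 : 0 ≤ κ) (hν0 : 0 ≤ ν) (hνη : ν * ν = η)
    (hκη : κ ≤ 37 * Λ ^ 2 * η) (hκν : κ ≤ ν) :
    η + 2 * ((2 * ν + 2 * κ) ^ 2 + 2 * κ) ≤ 181 * Λ ^ 2 * η := by
  have h1 := pow_le_pow_left₀ (by linarith) (show 2 * ν + 2 * κ ≤ 4 * ν by linarith) 2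
  have h2 : 1 * η ≤ Λ ^ 2 * η := mul_le_mul_of_nonneg_right (by nlinarith) (by nlinarith)
  have h3 : (4 * ν) ^ 2 = 16 * η := by rw [← hνη]; ring
  linarith

theorem vert_bounds {η ρ : ℝ} {m : ℕ} (hn : 3 ≤ n) (hreg : Regular W η ρ m) (hdpos : 0 < dens W)
    (hη1 : η ≤ 1 / 2) (hn2η : 1 / ((n : ℝ) - 2) ≤ η) (x : Fin n) :
    1 - η ≤ dens W * dg W x / uexp W ∧ dens W * dg W x / uexp W ≤ 1 + 3 * η := by
  have hn3 : (3 : ℝ) ≤ n := by exact_mod_cast hn
  have hd := hreg.dg_bounds hn hdpos x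
  have hn2 : (0 : ℝ) < (n : ℝ) - 2 := by linarith
  have e : dens W * dg W x / uexp W
      = dg W x / (((n : ℝ) - 1) * dens W) * (1 + 1 / ((n : ℝ) - 2)) := by
    simp only [uexp]
    have : (n : ℝ) - 1 ≠ 0 := by linarith
    field_simp
    ring
  have hq : 0 < ((n : ℝ) - 1) * dens W := mul_pos (by linarith) hdpos
  have b1 : 1 - η ≤ dg W x / (((n : ℝ) - 1) * dens W) := by rw [le_div_iff₀ hq]; exact hd.1
  have b2 : dg W x / (((n : ℝ) - 1) * dens W) ≤ 1 + η := by rw [div_le_iff₀ hq]; exact hd.2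
  have hinv0 : 0 ≤ 1 / ((n : ℝ) - 2) := by positivity
  rw [e]
  constructor
  · nlinarith [mul_nonneg (show (0 : ℝ) ≤ dg W x / (((n : ℝ) - 1) * dens W) by linarith) hinv0]
  · nlinarith [mul_le_mul b2 (show 1 + 1 / ((n : ℝ) - 2) ≤ 1 + η by linarith) (by linarith)
      (by linarith)]

theorem recursion : RecursionStmt := by
  intro θ hθ hθ1 m hm ε0 hε0
  obtain ⟨K, hK⟩ := exists_nat_ge (32 / θ)
  have hK' : (320 : ℝ) ≤ K :=
    le_trans (by rw [le_div_iff₀ hθ]; linarith) hK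
  have hK2 : 2 ≤ K := by exact_mod_cast (le_trans (by norm_num) hK' : (2 : ℝ) ≤ K)
  have hKpos : (0 : ℝ) < K := by linarith
  have hKθ : 2 / (K : ℝ) ≤ θ / 16 := by
    rw [div_le_iff₀ hKpos]
    rw [div_le_iff₀ hθ] at hK
    linarith
  set C0 : ℝ := Real.exp 4 * 362
  filter_upwards [eventually_small C0 (show 0 < θ / 16 by linarith),
    eventually_small 37 (show 0 < θ / 8 by linarith),
    eventually_small 8 (show 0 < θ / 8 by linarith),
    eventually_small (4 / ε0) (show 0 < θ / 8 by linarith),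
    eventually_small 8 (show 0 < θ / 4 by linarith),
    eventually_small 28 (show 0 < θ / (4 * K) by positivity),
    eventually_small 2 (show 0 < 1 - θ / 4 by linarith),
    eventually_ge_atTop 4] with n hA hB hC hD hE hF hG hn4
  intro W hlev hreg a ha s
  obtain ⟨hW, hge, -⟩ := hlev
  have hn : (4 : ℝ) ≤ n := by exact_mod_cast hn4
  have hn0 : (0 : ℝ) < n := by linarith
  have hn1 : (1 : ℝ) ≤ n := by linarith
  set Λ := 2 * Real.log n + 1 with hΛdef
  have hlog0 : 0 ≤ Real.log n := Real.log_nonneg hn1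
  have hΛ : 1 ≤ Λ := by linarith
  set η := eta n θ with hηdef
  set ν := (n : ℝ) ^ (-(θ / 8)) with hνdef
  have hη0 : 0 < η := Real.rpow_pos_of_pos hn0 _
  have hν0 : 0 < ν := Real.rpow_pos_of_pos hn0 _
  have hνη : ν * ν = η := by
    rw [hνdef, hηdef, eta, ← Real.rpow_add hn0]; ring_nf
  have hΛ4 : ∀ {k : ℕ}, k ≤ 4 → Λ ^ k ≤ Λ ^ 4 := fun hk => pow_le_pow_right₀ hΛ hk
  have small : ∀ {C x : ℝ} {k : ℕ}, 0 ≤ C → 0 ≤ x → k ≤ 4 → C * Λ ^ 4 * x ≤ 1 →
      C * Λ ^ k * x ≤ 1 := fun hC hx hk h =>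
    le_trans (mul_le_mul_of_nonneg_right (mul_le_mul_of_nonneg_left (hΛ4 hk) hC) hx) h
  set u := uexp W
  have hulb : (n : ℝ) ^ θ ≤ u := level_le_uexp (by omega) hge
  have hu : 0 < u := uexp_pos (by omega) hge
  have hd0 : 0 ≤ dens W := dens_nonneg (by omega)
  have hd1 : dens W ≤ 1 := dens_le_one (by omega) hW
  have hdpos : 0 < dens W := lt_of_le_of_ne hd0 fun h => by
    simp [u, uexp, ← h] at hu
  have hun : u ≤ n := by
    calc u ≤ ((n : ℝ) - 2) * 1 :=
          mul_le_mul_of_nonneg_left (pow_le_one₀ hd0 hd1) (by linarith)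
      _ ≤ n := by linarith
  have hlogu : Real.log (1 + 2 * u) ≤ Λ := by
    have h1 : 1 + 2 * u ≤ (n : ℝ) ^ 2 := by nlinarith
    refine le_trans (Real.log_le_log (by linarith) h1) ?_
    rw [Real.log_pow]; push_cast; linarith
  have hinvu : 1 / u ≤ η := by
    refine le_trans (one_div_le_one_div_of_le (Real.rpow_pos_of_pos hn0 _) hulb) ?_
    rw [one_div, ← Real.rpow_neg hn0.le, hηdef, eta]
    exact Real.rpow_le_rpow_of_exponent_le hn1 (by linarith)
  have hMu : u / (slots n : ℝ) ≤ 1 / u := by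
    rw [slots, Nat.cast_pow, div_le_div_iff₀ (by positivity) hu, one_mul]
    calc u * u ≤ (n : ℝ) * n := mul_le_mul hun hun hu.le hn0.le
      _ = (n : ℝ) ^ 2 := (sq _).symm
      _ ≤ (n : ℝ) ^ 20 := pow_le_pow_right₀ hn1 (by norm_num)
  set κ := 4 * Λ / u + 2 * u * (4 * Λ / u) ^ 2 + u / (slots n : ℝ) * Λ with hκdef
  have hκη : κ ≤ 37 * Λ ^ 2 * η := small_kappa hu hΛ hinvu hMu
  have hκ0 : 0 ≤ κ := by positivity
  have hκν : κ ≤ ν := by
    refine hκη.trans ?_
    rw [← hνη, ← mul_assoc]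
    exact mul_le_of_le_one_left hν0.le (small (by norm_num) hν0.le (by norm_num) hB)
  have hνsmall : 8 * ν ≤ 1 := by
    simpa using small (k := 0) (by norm_num) hν0.le (by norm_num) hC
  have hνε : 4 * ν ≤ ε0 := by
    have := small (k := 0) (show (0 : ℝ) ≤ 4 / ε0 by positivity) hν0.le (by norm_num) hD
    rwa [pow_zero, mul_one, div_mul_eq_mul_div, div_le_one hε0] at this
  have hη6 : 8 * η ≤ 1 := by
    simpa [hηdef, eta] using small (k := 0) (by norm_num) hη0.le (by norm_num) hE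
  have hq : 4 * Λ / u ≤ 1 / 2 := by
    have h8 : 8 * Λ ^ 1 * η ≤ 1 := small (by norm_num) hη0.le (by norm_num) hE
    have h9 := mul_le_mul_of_nonneg_left hinvu (show 0 ≤ 4 * Λ by linarith)
    rw [mul_one_div] at h9
    linarith
  set ε := 6 * (n : ℝ) ^ (-(θ / (4 * K))) with hεdef
  have hρε : 4 * rho n θ ^ 2 * 6 ^ (K - 2) ≤ ε ^ K := by
    have h6 : (6 : ℝ) ^ K = 36 * 6 ^ (K - 2) := by
      rw [show (36 : ℝ) = 6 ^ 2 by norm_num, ← pow_add]; congr 1; omega
    have hρ2 : rho n θ ^ 2 = ((n : ℝ) ^ (-(θ / (4 * K)))) ^ K := by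
      rw [rho, ← Real.rpow_natCast, ← Real.rpow_mul hn0.le, ← Real.rpow_natCast _ K,
        ← Real.rpow_mul hn0.le]
      congr 1
      push_cast
      field_simp
      ring
    rw [hεdef, mul_pow, ← hρ2, h6]
    have : 0 ≤ rho n θ ^ 2 * (6 : ℝ) ^ (K - 2) := by positivity
    linarith
  have hsmall : 4 * η + 2 * ε * (1 + Λ) ≤ 1 / Λ := by
    refine small_links hΛ (Real.rpow_nonneg hn0.le _) ?_
      (small (by norm_num) (Real.rpow_nonneg hn0.le _) (by norm_num) hF)
    rw [hηdef, eta]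
    refine Real.rpow_le_rpow_of_exponent_le hn1 (neg_le_neg ?_)
    exact div_le_div_of_nonneg_left hθ.le (by norm_num) (by linarith)
  have hn2η : 1 / ((n : ℝ) - 2) ≤ η := by
    have h2 := small (k := 0) (show (0 : ℝ) ≤ 2 by norm_num) (Real.rpow_nonneg hn0.le _)
      (by norm_num) hG
    rw [pow_zero, mul_one] at h2
    refine le_trans (one_div_le_one_div_of_le (by linarith) (show (n : ℝ) / 2 ≤ n - 2 by linarith)) ?_
    have e : 1 / ((n : ℝ) / 2) = 2 * (n : ℝ) ^ (-(1 - θ / 4)) * η := by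
      rw [hηdef, eta, mul_assoc, ← Real.rpow_add hn0, show -(1 - θ / 4) + -(θ / 4) = -1 by ring,
        Real.rpow_neg_one]
      field_simp
    rw [e]
    exact mul_le_of_le_one_left hη0.le h2
  have hk := vert_bounds (by omega) hreg hdpos (by linarith) hn2η
  have hfix : Real.exp 4 * (1 + Λ) * Λ * ((η + 2 * ((2 * ν + 2 * κ) ^ 2 + 2 * κ))
      * (n : ℝ) ^ (2 / (K : ℝ))) ≤ ν := by
    have hf := small_forcing hΛ hκ0 hν0.le hνη hκη hκν
    have hpow : η * (n : ℝ) ^ (2 / (K : ℝ)) ≤ (n : ℝ) ^ (-(θ / 16)) * ν := by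
      rw [hηdef, eta, hνdef, ← Real.rpow_add hn0, ← Real.rpow_add hn0]
      exact Real.rpow_le_rpow_of_exponent_le hn1 (by linarith)
    calc Real.exp 4 * (1 + Λ) * Λ * ((η + 2 * ((2 * ν + 2 * κ) ^ 2 + 2 * κ))
          * (n : ℝ) ^ (2 / (K : ℝ)))
        ≤ Real.exp 4 * (2 * Λ) * Λ * (181 * Λ ^ 2 * η * (n : ℝ) ^ (2 / (K : ℝ))) := by
          gcongr <;> linarith
      _ = C0 * Λ ^ 4 * (η * (n : ℝ) ^ (2 / (K : ℝ))) := by simp only [C0]; ring
      _ ≤ C0 * Λ ^ 4 * ((n : ℝ) ^ (-(θ / 16)) * ν) :=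
          mul_le_mul_of_nonneg_left hpow (by positivity)
      _ ≤ ν := by rw [← mul_assoc]; exact mul_le_of_le_one_left hν0.le hA
  have det := recursion_det (ε := ε) (Λ := Λ) (κ := κ) (ν := ν) (K := K) (M := slots n)
    hm hW hu (hMu.trans (by linarith)) hreg hk (by omega) hη0.le (by linarith) hK2
    (by positivity) hρε hΛ hlogu hsmall hq le_rfl (by linarith) hfix a ha s
  refine ⟨fun j hj => ?_, ?_⟩
  · obtain ⟨δ, hδ, e⟩ := det j hj
    have := (abs_le.1 (Real.abs_exp_sub_one_le (x := δ) (by linarith))).2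
    rw [e]
    calc ideal u (slots n) j * Real.exp δ ≤ ideal u (slots n) j * 2 :=
          mul_le_mul_of_nonneg_left (by linarith) (ideal_nonneg j)
      _ = _ := by rw [ideal, one_div_mul_eq_div]
  · obtain ⟨δ, hδ, e⟩ := det (slots n) le_rfl
    have h := Real.abs_exp_sub_one_le (x := δ) (by linarith)
    have hM0 : (slots n : ℝ) ≠ 0 := by rw [slots]; positivity
    have hs : Real.sqrt (1 + 2 * u) ≠ 0 := (Real.sqrt_pos.2 (by linarith)).ne'
    rw [e, ideal, mul_div_assoc, div_self hM0, mul_one,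
      show 1 / Real.sqrt (1 + 2 * u) * Real.exp δ * Real.sqrt (1 + 2 * u) = Real.exp δ by
        field_simp]
    linarith

end P046.Full
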