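import Vale.Agent.P046.Full.Interfaces

/-!
P046, part II, the scalar half (any linear hypergraph): with `Y j = (1 + 2 u j / M) ^ (-1/2)` and
`zeta j a` the linearised logarithm of `surv / Y`, every `surv j s a` is `Y j * exp (zeta j a + δ)`
with a negligible `δ`, and `zeta` follows the linear recursion of the neighbour sum.
-/

namespace P046.LH

open Finset

/-- The step in logarithmic time. -/
noncomputable def wt (u : ℝ) (M i : ℕ) : ℝ := u / M / (1 + 2 * u * i / M)

/-- The logarithmic time at slot `j`. -/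
noncomputable def clock (u : ℝ) (M j : ℕ) : ℝ := ∑ i ∈ range j, wt u M i

/-- The predicted survival. -/
noncomputable def ideal (u : ℝ) (M j : ℕ) : ℝ := 1 / Real.sqrt (1 + 2 * u * j / M)

section scalar

variable {u : ℝ} {M : ℕ}

theorem base_pos (hu : 0 ≤ u) (j : ℕ) : (0 : ℝ) < 1 + 2 * u * j / M := by positivity

theorem wt_nonneg (hu : 0 ≤ u) (i : ℕ) : 0 ≤ wt u M i :=
  div_nonneg (by positivity) (base_pos hu i).le

theorem wt_le (hu : 0 ≤ u) (i : ℕ) : wt u M i ≤ u / M :=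
  div_le_self (by positivity) (le_add_of_nonneg_right (by positivity))

theorem clock_succ (j : ℕ) : clock u M (j + 1) = clock u M j + wt u M j := Finset.sum_range_succ _ _

theorem clock_nonneg (hu : 0 ≤ u) (j : ℕ) : 0 ≤ clock u M j :=
  Finset.sum_nonneg fun i _ => wt_nonneg hu i

theorem ideal_nonneg (j : ℕ) : 0 ≤ ideal u M j := by unfold ideal; positivity

theorem wt_eq (hu : 0 ≤ u) (i : ℕ) : wt u M i = u / M * ideal u M i ^ 2 := by
  rw [ideal, div_pow, one_pow, Real.sq_sqrt (base_pos hu i).le, wt, mul_one_div]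

theorem ideal_eq_exp (hu : 0 ≤ u) (j : ℕ) :
    ideal u M j = Real.exp (-(Real.log (1 + 2 * u * j / M) / 2)) := by
  rw [ideal, Real.exp_neg, ← Real.log_sqrt (base_pos hu j).le,
    Real.exp_log (Real.sqrt_pos.2 (base_pos hu j)), one_div]

theorem clock_bounds (hu : 0 ≤ u) (hM : u / M ≤ 1 / 2) (j : ℕ) :
    Real.log (1 + 2 * u * j / M) / 2 ≤ clock u M j ∧
      clock u M j ≤ Real.log (1 + 2 * u * j / M) ∧
      clock u M j ≤ Real.log (1 + 2 * u * j / M) / 2 + u / M * clock u M j := by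
  induction j with
  | zero => simp [clock]
  | succ j ih =>
    have hb := base_pos (M := M) hu j
    have hw := wt_nonneg (M := M) hu j
    have hw' := wt_le (M := M) hu j
    have e : 1 + 2 * u * ((j + 1 : ℕ) : ℝ) / M = (1 + 2 * u * j / M) * (1 + 2 * wt u M j) := by
      have h1 : wt u M j * (1 + 2 * u * j / M) = u / M := div_mul_cancel₀ _ hb.ne'
      push_cast
      linear_combination (norm := ring_nf) (-2) * h1
    have hup : Real.log (1 + 2 * wt u M j) ≤ 2 * wt u M j := by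
      have := Real.log_le_sub_one_of_pos (show 0 < 1 + 2 * wt u M j by linarith)
      linarith
    have hlo : 2 * wt u M j - 2 * wt u M j ^ 2 ≤ Real.log (1 + 2 * wt u M j) := by
      refine le_trans ?_ (Real.le_log_one_add_of_nonneg (by linarith))
      rw [le_div_iff₀ (by linarith)]
      nlinarith [pow_nonneg hw 3]
    have hsq : wt u M j ^ 2 ≤ u / M * wt u M j := by
      rw [sq]; exact mul_le_mul_of_nonneg_right hw' hw
    rw [e, Real.log_mul hb.ne' (by linarith), clock_succ]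
    obtain ⟨i1, i2, i3⟩ := ih
    refine ⟨by linarith, by nlinarith, ?_⟩
    rw [mul_add]
    linarith

theorem exp_neg_add_sq_le {x : ℝ} (h0 : 0 ≤ x) (h1 : x ≤ 1 / 2) :
    Real.exp (-(x + x ^ 2)) ≤ 1 - x := by
  rw [Real.exp_neg, inv_le_iff_one_le_mul₀ (Real.exp_pos _)]
  have h := Real.quadratic_le_exp_of_nonneg (by positivity : 0 ≤ x + x ^ 2)
  have h2 : 0 ≤ (1 - x) := by linarith
  refine le_trans ?_ (mul_le_mul_of_nonneg_left h h2)
  nlinarith [mul_nonneg (mul_nonneg (mul_nonneg h0 h0) h0) h0, mul_nonneg h0 h0,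
    mul_nonneg (mul_nonneg h0 h0) (sub_nonneg.2 h1)]

/-- A product of factors close to one. -/
theorem prod_one_sub {ι : Type*} (E : Finset ι) (I : ι → ℝ) {q : ℝ} (hq : q ≤ 1 / 2)
    (hI : ∀ r ∈ E, 0 ≤ I r ∧ I r ≤ q) :
    Real.exp (-(∑ r ∈ E, I r) - E.card * q ^ 2) ≤ ∏ r ∈ E, (1 - I r) ∧
      ∏ r ∈ E, (1 - I r) ≤ Real.exp (-(∑ r ∈ E, I r)) := by
  constructor
  · calc Real.exp (-(∑ r ∈ E, I r) - E.card * q ^ 2)
        = ∏ r ∈ E, Real.exp (-(I r + q ^ 2)) := by
          rw [← Real.exp_sum, Finset.sum_neg_distrib, Finset.sum_add_distrib, Finset.sum_const,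
            nsmul_eq_mul]
          congr 1
          ring
      _ ≤ _ := by
          refine Finset.prod_le_prod (fun r _ => (Real.exp_pos _).le) fun r hr => ?_
          obtain ⟨a, b⟩ := hI r hr
          refine le_trans (Real.exp_le_exp.2 ?_) (exp_neg_add_sq_le a (b.trans hq))
          have := pow_le_pow_left₀ a b 2
          linarith
  · rw [← Finset.sum_neg_distrib, Real.exp_sum]
    refine Finset.prod_le_prod (fun r hr => ?_) fun r _ => Real.one_sub_le_exp_neg _
    have := (hI r hr).2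
    linarith

end scalar

variable {α : Type} [DecidableEq α] (L : LH α)

/-- The expected number of firings of `r` at `a` before slot `j`. -/
noncomputable def fire (W : Finset α) (M j : ℕ) (a : α) (r : Finset α) : ℝ :=
  (∑ i ∈ range j, ∏ b ∈ r.erase a, L.surv W M i r b) / M

/-- The linearised logarithm of `surv / ideal`. -/
noncomputable def zeta (W : Finset α) (u : ℝ) (M j : ℕ) (a : α) : ℝ :=
  clock u M j - ∑ r ∈ L.star W a, L.fire W M j a r

theorem surv_eq (W : Finset α) (M j : ℕ) (s : Finset α) (a : α) :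
    L.surv W M j s a = ∏ r ∈ (L.star W a).erase s, (1 - L.fire W M j a r) := by
  rw [LH.surv]
  refine Finset.prod_congr rfl fun r _ => ?_
  rw [fire, ← Fin.sum_univ_eq_sum_range]

theorem surv_mem_Icc (W : Finset α) (M : ℕ) : ∀ (j : ℕ), j ≤ M → ∀ (s : Finset α) (a : α),
    0 ≤ L.surv W M j s a ∧ L.surv W M j s a ≤ 1 := by
  intro j
  induction j using Nat.strong_induction_on with
  | _ j ih =>
  intro hj s a
  rw [surv_eq]
  have hp : ∀ r, ∀ i ∈ range j, 0 ≤ ∏ b ∈ r.erase a, L.surv W M i r b ∧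
      ∏ b ∈ r.erase a, L.surv W M i r b ≤ 1 := fun r i hi => by
    have h' := ih i (Finset.mem_range.1 hi) ((Finset.mem_range.1 hi).le.trans hj) r
    exact ⟨Finset.prod_nonneg fun b _ => (h' b).1,
      Finset.prod_le_one (fun b _ => (h' b).1) fun b _ => (h' b).2⟩
  have hf : ∀ r, 0 ≤ L.fire W M j a r ∧ L.fire W M j a r ≤ 1 := fun r => by
    refine ⟨div_nonneg (Finset.sum_nonneg fun i hi => (hp r i hi).1) (Nat.cast_nonneg _), ?_⟩
    refine div_le_one_of_le₀ ?_ (Nat.cast_nonneg _)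
    calc _ ≤ ∑ _i ∈ range j, (1 : ℝ) := Finset.sum_le_sum fun i hi => (hp r i hi).2
      _ ≤ M := by simpa using hj
  exact ⟨Finset.prod_nonneg fun r _ => sub_nonneg.2 (hf r).2,
    Finset.prod_le_one (fun r _ => sub_nonneg.2 (hf r).2) fun r _ => sub_le_self _ (hf r).1⟩

variable {L} {W : Finset α} {u Λ q κ : ℝ} {M : ℕ}

theorem card_erase_two {r : Finset α} {a : α} (hr : r ∈ L.star W a) : (r.erase a).card = 2 := by
  simp only [star, Finset.mem_filter] at hr
  rw [Finset.card_erase_of_mem hr.2, card_tri hr.1]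

theorem mem_of_star {r : Finset α} {a b : α} (hr : r ∈ L.star W a) (hb : b ∈ r.erase a) :
    b ∈ W := by
  simp only [star, Finset.mem_filter] at hr
  exact (mem_tris.1 hr.1).2 (Finset.mem_of_mem_erase hb)

theorem fire_bounds (hu : 0 < u) {j : ℕ} (hj : j ≤ M)
    (hs : ∀ i < j, ∀ b ∈ W, ∀ s, L.surv W M i s b ≤ 2 * ideal u M i)
    {a : α} {r : Finset α} (hr : r ∈ L.star W a) :
    0 ≤ L.fire W M j a r ∧ L.fire W M j a r ≤ 4 * clock u M j / u := by
  have h0 : ∀ i ∈ range j, 0 ≤ ∏ b ∈ r.erase a, L.surv W M i r b := fun i hi =>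
    Finset.prod_nonneg fun b _ =>
      (L.surv_mem_Icc W M i ((Finset.mem_range.1 hi).le.trans hj) r b).1
  refine ⟨div_nonneg (Finset.sum_nonneg h0) (Nat.cast_nonneg _), ?_⟩
  rw [fire, clock, Finset.mul_sum, Finset.sum_div, Finset.sum_div]
  refine Finset.sum_le_sum fun i hi => ?_
  have h1 : ∏ b ∈ r.erase a, L.surv W M i r b ≤ ∏ _b ∈ r.erase a, 2 * ideal u M i :=
    Finset.prod_le_prod (fun b _ => (L.surv_mem_Icc W M i ((Finset.mem_range.1 hi).le.trans hj) r b).1)
      fun b hb => hs i (Finset.mem_range.1 hi) b (mem_of_star hr hb) r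
  rw [Finset.prod_const, card_erase_two hr] at h1
  calc (∏ b ∈ r.erase a, L.surv W M i r b) / M ≤ (2 * ideal u M i) ^ 2 / M :=
        div_le_div_of_nonneg_right h1 (Nat.cast_nonneg _)
    _ = 4 * wt u M i / u := by rw [wt_eq hu.le]; field_simp; ring

/-- `surv = ideal * exp (zeta + δ)` with `|δ|` at most `κ`. -/
theorem surv_close (hu : 0 < u) (hM : u / M ≤ 1 / 2) (hq : q ≤ 1 / 2) {j : ℕ} (hj : j ≤ M)
    (hs : ∀ i < j, ∀ b ∈ W, ∀ s, L.surv W M i s b ≤ 2 * ideal u M i)
    (hΛ : clock u M j ≤ Λ) (hqdef : 4 * Λ / u ≤ q)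
    {a : α} (hdeg : (L.deg W a : ℝ) ≤ 2 * u) (hκ : q + 2 * u * q ^ 2 + u / M * Λ ≤ κ)
    (s : Finset α) :
    ∃ δ : ℝ, |δ| ≤ κ ∧ L.surv W M j s a = ideal u M j * Real.exp (L.zeta W u M j a + δ) := by
  set E := (L.star W a).erase s
  set S := ∑ r ∈ L.star W a, L.fire W M j a r with hS
  have hI : ∀ r ∈ L.star W a, 0 ≤ L.fire W M j a r ∧ L.fire W M j a r ≤ q := fun r hr => by
    obtain ⟨a1, a2⟩ := fire_bounds hu hj hs hr
    refine ⟨a1, a2.trans (le_trans ?_ hqdef)⟩
    gcongr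
  obtain ⟨hlo, hhi⟩ := prod_one_sub E (L.fire W M j a) hq
    fun r hr => hI r (Finset.mem_of_mem_erase hr)
  have hEc : (E.card : ℝ) ≤ 2 * u := le_trans
    (by rw [deg_eq]; exact_mod_cast Finset.card_erase_le) hdeg
  have hq0 : 0 ≤ q := le_trans (div_nonneg (mul_nonneg (by norm_num)
    ((clock_nonneg hu.le j).trans hΛ)) hu.le) hqdef
  have hdiff : ∑ r ∈ E, L.fire W M j a r ≤ S ∧ S ≤ ∑ r ∈ E, L.fire W M j a r + q := by
    by_cases h : s ∈ L.star W a
    · rw [hS, ← Finset.add_sum_erase _ _ h]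
      constructor <;> linarith [(hI s h).1, (hI s h).2]
    · rw [show E = L.star W a from Finset.erase_eq_of_notMem h, ← hS]
      exact ⟨le_rfl, le_add_of_nonneg_right hq0⟩
  obtain ⟨c1, -, c3⟩ := clock_bounds (M := M) hu.le hM j
  have hpos : 0 < L.surv W M j s a := by
    rw [surv_eq]; exact lt_of_lt_of_le (Real.exp_pos _) hlo
  refine ⟨Real.log (L.surv W M j s a) + Real.log (1 + 2 * u * j / M) / 2 - L.zeta W u M j a,
    ?_, ?_⟩
  · have l1 : Real.log (L.surv W M j s a) ≤ -(∑ r ∈ E, L.fire W M j a r) := by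
      rw [Real.log_le_iff_le_exp hpos, surv_eq]; exact hhi
    have l2 : -(∑ r ∈ E, L.fire W M j a r) - E.card * q ^ 2 ≤ Real.log (L.surv W M j s a) := by
      rw [Real.le_log_iff_exp_le hpos, surv_eq]; exact hlo
    have h1 := mul_le_mul_of_nonneg_right hEc (sq_nonneg q)
    have h2 : u / M * clock u M j ≤ u / M * Λ := mul_le_mul_of_nonneg_left hΛ (by positivity)
    have h3 : 0 ≤ u / M * Λ := le_trans (mul_nonneg (by positivity) (clock_nonneg hu.le j)) h2
    have h4 : 0 ≤ 2 * u * q ^ 2 := by positivity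
    rw [abs_le, zeta, ← hS]
    constructor <;> linarith [hdiff.1, hdiff.2]
  · rw [ideal_eq_exp hu.le, ← Real.exp_add]
    conv_lhs => rw [← Real.exp_log hpos]
    congr 1
    ring

theorem abs_exp_sub_sub_le {x y c : ℝ} (hx : |x| ≤ 1) (hxy : |x - y| ≤ c) :
    |Real.exp x - 1 - y| ≤ x ^ 2 + c := by
  have h := Real.abs_exp_sub_one_sub_id_le hx
  calc |Real.exp x - 1 - y| = |(Real.exp x - 1 - x) + (x - y)| := by ring_nf
    _ ≤ _ := (abs_add_le _ _).trans (add_le_add h hxy)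

/-- One slot of the linearised recursion. -/
theorem zeta_step (hu : 0 < u) (hκ0 : 0 ≤ κ) {j : ℕ} {η ν : ℝ}
    (hclose : ∀ b ∈ W, ∀ s, ∃ δ : ℝ, |δ| ≤ κ ∧
      L.surv W M j s b = ideal u M j * Real.exp (L.zeta W u M j b + δ))
    (hν : ∀ b ∈ W, |L.zeta W u M j b| ≤ ν) (hνκ : 2 * ν + 2 * κ ≤ 1)
    {a : α} (hdev : |(L.deg W a : ℝ) / u - 1| ≤ η) (hη : η ≤ 1) :
    |L.zeta W u M (j + 1) a - L.zeta W u M j a
        + wt u M j * ((∑ r ∈ L.star W a, ∑ b ∈ r.erase a, L.zeta W u M j b) / u)|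
      ≤ wt u M j * (η + 2 * ((2 * ν + 2 * κ) ^ 2 + 2 * κ)) := by
  have hw := wt_nonneg (M := M) hu.le j
  have hterm : ∀ r ∈ L.star W a, ∃ X : ℝ,
      |X - ∑ b ∈ r.erase a, L.zeta W u M j b| ≤ 2 * κ ∧ |X| ≤ 2 * ν + 2 * κ ∧
        (∏ b ∈ r.erase a, L.surv W M j r b) = ideal u M j ^ 2 * Real.exp X := by
    intro r hr
    obtain ⟨b, c, hbc, hrbc⟩ := Finset.card_eq_two.1 (card_erase_two hr)
    have hb : b ∈ W := mem_of_star hr (by rw [hrbc]; simp)
    have hc : c ∈ W := mem_of_star hr (by rw [hrbc]; simp)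
    obtain ⟨δ, hδ, eb⟩ := hclose b hb r
    obtain ⟨δ', hδ', ec⟩ := hclose c hc r
    refine ⟨(L.zeta W u M j b + δ) + (L.zeta W u M j c + δ'), ?_, ?_, ?_⟩
    · rw [hrbc, Finset.sum_pair hbc]
      have := abs_add_le δ δ'
      calc |_| = |δ + δ'| := by ring_nf
        _ ≤ _ := by linarith
    · have := abs_add_le (L.zeta W u M j b + δ) (L.zeta W u M j c + δ')
      have := abs_add_le (L.zeta W u M j b) δ
      have := abs_add_le (L.zeta W u M j c) δ'
      linarith [hν b hb, hν c hc]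
    · rw [hrbc, Finset.prod_pair hbc, eb, ec]
      simp only [Real.exp_add]
      ring
  choose! X hX1 hX2 hX3 using hterm
  have hsucc : ∀ r ∈ L.star W a,
      L.fire W M (j + 1) a r = L.fire W M j a r + wt u M j / u * Real.exp (X r) := fun r hr => by
    rw [fire, fire, Finset.sum_range_succ, hX3 r hr, add_div, wt_eq hu.le]
    congr 1
    field_simp
  set Z : Finset α → ℝ := fun r => ∑ b ∈ r.erase a, L.zeta W u M j b
  have e : L.zeta W u M (j + 1) a - L.zeta W u M j a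
      + wt u M j * ((∑ r ∈ L.star W a, Z r) / u)
      = -(wt u M j * (((L.deg W a : ℝ) / u - 1)
          + (∑ r ∈ L.star W a, (Real.exp (X r) - 1 - Z r)) / u)) := by
    rw [zeta, zeta, clock_succ, Finset.sum_congr rfl hsucc, Finset.sum_add_distrib,
      ← Finset.mul_sum, Finset.sum_sub_distrib, Finset.sum_sub_distrib, Finset.sum_const,
      nsmul_eq_mul, mul_one, deg_eq]
    field_simp
    ring
  show |L.zeta W u M (j + 1) a - L.zeta W u M j a
      + wt u M j * ((∑ r ∈ L.star W a, Z r) / u)| ≤ _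
  rw [e, abs_neg, abs_mul, abs_of_nonneg hw]
  refine mul_le_mul_of_nonneg_left ((abs_add_le _ _).trans (add_le_add hdev ?_)) hw
  rw [abs_div, abs_of_pos hu, div_le_iff₀ hu]
  refine (Finset.abs_sum_le_sum_abs _ _).trans ?_
  set e2 := (2 * ν + 2 * κ) ^ 2 + 2 * κ with he2
  have hterm' : ∀ r ∈ L.star W a, |Real.exp (X r) - 1 - Z r| ≤ e2 := fun r hr =>
    (abs_exp_sub_sub_le ((hX2 r hr).trans hνκ) (hX1 r hr)).trans (by
      have := pow_le_pow_left₀ (abs_nonneg _) (hX2 r hr) 2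
      rw [sq_abs] at this
      simp only [he2]
      linarith)
  refine (Finset.sum_le_sum hterm').trans ?_
  rw [Finset.sum_const, nsmul_eq_mul, ← deg_eq]
  have hd : (L.deg W a : ℝ) ≤ 2 * u := by
    have := (abs_le.1 hdev).2
    have h' : (L.deg W a : ℝ) / u ≤ 2 := by linarith
    rwa [div_le_iff₀ hu] at h'
  have he0 : 0 ≤ e2 := by positivity
  nlinarith [mul_le_mul_of_nonneg_right hd he0]

end P046.LH
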