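import Vale.Agent.P046.Full.Interfaces

/-!
P046, part I: the two halves together give `RegularityStmt`.
-/

namespace P046.Full

open Finset Filter

theorem regularity_of (hL : LinksStmt) (hP : PotentialStmt) : RegularityStmt := by
  intro θ hθ hθ1 A
  obtain ⟨m, hm, hL⟩ := hL θ hθ hθ1 (A + 1)
  refine ⟨m, hm, ?_⟩
  filter_upwards [hL, hP θ hθ hθ1 (A + 1) m hm, eventually_ge_atTop 2] with n hL hP hn
  obtain ⟨H₁, h1pos, h1init, h1bad, h1step⟩ := hL
  obtain ⟨H₂, h2pos, h2init, h2bad, h2step⟩ := hP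
  refine ⟨fun W => H₁ W + H₂ W, fun W hW => add_nonneg (h1pos W hW) (h2pos W hW), ?_,
    fun W hW hlev hbad => ?_, fun W hW hlev hreg => ?_⟩
  · refine (add_le_add h1init h2init).trans ?_
    have h2 : (2 : ℝ) ≤ n := by exact_mod_cast hn
    rw [← two_mul, mul_one_div, div_le_div_iff₀ (by positivity) (by positivity), pow_succ, one_mul,
      mul_comm]
    exact mul_le_mul_of_nonneg_left h2 (by positivity)
  · have := h1pos W hW
    have := h2pos W hW
    have key : (∃ x, (rho n θ * uexp W) ^ (2 * m) < Matrix.trace (link W x ^ (2 * m))) ∨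
        ((∃ x y, eta n θ < |dev W x y|) ∨ (∃ x, eta n θ < |adev W x|) ∨
          (∃ x, eta n θ < |vdev W x|) ∨ eta n θ < |mdev W|) := by
      by_contra hc
      simp only [not_or, not_exists, not_lt] at hc
      obtain ⟨h1, h2, h3, h4, h5⟩ := hc
      exact hbad ⟨h2, h3, h4, h5, h1⟩
    rcases key with h | h
    · linarith [h1bad W hW hlev h]
    · linarith [h2bad W hW hlev h]
  · obtain ⟨hne, h2⟩ := h2step W hW hlev hreg
    refine ⟨hne, ?_⟩
    have h1 := h1step W hW hlev hreg
    simp only [LH.avg, Finset.sum_add_distrib, add_div] at h1 h2 ⊢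
    linarith

end P046.Full
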