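import Mathlib

/-!
P046, short walks: the pattern of a closed non-backtracking walk in the triangle hypergraph of a
graph. The union of its triangles has at most `l + 2` vertices and at least `2 v - 2` pairs.

With equality `2 v = e + 3` every pair is present as soon as both its vertices are, so all triangles
at the vertex that comes last are the same triangle, which the walk cannot leave.
-/

namespace P046.Full

open Finset

variable {α : Type} [DecidableEq α]

/-- The vertices of the first `k + 1` triangles. -/
def ptnV (V : ℕ → Finset α) (k : ℕ) : Finset α := (Finset.range (k + 1)).biUnion V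

/-- The pairs of the first `k + 1` triangles. -/
def ptnE (V : ℕ → Finset α) (k : ℕ) : Finset (Finset α) :=
  (Finset.range (k + 1)).biUnion fun i => (V i).powersetCard 2

theorem ptnV_succ (V : ℕ → Finset α) (k : ℕ) : ptnV V (k + 1) = V (k + 1) ∪ ptnV V k := by
  rw [ptnV, Finset.range_add_one, Finset.biUnion_insert]; rfl

theorem ptnE_succ (V : ℕ → Finset α) (k : ℕ) :
    ptnE V (k + 1) = (V (k + 1)).powersetCard 2 ∪ ptnE V k := by
  rw [ptnE, Finset.range_add_one, Finset.biUnion_insert]; rfl

theorem ptnE_sub {V : ℕ → Finset α} {k : ℕ} {e : Finset α} (he : e ∈ ptnE V k) :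
    e ⊆ ptnV V k ∧ e.card = 2 := by
  obtain ⟨i, hi, he⟩ := Finset.mem_biUnion.1 he
  exact ⟨(Finset.mem_powersetCard.1 he).1.trans (Finset.subset_biUnion_of_mem V hi),
    (Finset.mem_powersetCard.1 he).2⟩

omit [DecidableEq α] in
theorem pairs_card (V : Finset α) (hV : V.card = 3) : (V.powersetCard 2).card = 3 := by
  rw [Finset.card_powersetCard, hV]; rfl

/-- Growth along a path of triangles: `2 v ≤ e + 3`, and equality makes every pair present as soon
as both its vertices are. -/
theorem ptn_growth {l : ℕ} {V a : ℕ → Finset α} (hV : ∀ i, i < l → (V i).card = 3)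
    (ha : ∀ i, i + 1 < l → a (i + 1) ⊆ V i ∧ a (i + 1) ⊆ V (i + 1) ∧ (a (i + 1)).card = 2) :
    ∀ k, k < l → (ptnV V k).card ≤ k + 3 ∧ 2 * (ptnV V k).card ≤ (ptnE V k).card + 3 ∧
      (2 * (ptnV V k).card = (ptnE V k).card + 3 →
        ∀ e ∈ ptnE V k, ∀ i, i ≤ k → e ⊆ ptnV V i → e ∈ ptnE V i) := by
  intro k
  induction k with
  | zero =>
    intro h0
    have h1 : ptnV V 0 = V 0 := by simp [ptnV]
    have h2 : ptnE V 0 = (V 0).powersetCard 2 := by simp [ptnE]
    refine ⟨by rw [h1, hV 0 h0], by rw [h1, h2, hV 0 h0, pairs_card _ (hV 0 h0)], ?_⟩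
    intro _ e he i hi _
    rwa [show i = 0 by omega]
  | succ k ih =>
    intro hk
    obtain ⟨i1, i2, i3⟩ := ih (by omega)
    obtain ⟨a1, a2, a3⟩ := ha k hk
    have hVk := hV (k + 1) hk
    have haU : a (k + 1) ⊆ ptnV V k :=
      a1.trans (Finset.subset_biUnion_of_mem V (Finset.self_mem_range_succ k))
    obtain ⟨q, hq⟩ := Finset.card_eq_one.1 (by
      rw [Finset.card_sdiff_of_subset a2, hVk, a3] : (V (k + 1) \ a (k + 1)).card = 1)
    have hqV : q ∈ V (k + 1) ∧ q ∉ a (k + 1) :=
      Finset.mem_sdiff.1 (hq ▸ Finset.mem_singleton_self q)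
    have hVq : V (k + 1) = insert q (a (k + 1)) := by
      refine (Finset.eq_of_subset_of_card_le (Finset.insert_subset hqV.1 a2) ?_).symm
      rw [hVk, Finset.card_insert_of_notMem hqV.2, a3]
    have hS : ptnE V k ⊆ ptnE V (k + 1) := by rw [ptnE_succ]; exact Finset.subset_union_right
    by_cases hqU : q ∈ ptnV V k
    · have hU : ptnV V (k + 1) = ptnV V k := by
        rw [ptnV_succ, Finset.union_eq_right, hVq]
        exact Finset.insert_subset hqU haU
      have hc := Finset.card_le_card hS
      refine ⟨by rw [hU]; omega, by rw [hU]; omega, fun heq e he i hi hei => ?_⟩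
      rcases hi.lt_or_eq with h | h
      · rw [hU] at heq
        have hSe : ptnE V k = ptnE V (k + 1) := Finset.eq_of_subset_of_card_le hS (by omega)
        exact i3 (by omega) e (hSe ▸ he) i (by omega) hei
      · rwa [h]
    · have hU : ptnV V (k + 1) = insert q (ptnV V k) := by
        ext z
        simp only [ptnV_succ, hVq, Finset.mem_union, Finset.mem_insert]
        constructor
        · rintro ((rfl | h) | h)
          · exact Or.inl rfl
          · exact Or.inr (haU h)
          · exact Or.inr h
        · rintro (rfl | h)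
          · exact Or.inl (Or.inl rfl)
          · exact Or.inr h
      have hUc : (ptnV V (k + 1)).card = (ptnV V k).card + 1 := by
        rw [hU, Finset.card_insert_of_notMem hqU]
      have hnew : (a (k + 1)).image (fun x => ({x, q} : Finset α))
          ⊆ ptnE V (k + 1) \ ptnE V k := by
        intro e he
        obtain ⟨x, hx, rfl⟩ := Finset.mem_image.1 he
        have hxq : x ≠ q := fun h => hqV.2 (h ▸ hx)
        refine Finset.mem_sdiff.2 ⟨?_, fun h => hqU ((ptnE_sub h).1 (by simp))⟩
        rw [ptnE_succ, Finset.mem_union]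
        refine Or.inl (Finset.mem_powersetCard.2 ⟨?_, Finset.card_pair hxq⟩)
        simp [Finset.insert_subset_iff, a2 hx, hqV.1]
      have himg : ((a (k + 1)).image (fun x => ({x, q} : Finset α))).card = 2 := by
        rw [Finset.card_image_of_injOn, a3]
        intro x hx y hy hxy
        have hxq : x ≠ q := fun h => hqV.2 (h ▸ hx)
        have : x ∈ ({y, q} : Finset α) := (show ({x, q} : Finset α) = {y, q} from hxy) ▸ by simp
        simpa [hxq] using this
      have hc := Finset.card_le_card hnew
      rw [himg, Finset.card_sdiff_of_subset hS] at hc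
      have hc' := Finset.card_le_card hS
      refine ⟨by omega, by omega, fun heq e he i hi hei => ?_⟩
      rcases hi.lt_or_eq with h | h
      · by_cases heS : e ∈ ptnE V k
        · exact i3 (by omega) e heS i (by omega) hei
        · exfalso
          have heV : e ∈ (V (k + 1)).powersetCard 2 := by
            rw [ptnE_succ, Finset.mem_union] at he; exact he.resolve_right heS
          obtain ⟨e1, e2⟩ := Finset.mem_powersetCard.1 heV
          have hqe : q ∉ e := fun hh =>
            hqU (Finset.biUnion_subset_biUnion_of_subset_left V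
              (Finset.range_mono (by omega : i + 1 ≤ k + 1)) (hei hh))
          have : e = a (k + 1) := Finset.eq_of_subset_of_card_le
            (fun z hz => by
              have hz' := e1 hz
              rw [hVq, Finset.mem_insert] at hz'
              exact hz'.resolve_left fun h => hqe (h ▸ hz))
            (by rw [a3, e2])
          exact heS (Finset.mem_biUnion.2 ⟨k, Finset.self_mem_range_succ k,
            Finset.mem_powersetCard.2 ⟨this ▸ a1, e2⟩⟩)
      · rwa [h]

/-- The pattern of a closed non-backtracking walk. -/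
theorem ptn_closed {l : ℕ} (hl : 2 ≤ l) {V a : ℕ → Finset α} (hV : ∀ i, i < l → (V i).card = 3)
    (ha : ∀ i, i < l → a i ⊆ V i ∧ a ((i + 1) % l) ⊆ V i ∧ (a i).card = 2 ∧
      a i ≠ a ((i + 1) % l) ∧ V i ≠ V ((i + 1) % l)) :
    (ptnV V (l - 1)).card ≤ l + 2 ∧ 2 * (ptnV V (l - 1)).card ≤ (ptnE V (l - 1)).card + 2 := by
  have hg := ptn_growth (V := V) (a := a) hV fun i hi => by
    have h1 := ha i (by omega)
    rw [Nat.mod_eq_of_lt hi] at h1
    exact ⟨h1.2.1, (ha (i + 1) hi).1, (ha (i + 1) hi).2.2.1⟩
  obtain ⟨g1, g2, g3⟩ := hg (l - 1) (by omega)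
  refine ⟨by omega, ?_⟩
  by_contra hcon
  have hP := g3 (by omega)
  have hall : ∀ i, i < l → V i ⊆ ptnV V (l - 1) := fun i hi =>
    Finset.subset_biUnion_of_mem V (Finset.mem_range.2 (by omega))
  have hex : ∃ K, ptnV V (l - 1) ⊆ ptnV V K := ⟨l - 1, subset_rfl⟩
  have hK : ptnV V (l - 1) ⊆ ptnV V (Nat.find hex) := Nat.find_spec hex
  have hKl : Nat.find hex ≤ l - 1 := Nat.find_le subset_rfl
  have hmin : ∀ j, j < Nat.find hex → ¬ ptnV V (l - 1) ⊆ ptnV V j := fun j hj =>
    Nat.find_min hex hj
  revert hK hKl hmin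
  generalize Nat.find hex = K
  intro hK hKl hmin
  rcases K with _ | K
  · have h0 : ptnV V 0 = V 0 := by simp [ptnV]
    have h1 : ∀ i, i < l → V i = V 0 := fun i hi =>
      Finset.eq_of_subset_of_card_le (h0 ▸ (hall i hi).trans hK) (by rw [hV i hi, hV 0 (by omega)])
    exact (ha 0 (by omega)).2.2.2.2 (h1 _ (Nat.mod_lt _ (by omega))).symm
  · obtain ⟨z, hz, hz'⟩ := Finset.not_subset.1 (hmin K (by omega))
    have hzV : z ∈ V (K + 1) := by
      have := hK hz
      rw [ptnV_succ, Finset.mem_union] at this
      exact this.resolve_right hz'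
    have key : ∀ i, i < l → z ∈ V i → V i = V (K + 1) := by
      intro i hi hzi
      refine Finset.eq_of_subset_of_card_le (fun w hw => ?_) (by rw [hV i hi, hV _ (by omega)])
      by_cases hwz : w = z
      · rwa [hwz]
      have he : ({z, w} : Finset α) ∈ (V i).powersetCard 2 := Finset.mem_powersetCard.2
        ⟨by simp [Finset.insert_subset_iff, hzi, hw], Finset.card_pair (Ne.symm hwz)⟩
      have he' : ({z, w} : Finset α) ∈ ptnE V (l - 1) :=
        Finset.mem_biUnion.2 ⟨i, Finset.mem_range.2 (by omega), he⟩
      have h1 := hP _ he' (K + 1) hKl ((ptnE_sub he').1.trans hK)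
      rw [ptnE_succ, Finset.mem_union] at h1
      have h2 := h1.resolve_right fun h => hz' ((ptnE_sub h).1 (by simp))
      exact (Finset.mem_powersetCard.1 h2).1 (by simp)
    have hK' := ha K (by omega)
    rw [Nat.mod_eq_of_lt (show K + 1 < l by omega)] at hK'
    have hza : z ∉ a (K + 1) := fun h => hz'
      (Finset.subset_biUnion_of_mem V (Finset.self_mem_range_succ K) (hK'.2.1 h))
    obtain ⟨b1, b2, b3, b4, b5⟩ := ha (K + 1) (by omega)
    have hjl : (K + 1 + 1) % l < l := Nat.mod_lt _ (by omega)
    obtain ⟨c1, -, c3, -, -⟩ := ha _ hjl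
    have hzb : z ∈ a ((K + 1 + 1) % l) := by
      by_contra h
      have e1 : (V (K + 1)).erase z = a (K + 1) := (Finset.eq_of_subset_of_card_le
        (Finset.subset_erase.2 ⟨b1, hza⟩)
        (by rw [Finset.card_erase_of_mem hzV, hV _ (by omega), b3])).symm
      have e2 : (V (K + 1)).erase z = a ((K + 1 + 1) % l) := (Finset.eq_of_subset_of_card_le
        (Finset.subset_erase.2 ⟨b2, h⟩)
        (by rw [Finset.card_erase_of_mem hzV, hV _ (by omega), c3])).symm
      exact b4 (e1.symm.trans e2)
    exact b5 (key _ hjl (c1 hzb)).symm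

end P046.Full
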