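import Vale.Agent.P046.Full.Main
import Vale.Agent.P046.Full.Ident
import Vale.Agent.P046.Full.ShortPattern

/-!
P046, §2: the short closed walks.

A walk whose triangles span `e` pairs survives a step on a regular state with probability at most
`1 - 3 e (1 - 3 η) / E`, so the sum over all walks of the complete graph of
`1[pairs present] * ((level + 3) / E) ^ (e (1 - 3 η))` is a supermartingale. At the start the
patterns bound it by `C n (n ^ θ) ^ (l + 1)`.
-/

namespace P046

open Finset Filter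

namespace LH

variable {α : Type} [DecidableEq α] {L : LH α}

/-- The edges meeting a node set, up to the square of its size. -/
theorem sum_deg_le_meet (W S : Finset α) :
    ∑ a ∈ S, (L.deg W a : ℝ)
      ≤ (((L.tris W).filter fun t => ¬ Disjoint S t).card : ℝ) + 2 * (S.card : ℝ) ^ 2 := by
  have h2 : ((L.tris W).filter fun t => 2 ≤ (S ∩ t).card).card ≤ S.card ^ 2 := by
    refine le_trans (Finset.card_le_card (t := S.offDiag.biUnion fun p =>
      (L.star W p.1).filter (p.2 ∈ ·)) fun t ht => ?_) ?_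
    · obtain ⟨h1, h2⟩ := Finset.mem_filter.1 ht
      obtain ⟨a, ha, b, hb, hab⟩ := Finset.one_lt_card.1 (show 1 < (S ∩ t).card by omega)
      rw [Finset.mem_inter] at ha hb
      exact Finset.mem_biUnion.2 ⟨(a, b), Finset.mem_offDiag.2 ⟨ha.1, hb.1, hab⟩,
        Finset.mem_filter.2 ⟨Finset.mem_filter.2 ⟨h1, ha.2⟩, hb.2⟩⟩
    · refine Finset.card_biUnion_le.trans ((Finset.sum_le_sum fun p hp =>
        star_filter_card_le (Finset.mem_offDiag.1 hp).2.2).trans ?_)
      rw [Finset.sum_const, smul_eq_mul, mul_one, Finset.offDiag_card, sq]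
      omega
  have h3 : ∀ t ∈ L.tris W, ((S ∩ t).card : ℝ)
      ≤ (if ¬ Disjoint S t then (1 : ℝ) else 0) + 2 * (if 2 ≤ (S ∩ t).card then (1 : ℝ) else 0) := by
    intro t ht
    have h4 : (S ∩ t).card ≤ 3 :=
      (Finset.card_le_card Finset.inter_subset_right).trans (card_tri ht).le
    by_cases hd : Disjoint S t
    · rw [Finset.disjoint_iff_inter_eq_empty.1 hd]; simp [hd]
    · rw [if_pos hd]
      by_cases h5 : 2 ≤ (S ∩ t).card
      · rw [if_pos h5]
        have : ((S ∩ t).card : ℝ) ≤ 3 := by exact_mod_cast h4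
        linarith
      · rw [if_neg h5]
        have : ((S ∩ t).card : ℝ) ≤ 1 := by exact_mod_cast (show (S ∩ t).card ≤ 1 by omega)
        linarith
  have h4 : ∑ a ∈ S, (L.deg W a : ℝ) = ∑ t ∈ L.tris W, ((S ∩ t).card : ℝ) := by
    simp only [deg, ← Finset.filter_mem_eq_inter, Finset.card_filter, Nat.cast_sum]
    exact Finset.sum_comm
  rw [h4]
  refine (Finset.sum_le_sum h3).trans ?_
  rw [Finset.sum_add_distrib, ← Finset.mul_sum, Finset.sum_boole, Finset.sum_boole]
  have : (((L.tris W).filter fun t => 2 ≤ (S ∩ t).card).card : ℝ) ≤ (S.card : ℝ) ^ 2 := by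
    exact_mod_cast h2
  linarith

end LH

namespace Full

variable {n l : ℕ}

/-- The pairs of a walk. -/
def wkE (w : Fin l → Finset (Fin n) × Finset (Finset (Fin n))) : Finset (Finset (Fin n)) :=
  Finset.univ.biUnion fun i => (w i).2

/-- The vertices of a walk. -/
def wkV (w : Fin l → Finset (Fin n) × Finset (Finset (Fin n))) : Finset (Fin n) :=
  Finset.univ.biUnion fun i => verts (w i).2

theorem closed_spec {W : Finset (Finset (Fin n))}
    {w : Fin l → Finset (Fin n) × Finset (Finset (Fin n))} (hw : w ∈ (kn n).closed W l) :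
    (∀ i, (w i).1 ∈ W ∧ (w i).2 ∈ (kn n).tris W) ∧
      ∀ i j : Fin l, (j : ℕ) = ((i : ℕ) + 1) % l →
        (w i).1 ∈ (w i).2 ∧ (w j).1 ∈ (w i).2 ∧ (w i).1 ≠ (w j).1 ∧ (w i).2 ≠ (w j).2 := by
  rw [LH.closed, Finset.mem_filter, Fintype.mem_piFinset] at hw
  exact ⟨fun i => Finset.mem_product.1 (hw.1 i), hw.2⟩

theorem tris_verts {W t : Finset (Finset (Fin n))} (ht : t ∈ (kn n).tris W) :
    (verts t).powersetCard 2 = t ∧ (verts t).card = 3 := by
  obtain ⟨V, hV, rfl, -⟩ := mem_tris_kn.1 ht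
  rw [verts_pairs hV]; exact ⟨rfl, hV⟩

/-- The pattern of a walk. -/
theorem walk_pattern (hl : 2 ≤ l) {w : Fin l → Finset (Fin n) × Finset (Finset (Fin n))}
    (hw : w ∈ (kn n).closed (allPairs n) l) :
    3 ≤ (wkV w).card ∧ (wkV w).card ≤ l + 2 ∧ 2 * (wkV w).card ≤ (wkE w).card + 2 ∧
      3 ≤ (wkE w).card ∧ (wkE w).card ≤ 3 * l := by
  obtain ⟨h1, h2⟩ := closed_spec hw
  set idx : ℕ → Fin l := fun i => ⟨i % l, Nat.mod_lt _ (by omega)⟩ with hidx
  set V : ℕ → Finset (Fin n) := fun i => verts (w (idx i)).2 with hV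
  have hp : ∀ i, (verts (w i).2).powersetCard 2 = (w i).2 ∧ (verts (w i).2).card = 3 :=
    fun i => tris_verts (h1 i).2
  obtain ⟨q1, q2⟩ := ptn_closed hl (V := V) (a := fun i => (w (idx i)).1)
    (fun i _ => (hp _).2) (fun i hi => by
      obtain ⟨c1, c2, c3, c4⟩ := h2 (idx i) (idx ((i + 1) % l))
        (by simp [hidx, Nat.mod_eq_of_lt hi])
      rw [← (hp (idx i)).1] at c1 c2
      refine ⟨(Finset.mem_powersetCard.1 c1).1, (Finset.mem_powersetCard.1 c2).1,
        (Finset.mem_powersetCard.1 c1).2, c3, fun h => c4 ?_⟩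
      rw [← (hp (idx i)).1, ← (hp (idx ((i + 1) % l))).1]
      exact congrArg (fun X => X.powersetCard 2) h)
  have hU : ptnV V (l - 1) = wkV w := by
    ext z
    simp only [ptnV, wkV, Finset.mem_biUnion, Finset.mem_range, Finset.mem_univ, true_and]
    constructor
    · rintro ⟨i, -, hi⟩; exact ⟨idx i, hi⟩
    · rintro ⟨i, hi⟩
      exact ⟨i, by omega, by simpa [hV, hidx, Nat.mod_eq_of_lt i.2] using hi⟩
  have hE : ptnE V (l - 1) = wkE w := by
    ext z
    simp only [ptnE, wkE, Finset.mem_biUnion, Finset.mem_range, Finset.mem_univ, true_and]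
    constructor
    · rintro ⟨i, -, hi⟩; exact ⟨idx i, by rwa [← (hp _).1]⟩
    · rintro ⟨i, hi⟩
      refine ⟨i, by omega, ?_⟩
      have : idx i = i := Fin.ext (Nat.mod_eq_of_lt i.2)
      simp only [hV, this]
      rwa [(hp i).1]
  rw [hU] at q1 q2
  rw [hE] at q2
  have h0 := Finset.mem_univ (idx 0)
  refine ⟨?_, q1, q2, ?_, ?_⟩
  · exact (hp (idx 0)).2.ge.trans
      (Finset.card_le_card (Finset.subset_biUnion_of_mem (fun i => verts (w i).2) h0))
  · exact (LH.card_tri (h1 (idx 0)).2).ge.trans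
      (Finset.card_le_card (Finset.subset_biUnion_of_mem (fun i => (w i).2) h0))
  · refine Finset.card_biUnion_le.trans ((Finset.sum_le_sum fun i _ =>
      (LH.card_tri (h1 i).2).le).trans ?_)
    simp [mul_comm]

/-- Walks on at most `l + 2` given vertices. -/
def wkK (l : ℕ) : ℕ := ((l + 2).choose 2 * 2 ^ (l + 2).choose 2) ^ l

/-- The walks with a given number of vertices. -/
theorem walks_card {v : ℕ} (hv : v ≤ l + 2) :
    (((kn n).closed (allPairs n) l).filter fun w => (wkV w).card = v).card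
      ≤ n.choose v * wkK l := by
  refine le_trans (Finset.card_le_card (t := ((univ : Finset (Fin n)).powersetCard v).biUnion
    fun V => Fintype.piFinset fun _ : Fin l => V.powersetCard 2 ×ˢ (V.powersetCard 2).powerset)
    fun w hw => ?_) ?_
  · obtain ⟨hw, hc⟩ := Finset.mem_filter.1 hw
    obtain ⟨h1, h2⟩ := closed_spec hw
    refine Finset.mem_biUnion.2 ⟨wkV w, Finset.mem_powersetCard.2 ⟨Finset.subset_univ _, hc⟩, ?_⟩
    rw [Fintype.mem_piFinset]
    intro i
    obtain ⟨hp, -⟩ := tris_verts (h1 i).2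
    have hs : (w i).2 ⊆ (wkV w).powersetCard 2 := hp ▸ Finset.powersetCard_mono
      (Finset.subset_biUnion_of_mem (fun i => verts (w i).2) (Finset.mem_univ i))
    exact Finset.mem_product.2 ⟨hs (h2 i ⟨((i : ℕ) + 1) % l, Nat.mod_lt _ (by
      have := i.2; omega)⟩ rfl).1, Finset.mem_powerset.2 hs⟩
  · refine Finset.card_biUnion_le.trans ?_
    have hV : ∀ V ∈ (univ : Finset (Fin n)).powersetCard v,
        (Fintype.piFinset fun _ : Fin l =>
          V.powersetCard 2 ×ˢ (V.powersetCard 2).powerset).card ≤ wkK l := by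
      intro V hV
      rw [Fintype.card_piFinset]
      simp only [Finset.prod_const, Finset.card_univ, Fintype.card_fin, Finset.card_product,
        Finset.card_powerset, Finset.card_powersetCard, (Finset.mem_powersetCard.1 hV).2]
      have hc : v.choose 2 ≤ (l + 2).choose 2 := Nat.choose_le_choose 2 hv
      exact Nat.pow_le_pow_left (Nat.mul_le_mul hc (Nat.pow_le_pow_right (by norm_num) hc)) l
    refine (Finset.sum_le_sum hV).trans ?_
    simp [Finset.card_powersetCard]

/-- The sum over the walks of `q ^ e`. -/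
theorem walk_sum (hl : 2 ≤ l) {q X : ℝ} (hq0 : 0 ≤ q) (hq1 : q ≤ 1) (hX : 1 ≤ X)
    (hnq : (n : ℝ) * q ^ 2 ≤ X) :
    ∑ w ∈ (kn n).closed (allPairs n) l, q ^ (wkE w).card
      ≤ ((l + 3 : ℕ) : ℝ) * wkK l * ((n : ℝ) * X ^ (l + 1)) := by
  have hmap : ∀ w ∈ (kn n).closed (allPairs n) l, (wkV w).card ∈ Finset.range (l + 3) :=
    fun w hw => Finset.mem_range.2 (by have := (walk_pattern hl hw).2.1; omega)
  rw [← Finset.sum_fiberwise_of_maps_to hmap]
  calc _ ≤ ∑ _v ∈ Finset.range (l + 3), (wkK l : ℝ) * ((n : ℝ) * X ^ (l + 1)) := by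
        refine Finset.sum_le_sum fun v hv => ?_
        by_cases hv3 : 3 ≤ v
        · have hcard := walks_card (n := n) (l := l) (v := v)
            (by have := Finset.mem_range.1 hv; omega)
          refine (Finset.sum_le_card_nsmul _ _ (q ^ (2 * v - 2)) fun w hw => ?_).trans ?_
          · obtain ⟨hw, hc⟩ := Finset.mem_filter.1 hw
            exact pow_le_pow_of_le_one hq0 hq1 (by have := (walk_pattern hl hw).2.2.1; omega)
          rw [nsmul_eq_mul]
          have h1 : ((((kn n).closed (allPairs n) l).filter fun w => (wkV w).card = v).card : ℝ)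
              ≤ (wkK l : ℝ) * (n : ℝ) ^ v := by
            have h2 : n.choose v * wkK l ≤ wkK l * n ^ v := by
              rw [mul_comm]; exact Nat.mul_le_mul_left _ (Nat.choose_le_pow n v)
            exact_mod_cast hcard.trans h2
          refine (mul_le_mul_of_nonneg_right h1 (by positivity)).trans ?_
          rw [mul_assoc]
          refine mul_le_mul_of_nonneg_left ?_ (Nat.cast_nonneg _)
          obtain ⟨k, rfl⟩ : ∃ k, v = k + 1 := ⟨v - 1, by omega⟩
          rw [show 2 * (k + 1) - 2 = 2 * k by omega, pow_mul, pow_succ', mul_assoc, ← mul_pow]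
          refine mul_le_mul_of_nonneg_left ?_ (Nat.cast_nonneg _)
          exact (pow_le_pow_left₀ (by positivity) hnq k).trans
            (pow_le_pow_right₀ hX (by have := Finset.mem_range.1 hv; omega))
        · rw [Finset.sum_eq_zero]
          · positivity
          intro w hw
          obtain ⟨hw, hc⟩ := Finset.mem_filter.1 hw
          exfalso; have := (walk_pattern hl hw).1; omega
    _ = _ := by rw [Finset.sum_const, Finset.card_range, nsmul_eq_mul]; ring

/-- A set of pairs dies in a step with probability at least `3 |S| (1 - 3 η) / E`. -/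
theorem miss_card {W S : Finset (Finset (Fin n))} {η ρ : ℝ} {m : ℕ} (hW : W ⊆ allPairs n)
    (h : Regular W η ρ m) (hη0 : 0 ≤ η) (hη : η ≤ 1 / 6) (hu : 0 < uexp W)
    (hE : 0 < (W.card : ℝ)) (hS : S ⊆ W) (hSu : 2 * (S.card : ℝ) ≤ η * uexp W) :
    ((((kn n).tris W).filter fun t => Disjoint S t).card : ℝ)
      ≤ (((kn n).tris W).card : ℝ) * (1 - 3 * ((S.card : ℝ) * (1 - 3 * η)) / W.card) := by
  set T : ℝ := (((kn n).tris W).card : ℝ) with hT
  set e : ℝ := (S.card : ℝ) with he
  set u := uexp W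
  set E : ℝ := (W.card : ℝ)
  have hsplit : ((((kn n).tris W).filter fun t => Disjoint S t).card : ℝ)
      + ((((kn n).tris W).filter fun t => ¬ Disjoint S t).card : ℝ) = T := by
    rw [hT]; exact_mod_cast Finset.card_filter_add_card_filter_not _
  have hdeg : e * ((1 - η) * u) ≤ ∑ a ∈ S, ((kn n).deg W a : ℝ) := by
    have := Finset.card_nsmul_le_sum S (fun a => ((kn n).deg W a : ℝ)) ((1 - η) * u) fun a ha => by
      obtain ⟨x, y, hxy, rfl⟩ := Finset.card_eq_two.1 (mem_allPairs.1 (hW (hS ha)))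
      have ha' : adj W x y = 1 := adj_eq_one.2 ⟨hxy, hS ha⟩
      rw [deg_pair ha']
      exact (h.cd_bounds hu ha').1
    rwa [nsmul_eq_mul] at this
  have hmeet := LH.sum_deg_le_meet (L := kn n) W S
  have hTle : T ≤ E * u * (1 + η) / 3 := by
    rw [hT, Regular.tris_card hu hE]
    gcongr
    linarith [(abs_le.1 h.mdev_le).2]
  have he0 : 0 ≤ e := Nat.cast_nonneg _
  have h1 : 3 * (e * (1 - 3 * η)) / E * T ≤ e * (1 - 2 * η) * u := by
    rw [div_mul_eq_mul_div, div_le_iff₀ hE]
    calc 3 * (e * (1 - 3 * η)) * T ≤ 3 * (e * (1 - 3 * η)) * (E * u * (1 + η) / 3) :=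
          mul_le_mul_of_nonneg_left hTle (by nlinarith)
      _ = e * ((1 - 3 * η) * (1 + η)) * u * E := by ring
      _ ≤ e * (1 - 2 * η) * u * E := by gcongr; nlinarith
  have h2 : e * (1 - 2 * η) * u ≤ e * ((1 - η) * u) - 2 * e ^ 2 := by nlinarith
  rw [mul_sub, mul_one, mul_comm]
  linarith

/-- The potential of the short walks. -/
noncomputable def shortPot (n l : ℕ) (B η : ℝ) (W : Finset (Finset (Fin n))) : ℝ :=
  ∑ w ∈ (kn n).closed (allPairs n) l,
    if wkE w ⊆ W then (B / (W.card : ℝ)) ^ (((wkE w).card : ℝ) * (1 - 3 * η)) else 0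

theorem shortPot_nonneg {B η : ℝ} (hB : 0 ≤ B) (W : Finset (Finset (Fin n))) :
    0 ≤ shortPot n l B η W := Finset.sum_nonneg fun w _ => by split_ifs <;> positivity

theorem closed_le_shortPot {B η : ℝ} (hη : η ≤ 1 / 3) {W : Finset (Finset (Fin n))}
    (hW : W ⊆ allPairs n) (hE : 0 < (W.card : ℝ)) (hB : (W.card : ℝ) ≤ B) :
    (((kn n).closed W l).card : ℝ) ≤ shortPot n l B η W := by
  have hsub : (kn n).closed W l ⊆ ((kn n).closed (allPairs n) l).filter fun w => wkE w ⊆ W := by
    intro w hw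
    obtain ⟨h1, h2⟩ := closed_spec hw
    refine Finset.mem_filter.2 ⟨Finset.mem_filter.2 ⟨Fintype.mem_piFinset.2 fun i =>
      Finset.mem_product.2 ⟨hW (h1 i).1, ?_⟩, h2⟩, Finset.biUnion_subset.2 fun i _ =>
      (LH.mem_tris.1 (h1 i).2).2⟩
    obtain ⟨t1, t2⟩ := LH.mem_tris.1 (h1 i).2
    exact LH.mem_tris.2 ⟨t1, t2.trans hW⟩
  rw [shortPot, ← Finset.sum_filter, ← nsmul_one, ← Finset.sum_const]
  refine (Finset.sum_le_sum_of_subset_of_nonneg hsub fun _ _ _ => zero_le_one).trans
    (Finset.sum_le_sum fun w _ => ?_)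
  exact Real.one_le_rpow (by rw [le_div_iff₀ hE, one_mul]; exact hB)
    (mul_nonneg (Nat.cast_nonneg _) (by linarith))

theorem shortPot_avg (hl : 2 ≤ l) {B η ρ : ℝ} {m : ℕ} (hB : 0 ≤ B)
    {W : Finset (Finset (Fin n))} (hW : W ⊆ allPairs n) (h : Regular W η ρ m) (hη0 : 0 ≤ η)
    (hη : η ≤ 1 / 6) (hu : 0 < uexp W) (hE : 3 < (W.card : ℝ))
    (hlu : 6 * (l : ℝ) ≤ η * uexp W) :
    (kn n).avg (shortPot n l B η) W ≤ shortPot n l B η W := by
  have hT : (0 : ℝ) < ((kn n).tris W).card := LH.card_pos (h.tris_ne (by linarith))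
  set E : ℝ := (W.card : ℝ) with hEdef
  rw [LH.avg, div_le_iff₀ hT, shortPot, Finset.sum_mul]
  unfold shortPot
  rw [Finset.sum_comm]
  refine Finset.sum_le_sum fun w hw => ?_
  obtain ⟨-, -, -, he3, hel⟩ := walk_pattern hl hw
  set S := wkE w
  by_cases hS : S ⊆ W
  · rw [if_pos hS]
    set a : ℝ := (S.card : ℝ) * (1 - 3 * η)
    have ha : 1 ≤ a := by
      have : (3 : ℝ) ≤ S.card := by exact_mod_cast he3
      show 1 ≤ (S.card : ℝ) * (1 - 3 * η)
      nlinarith
    have hSu : 2 * (S.card : ℝ) ≤ η * uexp W := by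
      have : (S.card : ℝ) ≤ 3 * (l : ℝ) := by exact_mod_cast hel
      linarith
    have hmiss := miss_card hW h hη0 hη hu (by linarith) hS hSu
    have hcard : ∀ t ∈ (kn n).tris W, ((W \ t).card : ℝ) = E - 3 := fun t ht => by
      rw [hEdef, ← LH.card_sdiff_tri ht]; push_cast; ring
    rw [Finset.sum_congr rfl fun t ht =>
      (show (if S ⊆ W \ t then (B / ((W \ t).card : ℝ)) ^ a else 0)
          = if Disjoint S t then (B / (E - 3)) ^ a else 0 by
        rw [hcard t ht]
        exact if_congr ⟨fun h => (Finset.subset_sdiff.1 h).2,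
          fun h => Finset.subset_sdiff.2 ⟨hS, h⟩⟩ rfl rfl),
      ← Finset.sum_filter, Finset.sum_const, nsmul_eq_mul]
    have hg : 0 ≤ (B / (E - 3)) ^ a := Real.rpow_nonneg (div_nonneg hB (by linarith)) a
    refine (mul_le_mul_of_nonneg_right hmiss hg).trans ?_
    rw [mul_assoc, mul_comm _ (((kn n).tris W).card : ℝ)]
    refine mul_le_mul_of_nonneg_left ?_ hT.le
    have hbern : 1 - 3 * a / E ≤ ((E - 3) / E) ^ a := by
      have hs : (-1 : ℝ) ≤ -(3 / E) := by
        rw [neg_le_neg_iff, div_le_one (by linarith)]; linarith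
      have hh := one_add_mul_self_le_rpow_one_add hs ha
      rw [show 1 + -(3 / E) = (E - 3) / E by field_simp; ring] at hh
      convert hh using 1
      ring
    refine (mul_le_mul_of_nonneg_right hbern hg).trans (le_of_eq ?_)
    rw [← Real.mul_rpow (div_nonneg (by linarith) (by linarith)) (div_nonneg hB (by linarith))]
    congr 1
    have : E - 3 ≠ 0 := by linarith
    have : E ≠ 0 := by linarith
    rw [← hEdef]
    field_simp
  · rw [if_neg hS, zero_mul]
    refine le_of_eq (Finset.sum_eq_zero fun t _ => if_neg fun hh => hS ?_)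
    exact hh.trans Finset.sdiff_subset

theorem shortPot_start (hl : 2 ≤ l) {B η q X : ℝ} (hB : 0 ≤ B) (hη0 : 0 ≤ η) (hη : η ≤ 1 / 6)
    (hq : 0 < q) (hq1 : q ≤ 1) (hBq : B / ((allPairs n).card : ℝ) ≤ q) (hX : 1 ≤ X)
    (hnq : (n : ℝ) * q ^ 2 ≤ X) (hqη : q ^ (-(9 * (l : ℝ) * η)) ≤ 2) :
    shortPot n l B η (allPairs n)
      ≤ 2 * (((l + 3 : ℕ) : ℝ) * wkK l) * ((n : ℝ) * X ^ (l + 1)) := by
  rw [mul_assoc 2, shortPot]
  refine le_trans (Finset.sum_le_sum (g := fun w => 2 * q ^ (wkE w).card) fun w hw => ?_) ?_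
  · rw [if_pos (show wkE w ⊆ allPairs n from
      Finset.biUnion_subset.2 fun i _ => (LH.mem_tris.1 ((closed_spec hw).1 i).2).2)]
    obtain ⟨-, -, -, -, hel⟩ := walk_pattern hl hw
    have hel' : ((wkE w).card : ℝ) ≤ 3 * (l : ℝ) := by exact_mod_cast hel
    refine (Real.rpow_le_rpow (by positivity) hBq
      (mul_nonneg (Nat.cast_nonneg _) (by linarith))).trans ?_
    rw [show ((wkE w).card : ℝ) * (1 - 3 * η)
      = (-(3 * ((wkE w).card : ℝ) * η)) + ((wkE w).card : ℕ) by ring, Real.rpow_add hq,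
      Real.rpow_natCast]
    refine mul_le_mul_of_nonneg_right (le_trans ?_ hqη) (by positivity)
    exact Real.rpow_le_rpow_of_exponent_ge hq hq1 (by nlinarith)
  · rw [← Finset.mul_sum]
    exact mul_le_mul_of_nonneg_left (walk_sum hl hq.le hq1 hX hnq) (by norm_num)

/-- The short walks. -/
theorem short : ShortStmt := by
  intro θ hθ hθ1 l hl m _
  refine ⟨8 * (((l + 3 : ℕ) : ℝ) * wkK l) * 8 ^ (l + 1), ?_⟩
  have t1 : Tendsto (fun n : ℕ => eta n θ) atTop (nhds 0) :=
    (tendsto_rpow_neg_atTop (by linarith : 0 < θ / 4)).comp tendsto_natCast_atTop_atTop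
  have t2 : Tendsto (fun n : ℕ => Real.log n * eta n θ) atTop (nhds 0) := by
    have := (isLittleO_log_rpow_atTop (by linarith : 0 < θ / 4)).tendsto_div_nhds_zero
    refine Tendsto.congr' ?_ (this.comp tendsto_natCast_atTop_atTop)
    filter_upwards [eventually_ge_atTop 1] with n hn
    rw [Function.comp_apply, eta, Real.rpow_neg (Nat.cast_nonneg n), div_eq_mul_inv]
  have t3 : Tendsto (fun n : ℕ => (n : ℝ) ^ (3 * θ / 4)) atTop atTop :=
    (tendsto_rpow_atTop (by linarith)).comp tendsto_natCast_atTop_atTop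
  filter_upwards [eventually_ge_atTop 25,
    t1.eventually (eventually_le_nhds (show (0 : ℝ) < 1 / 6 by norm_num)),
    t2.eventually (eventually_le_nhds (show (0 : ℝ) < Real.log 2 / (9 * l) from
      div_pos (Real.log_pos (by norm_num)) (by positivity))),
    t3.eventually (eventually_ge_atTop (6 * (l : ℝ)))] with n hn hη hlog hpow
  have h25 : (25 : ℝ) ≤ n := by exact_mod_cast hn
  have hn0 : (0 : ℝ) < n := by linarith
  set x : ℝ := (n : ℝ) ^ θ with hx
  set η := eta n θ with hηdef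
  set L := level n θ with hLdef
  have hη0 : 0 ≤ η := Real.rpow_nonneg hn0.le _
  have hx1 : 1 ≤ x := Real.one_le_rpow (by linarith) hθ.le
  obtain ⟨hL6, -, -⟩ := level_bounds (by omega : 16 ≤ n) hθ hθ1
  have hxn : 4 * x ≤ (n : ℝ) - 2 := by
    have h1 : x ≤ Real.sqrt n := by
      rw [Real.sqrt_eq_rpow]
      exact Real.rpow_le_rpow_of_exponent_le (by linarith) (by linarith)
    have h2 := Real.sq_sqrt hn0.le
    have h3 : 5 ≤ Real.sqrt n := Real.le_sqrt_of_sq_le (by linarith)
    nlinarith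
  have hn2 : (0 : ℝ) < (n : ℝ) - 2 := by linarith
  set p := Real.sqrt (x / ((n : ℝ) - 2)) with hp
  have hp2 : p ^ 2 = x / ((n : ℝ) - 2) := Real.sq_sqrt (by positivity)
  have hp0 : 0 < p := Real.sqrt_pos.2 (by positivity)
  have hN : ((allPairs n).card : ℝ) = (n : ℝ) * (n - 1) / 2 := by
    rw [allPairs, Finset.card_powersetCard, Finset.card_univ, Fintype.card_fin,
      Nat.cast_choose_two]
  refine ⟨shortPot n l (L + 3) η, fun W _ => shortPot_nonneg (by linarith) W, ?_, ?_, ?_⟩
  · have hNpos : (0 : ℝ) < (n : ℝ) * (n - 1) / 2 := by nlinarith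
    have hBq : (L + 3) / ((allPairs n).card : ℝ) ≤ 2 * p := by
      rw [hN, div_le_iff₀ hNpos]
      have : L = (n : ℝ) * (n - 1) / 2 * p := rfl
      nlinarith
    have hq1 : 2 * p ≤ 1 := by
      have : x / ((n : ℝ) - 2) ≤ 1 / 4 := by rw [div_le_iff₀ hn2]; linarith
      nlinarith
    have hnq : (n : ℝ) * (2 * p) ^ 2 ≤ 8 * x := by
      rw [mul_pow, hp2, show (n : ℝ) * (2 ^ 2 * (x / ((n : ℝ) - 2))) = 4 * n * x / ((n : ℝ) - 2) by ring,
        div_le_iff₀ hn2]
      nlinarith
    have hqn : (1 : ℝ) / n ≤ 2 * p := by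
      have : (1 / (n : ℝ)) ^ 2 ≤ (2 * p) ^ 2 := by
        rw [mul_pow, hp2, div_pow, one_pow, div_le_iff₀ (by positivity),
          show 2 ^ 2 * (x / ((n : ℝ) - 2)) * (n : ℝ) ^ 2 = 4 * x * n ^ 2 / ((n : ℝ) - 2) by ring,
          le_div_iff₀ hn2]
        nlinarith [mul_le_mul_of_nonneg_right hx1 (sq_nonneg (n : ℝ))]
      exact (pow_le_pow_iff_left₀ (by positivity) (by positivity) (by norm_num)).1 this
    have hqη : (2 * p) ^ (-(9 * (l : ℝ) * η)) ≤ 2 := by
      refine (Real.rpow_le_rpow_of_nonpos (by positivity) hqn (by nlinarith)).trans ?_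
      rw [one_div, Real.inv_rpow hn0.le, ← Real.rpow_neg hn0.le, neg_neg,
        Real.rpow_def_of_pos hn0, ← Real.le_log_iff_exp_le (by norm_num)]
      rw [le_div_iff₀ (by positivity)] at hlog
      linarith
    refine (shortPot_start hl (by linarith) hη0 hη (by positivity) hq1 hBq (by linarith) hnq
      hqη).trans ?_
    have hL : (n : ℝ) * x * x ^ (1 / 2 : ℝ) / 4 ≤ L * (n : ℝ) ^ (-(1 / 2 : ℝ) + θ) := by
      have h1 : Real.sqrt (x / n) ≤ p := Real.sqrt_le_sqrt
        (div_le_div_of_nonneg_left (by linarith) hn2 (by linarith))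
      have h2 : (n : ℝ) ^ 2 / 4 * Real.sqrt (x / n) ≤ L :=
        mul_le_mul (by nlinarith) h1 (Real.sqrt_nonneg _) hNpos.le
      refine le_trans (le_of_eq ?_) (mul_le_mul_of_nonneg_right h2 (by positivity))
      rw [Real.sqrt_eq_rpow, Real.div_rpow (by linarith) hn0.le, Real.rpow_add hn0, Real.rpow_neg hn0.le]
      have h4 : (0 : ℝ) < (n : ℝ) ^ (1 / 2 : ℝ) := Real.rpow_pos_of_pos hn0 _
      have h5 : (n : ℝ) ^ (1 / 2 : ℝ) * (n : ℝ) ^ (1 / 2 : ℝ) = n := by
        rw [← Real.rpow_add hn0]; norm_num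
      field_simp
      rw [← hx]
      linear_combination x * h5
    have hxh : 1 ≤ x ^ (1 / 2 : ℝ) := Real.one_le_rpow hx1 (by norm_num)
    calc _ = 8 * (((l + 3 : ℕ) : ℝ) * wkK l) * 8 ^ (l + 1) * x ^ l * ((n : ℝ) * x * 1 / 4) := by
          ring
      _ ≤ 8 * (((l + 3 : ℕ) : ℝ) * wkK l) * 8 ^ (l + 1) * x ^ l
            * (L * (n : ℝ) ^ (-(1 / 2 : ℝ) + θ)) :=
          mul_le_mul_of_nonneg_left (le_trans (by gcongr) hL) (by positivity)
      _ = _ := by ring
  · intro W hW hR
    obtain ⟨hsub, h1, h2⟩ := hW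
    exact closed_le_shortPot (by linarith) hsub (card_pos_of_level (by omega) h1) h2.le
  · intro W hsub h1 hR
    have h1' : level n θ ≤ (W.card : ℝ) := by linarith
    refine shortPot_avg hl (by linarith) hsub hR hη0 hη (uexp_pos (by omega) h1') (by linarith) ?_
    refine hpow.trans (le_trans (le_of_eq ?_)
      (mul_le_mul_of_nonneg_left (level_le_uexp (by omega) h1') hη0))
    rw [hηdef, eta, ← Real.rpow_add hn0]
    congr 1; ring

end Full

end P046
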