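import Mathlib

/-!
P046, part III: uniform independent coordinates with values below `M` on a finite set of indices,
as finite averages, and the independence lemmas.
-/

namespace P046.Tree

open Finset

variable {ι : Type*} [DecidableEq ι]

/-- The indicator of a proposition. -/
noncomputable def ind (p : Prop) : ℝ := by classical exact if p then 1 else 0

theorem ind_nonneg (p : Prop) : 0 ≤ ind p := by
  unfold ind; split <;> norm_num

theorem ind_le_one (p : Prop) : ind p ≤ 1 := by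
  unfold ind; split <;> norm_num

theorem ind_true {p : Prop} (h : p) : ind p = 1 := by simp [ind, h]

theorem ind_false {p : Prop} (h : ¬p) : ind p = 0 := by simp [ind, h]

theorem ind_congr {p q : Prop} (h : p ↔ q) : ind p = ind q := by rw [propext h]

theorem ind_mono {p q : Prop} (h : p → q) : ind p ≤ ind q := by
  by_cases hp : p
  · rw [ind_true hp, ind_true (h hp)]
  · rw [ind_false hp]; exact ind_nonneg q

theorem ind_and (p q : Prop) : ind (p ∧ q) = ind p * ind q := by
  by_cases hp : p <;> by_cases hq : q <;> simp [ind, hp, hq]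

theorem ind_not (p : Prop) : ind (¬p) = 1 - ind p := by
  by_cases hp : p <;> simp [ind, hp]

theorem ind_forall {κ : Type*} (s : Finset κ) (p : κ → Prop) :
    ind (∀ x ∈ s, p x) = ∏ x ∈ s, ind (p x) := by
  by_cases h : ∀ x ∈ s, p x
  · rw [ind_true h, Finset.prod_eq_one fun x hx => ind_true (h x hx)]
  · rw [ind_false h]
    push Not at h
    obtain ⟨x, hx, hx'⟩ := h
    rw [Finset.prod_eq_zero hx (ind_false hx')]

theorem ind_exists_le {κ : Type*} (s : Finset κ) (p : κ → Prop) :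
    ind (∃ x ∈ s, p x) ≤ ∑ x ∈ s, ind (p x) := by
  by_cases h : ∃ x ∈ s, p x
  · obtain ⟨x, hx, hx'⟩ := h
    rw [ind_true ⟨x, hx, hx'⟩, ← ind_true hx']
    exact Finset.single_le_sum (f := fun y => ind (p y)) (fun y _ => ind_nonneg _) hx
  · rw [ind_false h]; exact Finset.sum_nonneg fun y _ => ind_nonneg _

theorem ind_or_le (p q : Prop) : ind (p ∨ q) ≤ ind p + ind q := by
  by_cases hp : p <;> by_cases hq : q <;> simp [ind, hp, hq]

/-- The extension by zero of a sample. -/
def ext (I : Finset ι) {M : ℕ} (τ : I → Fin M) : ι → ℕ :=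
  fun e => if h : e ∈ I then (τ ⟨e, h⟩ : ℕ) else 0

theorem ext_mem {I : Finset ι} {M : ℕ} (τ : I → Fin M) (e : I) : ext I τ e = τ e := by
  simp [ext, e.2]

theorem ext_lt {I : Finset ι} {M : ℕ} (τ : I → Fin M) {e : ι} (he : e ∈ I) : ext I τ e < M := by
  simp [ext, he]

/-- The mean of `f` when the coordinates in `I` are independent and uniform in `M`. -/
noncomputable def avgF (I : Finset ι) (M : ℕ) (f : (ι → ℕ) → ℝ) : ℝ :=
  (∑ τ : I → Fin M, f (ext I τ)) / (M : ℝ) ^ I.card

/-- The probability of `P`. -/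
noncomputable def prob (I : Finset ι) (M : ℕ) (P : (ι → ℕ) → Prop) : ℝ :=
  avgF I M fun ω => ind (P ω)

/-- `f` depends only on the coordinates in `S`. -/
def DepOn {β : Sort*} (f : (ι → ℕ) → β) (S : Set ι) : Prop :=
  ∀ ω ω' : ι → ℕ, (∀ e ∈ S, ω e = ω' e) → f ω = f ω'

variable {I : Finset ι} {M : ℕ} {f g : (ι → ℕ) → ℝ}

theorem avgF_mono (h : ∀ ω, (∀ e ∈ I, ω e < M) → f ω ≤ g ω) : avgF I M f ≤ avgF I M g :=
  div_le_div_of_nonneg_right (Finset.sum_le_sum fun τ _ => h _ fun _ he => ext_lt τ he)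
    (by positivity)

theorem avgF_congr (h : ∀ ω, (∀ e ∈ I, ω e < M) → f ω = g ω) : avgF I M f = avgF I M g := by
  rw [avgF, avgF, Finset.sum_congr rfl fun τ _ => h _ fun _ he => ext_lt τ he]

theorem avgF_const (hM : 0 < M) (c : ℝ) : avgF I M (fun _ => c) = c := by
  have hM' : (M : ℝ) ≠ 0 := by exact_mod_cast hM.ne'
  rw [avgF, Finset.sum_const, Finset.card_univ, Fintype.card_fun, Fintype.card_fin,
    Fintype.card_coe, nsmul_eq_mul, Nat.cast_pow]
  field_simp

theorem avgF_add : avgF I M (fun ω => f ω + g ω) = avgF I M f + avgF I M g := by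
  rw [avgF, avgF, avgF, ← add_div, Finset.sum_add_distrib]

theorem avgF_sub : avgF I M (fun ω => f ω - g ω) = avgF I M f - avgF I M g := by
  rw [avgF, avgF, avgF, ← sub_div, Finset.sum_sub_distrib]

theorem avgF_sum {κ : Type*} (s : Finset κ) (F : κ → (ι → ℕ) → ℝ) :
    avgF I M (fun ω => ∑ k ∈ s, F k ω) = ∑ k ∈ s, avgF I M (F k) := by
  simp only [avgF]
  rw [Finset.sum_comm, Finset.sum_div]

theorem avgF_mul_left (c : ℝ) : avgF I M (fun ω => c * f ω) = c * avgF I M f := by
  rw [avgF, avgF, ← Finset.mul_sum, mul_div_assoc]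

theorem avgF_nonneg (h : ∀ ω, 0 ≤ f ω) : 0 ≤ avgF I M f :=
  div_nonneg (Finset.sum_nonneg fun _ _ => h _) (by positivity)

theorem avgF_mul (hM : 0 < M) {S : Set ι} (hf : DepOn f S) (hg : DepOn g Sᶜ) :
    avgF I M (fun ω => f ω * g ω) = avgF I M f * avgF I M g := by
  classical
  let mix : (I → Fin M) × (I → Fin M) → (I → Fin M) × (I → Fin M) := fun q =>
    (fun e => if (e : ι) ∈ S then q.1 e else q.2 e, fun e => if (e : ι) ∈ S then q.2 e else q.1 e)
  have hinv : Function.Involutive mix := by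
    intro q
    refine Prod.ext (funext fun e => ?_) (funext fun e => ?_) <;>
      by_cases he : (e : ι) ∈ S <;> simp [mix, he]
  have key : ∀ q, f (ext I (mix q).1) * g (ext I (mix q).1) = f (ext I q.1) * g (ext I q.2) := by
    intro q
    congr 1
    · refine hf _ _ fun e he => ?_
      by_cases hI : e ∈ I <;> simp [ext, hI, mix, he]
    · refine hg _ _ fun e he => ?_
      have he' : e ∉ S := he
      by_cases hI : e ∈ I <;> simp [ext, hI, mix, he']
  have hsum : (∑ τ : I → Fin M, f (ext I τ)) * (∑ τ : I → Fin M, g (ext I τ))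
      = (M : ℝ) ^ I.card * ∑ τ : I → Fin M, f (ext I τ) * g (ext I τ) := by
    rw [Finset.sum_mul_sum, ← Fintype.sum_prod_type',
      ← Equiv.sum_comp (hinv.toPerm mix) (fun q : (I → Fin M) × (I → Fin M) =>
        f (ext I q.1) * g (ext I q.2))]
    have : ∀ q, f (ext I (hinv.toPerm mix q).1) * g (ext I (hinv.toPerm mix q).2)
        = f (ext I q.1) * g (ext I q.1) := by
      intro q
      have h2 := key (mix q)
      rw [hinv q] at h2
      exact h2.symm
    rw [Finset.sum_congr rfl fun q _ => this q, Fintype.sum_prod_type, Finset.mul_sum]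
    refine Finset.sum_congr rfl fun τ _ => ?_
    dsimp only
    rw [Finset.sum_const, Finset.card_univ, Fintype.card_fun, Fintype.card_fin, Fintype.card_coe,
      nsmul_eq_mul, Nat.cast_pow]
  have hM' : (M : ℝ) ≠ 0 := by exact_mod_cast hM.ne'
  rw [avgF, avgF, avgF, div_mul_div_comm, hsum]
  field_simp

omit [DecidableEq ι] in
theorem depOn_prod {κ : Type*} {R : Finset κ} {F : κ → (ι → ℕ) → ℝ} {S : κ → Set ι}
    (h : ∀ r ∈ R, DepOn (F r) (S r)) : DepOn (fun ω => ∏ r ∈ R, F r ω) (⋃ r ∈ R, S r) :=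
  fun ω ω' hω => Finset.prod_congr rfl fun r hr =>
    h r hr ω ω' fun e he => hω e (Set.mem_biUnion hr he)

theorem avgF_prod (hM : 0 < M) {κ : Type*} (R : Finset κ) {F : κ → (ι → ℕ) → ℝ} {S : κ → Set ι}
    (hF : ∀ r ∈ R, DepOn (F r) (S r))
    (hS : ∀ r ∈ R, ∀ r' ∈ R, r ≠ r' → ∀ e ∈ S r, e ∉ S r') :
    avgF I M (fun ω => ∏ r ∈ R, F r ω) = ∏ r ∈ R, avgF I M (F r) := by
  classical
  induction R using Finset.induction with
  | empty => simp [avgF_const hM]
  | @insert a s ha ih =>
    simp only [Finset.prod_insert ha]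
    have hg : DepOn (fun ω => ∏ r ∈ s, F r ω) (S a)ᶜ := by
      intro ω ω' hω
      refine depOn_prod (S := S) (fun r hr => hF r (Finset.mem_insert_of_mem hr)) ω ω'
        fun e he => hω e ?_
      simp only [Set.mem_iUnion] at he
      obtain ⟨r, hr, he⟩ := he
      exact hS r (Finset.mem_insert_of_mem hr) a (Finset.mem_insert_self _ _)
        (fun h => ha (h ▸ hr)) e he
    rw [avgF_mul hM (hF a (Finset.mem_insert_self _ _)) hg,
      ih (fun r hr => hF r (Finset.mem_insert_of_mem hr))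
        (fun r hr r' hr' => hS r (Finset.mem_insert_of_mem hr) r' (Finset.mem_insert_of_mem hr'))]

theorem avgF_coord (hM : 0 < M) {e : ι} (he : e ∈ I) (h : ℕ → ℝ) :
    avgF I M (fun ω => h (ω e)) = (∑ k : Fin M, h k) / M := by
  classical
  have hM' : (M : ℝ) ≠ 0 := by exact_mod_cast hM.ne'
  let G : I → Fin M → ℝ := fun i k => if i = ⟨e, he⟩ then h k else 1
  have h1 : ∀ τ : I → Fin M, ∏ i, G i (τ i) = h (ext I τ e) := by
    intro τ
    simp only [G]
    rw [Fintype.prod_eq_single (⟨e, he⟩ : I) fun i hi => if_neg hi]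
    simp [ext, he]
  have h2 : ∏ i : I, ∑ k : Fin M, G i k = (∑ k : Fin M, h k) * (M : ℝ) ^ (I.card - 1) := by
    rw [← Finset.mul_prod_erase (Finset.univ : Finset I) _ (Finset.mem_univ ⟨e, he⟩)]
    congr 1
    · simp [G]
    · rw [Finset.prod_congr rfl (g := fun _ => (M : ℝ)) fun i hi => by
        simp [G, (Finset.mem_erase.1 hi).1]]
      rw [Finset.prod_const, Finset.card_erase_of_mem (Finset.mem_univ _), Finset.card_univ,
        Fintype.card_coe]
  have h3 : (∑ τ : I → Fin M, h (ext I τ e)) = (∑ k : Fin M, h k) * (M : ℝ) ^ (I.card - 1) := by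
    rw [← h2, Fintype.prod_sum]
    exact Finset.sum_congr rfl fun τ _ => (h1 τ).symm
  obtain ⟨c, hc⟩ : ∃ c, I.card = c + 1 :=
    ⟨I.card - 1, by have := Finset.card_pos.2 ⟨e, he⟩; omega⟩
  rw [avgF, h3, hc, Nat.add_sub_cancel, pow_succ]
  field_simp

theorem prob_cylinder (hM : 0 < M) {S : Finset ι} (hS : S ⊆ I) (k : ι → ℕ) (hk : ∀ e ∈ S, k e < M) :
    prob I M (fun ω => ∀ e ∈ S, ω e = k e) = 1 / (M : ℝ) ^ S.card := by
  unfold prob
  simp only [ind_forall]
  rw [avgF_prod hM S (S := fun e => {e}) (fun e _ ω ω' h => by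
    show ind (ω e = k e) = ind (ω' e = k e)
    rw [h e rfl])
    (fun e _ e' _ hne x hx hx' => hne (hx.symm.trans hx'))]
  rw [Finset.prod_congr rfl (g := fun _ => 1 / (M : ℝ)) fun e he => by
    rw [avgF_coord hM (hS he) (fun x => ind (x = k e))]
    congr 1
    rw [Fintype.sum_eq_single (⟨k e, hk e he⟩ : Fin M) fun i hi => ind_false fun h => hi (Fin.ext h)]
    exact ind_true rfl]
  rw [Finset.prod_const, div_pow, one_pow]

theorem prob_mono {P Q : (ι → ℕ) → Prop} (h : ∀ ω, (∀ e ∈ I, ω e < M) → P ω → Q ω) :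
    prob I M P ≤ prob I M Q :=
  avgF_mono fun ω hω => ind_mono (h ω hω)

theorem prob_nonneg (P : (ι → ℕ) → Prop) : 0 ≤ prob I M P := avgF_nonneg fun _ => ind_nonneg _

theorem prob_le_one (hM : 0 < M) (P : (ι → ℕ) → Prop) : prob I M P ≤ 1 :=
  (avgF_mono fun _ _ => ind_le_one _).trans_eq (avgF_const hM 1)

theorem prob_exists_le {κ : Type*} (s : Finset κ) (P : κ → (ι → ℕ) → Prop) :
    prob I M (fun ω => ∃ x ∈ s, P x ω) ≤ ∑ x ∈ s, prob I M (P x) := by
  unfold prob
  rw [← avgF_sum]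
  exact avgF_mono fun ω _ => ind_exists_le s fun x => P x ω

theorem prob_or_le (P Q : (ι → ℕ) → Prop) :
    prob I M (fun ω => P ω ∨ Q ω) ≤ prob I M P + prob I M Q := by
  unfold prob
  rw [← avgF_add]
  exact avgF_mono fun ω _ => ind_or_le _ _

theorem prob_and (hM : 0 < M) {P Q : (ι → ℕ) → Prop} {S : Set ι} (hP : DepOn P S)
    (hQ : DepOn Q Sᶜ) : prob I M (fun ω => P ω ∧ Q ω) = prob I M P * prob I M Q := by
  unfold prob
  simp only [ind_and]
  exact avgF_mul hM (fun ω ω' h => congrArg ind (hP ω ω' h))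
    (fun ω ω' h => congrArg ind (hQ ω ω' h))

end P046.Tree
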