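import Vale.Agent.P046.Count
import Vale.Agent.P046.Full.Interfaces
import Vale.Agent.P046.Full.TreeAvg

/-!
P046, part III: the cover tree of an abstract linear 3-uniform hypergraph, the slot process on it,
and the relevant set. A node is a root with its steps (edge, node), newest first; a coordinate is a
node with an edge at it.
-/

namespace P046.Tree

open Finset

variable {α : Type} [DecidableEq α]

/-- A node of the cover forest: the root and the steps, newest first. -/
abbrev Node (α : Type) := α × List (Finset α × α)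

/-- A coordinate: a node and an edge at it. -/
abbrev Crd (α : Type) := Node α × Finset α

/-- The hypergraph node below a tree node. -/
def cur : Node α → α
  | (a, []) => a
  | (_, (_, x) :: _) => x

/-- The edge to the parent; `∅` at a root. -/
def exc : Node α → Finset α
  | (_, []) => ∅
  | (_, (r, _) :: _) => r

/-- The child of `p` along the edge `r` at the end `x`. -/
def child (p : Node α) (r : Finset α) (x : α) : Node α := (p.1, (r, x) :: p.2)

omit [DecidableEq α] in
@[simp] theorem cur_child (p : Node α) (r : Finset α) (x : α) : cur (child p r x) = x := rfl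

omit [DecidableEq α] in
@[simp] theorem exc_child (p : Node α) (r : Finset α) (x : α) : exc (child p r x) = r := rfl

/-- The coordinates in the subtree of `p`. -/
def Below (p : Node α) : Set (Crd α) := {e | e.1.1 = p.1 ∧ p.2 <:+ e.1.2}

omit [DecidableEq α] in
theorem below_child_subset (p : Node α) (r : Finset α) (x : α) : Below (child p r x) ⊆ Below p :=
  fun _ he => ⟨he.1, (List.suffix_cons _ _).trans he.2⟩

omit [DecidableEq α] in
theorem self_mem_below (p : Node α) (r : Finset α) : (p, r) ∈ Below p :=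
  ⟨rfl, List.suffix_refl _⟩

omit [DecidableEq α] in
theorem self_notMem_below_child (p : Node α) (r s : Finset α) (x : α) :
    (p, s) ∉ Below (child p r x) := fun h => by
  have := h.2.length_le
  simp [child] at this

omit [DecidableEq α] in
theorem below_child_inj {p : Node α} {r r' : Finset α} {x x' : α} {e : Crd α}
    (h : e ∈ Below (child p r x)) (h' : e ∈ Below (child p r' x')) : r = r' ∧ x = x' := by
  have h1 : (r, x) :: p.2 <:+ (r', x') :: p.2 :=
    List.suffix_of_suffix_length_le h.2 h'.2 (by simp)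
  have h2 := h1.eq_of_length (by simp)
  simpa using h2

variable (L : LH α) (W : Finset α)

/-- The edges at a node that lead down. -/
def edgesAt (p : Node α) : Finset (Finset α) := (L.star W (cur p)).erase (exc p)

/-- A path in the forest over `W`. -/
def ValidL (a : α) : List (Finset α × α) → Prop
  | [] => a ∈ W
  | (r, x) :: l => ValidL a l ∧ r ∈ edgesAt L W (a, l) ∧ x ∈ r.erase (cur (a, l))

/-- A node of the forest over `W`. -/
def Valid (p : Node α) : Prop := ValidL L W p.1 p.2

/-- The nodes of a given depth. -/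
def nodes : ℕ → Finset (Node α)
  | 0 => W.image fun a => (a, [])
  | k + 1 => (nodes k).biUnion fun p =>
      (edgesAt L W p).biUnion fun r => (r.erase (cur p)).image (child p r)

/-- The coordinates of the forest up to a depth beyond every path of interest. -/
def idx (M : ℕ) : Finset (Crd α) :=
  (Finset.range (4 * M + 5)).biUnion fun k =>
    (nodes L W k).biUnion fun p => (edgesAt L W p).image (Prod.mk p)

/-- The probability of an event when every coordinate has a uniform slot. -/
noncomputable def treeP (M : ℕ) (P : (Crd α → ℕ) → Prop) : ℝ := prob (idx L W M) M P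

/-- Is `p` uncovered before slot `j` in the forest? -/
def talive (ω : Crd α → ℕ) : ℕ → Node α → Prop
  | j, p => ∀ r ∈ edgesAt L W p, (hr : ω (p, r) < j) →
      ¬ ∀ x ∈ r.erase (cur p), talive ω (ω (p, r)) (child p r x)
termination_by j => j

/-- Is `p` uncovered before slot `j` by the edges outside `X`? -/
def aliveX (X : Finset (Finset α)) (ω : Crd α → ℕ) (j : ℕ) (p : Node α) : Prop :=
  ∀ r ∈ edgesAt L W p \ X, ω (p, r) < j →
    ¬ ∀ x ∈ r.erase (cur p), talive L W ω (ω (p, r)) (child p r x)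

/-- The slot up to which a node is looked at: that of its parent edge, `M` at a root. -/
def bound (M : ℕ) (ω : Crd α → ℕ) : Node α → ℕ
  | (_, []) => M
  | (a, (r, _) :: l) => ω ((a, l), r)

/-- All the nodes of the parent edge of `p` below it are uncovered before slot `t`. -/
def Both (ω : Crd α → ℕ) : Node α → ℕ → Prop
  | (a, []), t => talive L W ω t (a, [])
  | (a, (r, _) :: l), t => ∀ y ∈ r.erase (cur (a, l)), talive L W ω t (child (a, l) r y)

/-- The nodes looked at when the roots are evaluated. -/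
def RelL (M : ℕ) (ω : Crd α → ℕ) (a : α) : List (Finset α × α) → Prop
  | [] => a ∈ W
  | (r, x) :: l => RelL M ω a l ∧ r ∈ edgesAt L W (a, l) ∧ x ∈ r.erase (cur (a, l)) ∧
      ω ((a, l), r) < bound M ω (a, l) ∧ Both L W ω (a, l) (ω ((a, l), r))

/-- The node `p` is looked at. -/
def Rel (M : ℕ) (ω : Crd α → ℕ) (p : Node α) : Prop := RelL L W M ω p.1 p.2

/-- The coordinates looked at from the roots `R`. -/
noncomputable def Q (M : ℕ) (R : Finset α) (ω : Crd α → ℕ) : Finset (Crd α) := by
  classical exact (idx L W M).filter fun e => e.1.1 ∈ R ∧ Rel L W M ω e.1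

/-- Two coordinates looked at lie over the same edge. -/
def Bad (M : ℕ) (R : Finset α) (ω : Crd α → ℕ) : Prop :=
  ∃ e ∈ Q L W M R ω, ∃ e' ∈ Q L W M R ω, e ≠ e' ∧ e.2 = e'.2

/-- From the root `a` a node over `f` is looked at. -/
def Reach (M : ℕ) (a f : α) (ω : Crd α → ℕ) : Prop :=
  ∃ p : Node α, p.1 = a ∧ Rel L W M ω p ∧ cur p = f

/-- The path half of part III: collisions and reached nodes are rare. -/
def PathsStmt : Prop :=
  ∃ C : ℕ, ∀ (α : Type) [DecidableEq α] (L : LH α) (W : Finset α) (M : ℕ) (u : ℝ),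
    2 ≤ u → u ^ 3 ≤ M → (∀ a ∈ W, (L.deg W a : ℝ) ≤ 2 * u) →
    (∀ a ∈ W, ∀ s, ∀ j, j ≤ M → L.surv W M j s a ≤ 2 / Real.sqrt (1 + 2 * u * j / M)) →
    (∑ a ∈ W, treeP L W M (Bad L W M {a}) ≤ L.collErr W M u C) ∧
      ∀ f ∈ W, ∑ a ∈ W, treeP L W M (Reach L W M a f) ≤ u ^ C

variable {L W}

theorem mem_edgesAt {p : Node α} {r : Finset α} :
    r ∈ edgesAt L W p ↔ r ≠ exc p ∧ r ∈ L.tris W ∧ cur p ∈ r := by
  simp [edgesAt, LH.star]

theorem edgesAt_root (a : α) : edgesAt L W (a, []) = L.star W a := by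
  refine Finset.erase_eq_of_notMem fun h => ?_
  simp [LH.star, exc] at h

theorem mem_of_edge {p : Node α} {r : Finset α} (hr : r ∈ edgesAt L W p) {x : α} (hx : x ∈ r) :
    x ∈ W := (LH.mem_tris.1 (mem_edgesAt.1 hr).2.1).2 hx

theorem valid_root {a : α} : Valid L W (a, []) ↔ a ∈ W := Iff.rfl

theorem valid_child {p : Node α} {r : Finset α} {x : α} :
    Valid L W (child p r x) ↔ Valid L W p ∧ r ∈ edgesAt L W p ∧ x ∈ r.erase (cur p) := Iff.rfl

theorem valid_cur_mem {p : Node α} (h : Valid L W p) : cur p ∈ W := by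
  obtain ⟨a, _ | ⟨⟨r, x⟩, l⟩⟩ := p
  · exact h
  · exact mem_of_edge h.2.1 (Finset.mem_of_mem_erase h.2.2)

theorem mem_nodes {k : ℕ} {p : Node α} : p ∈ nodes L W k ↔ Valid L W p ∧ p.2.length = k := by
  induction k generalizing p with
  | zero =>
    obtain ⟨a, l⟩ := p
    simp only [nodes, Finset.mem_image, Prod.mk.injEq, List.length_eq_zero_iff]
    constructor
    · rintro ⟨b, hb, rfl, rfl⟩; exact ⟨hb, rfl⟩
    · rintro ⟨h, rfl⟩; exact ⟨a, h, rfl, rfl⟩
  | succ k ih =>
    simp only [nodes, Finset.mem_biUnion, Finset.mem_image, ih]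
    constructor
    · rintro ⟨q, ⟨hq, hk⟩, r, hr, x, hx, rfl⟩
      exact ⟨valid_child.2 ⟨hq, hr, hx⟩, by simp [child, hk]⟩
    · obtain ⟨a, _ | ⟨⟨r, x⟩, l⟩⟩ := p
      · simp
      · rintro ⟨h, hk⟩
        exact ⟨(a, l), ⟨h.1, by simpa using hk⟩, r, h.2.1, x, h.2.2, rfl⟩

theorem mem_idx {M : ℕ} {e : Crd α} : e ∈ idx L W M ↔
    Valid L W e.1 ∧ e.2 ∈ edgesAt L W e.1 ∧ e.1.2.length ≤ 4 * M + 4 := by
  simp only [idx, Finset.mem_biUnion, Finset.mem_range, Finset.mem_image, mem_nodes]
  constructor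
  · rintro ⟨k, hk, p, ⟨hp, hpk⟩, r, hr, rfl⟩
    exact ⟨hp, hr, by dsimp only; omega⟩
  · rintro ⟨hp, hr, hl⟩
    exact ⟨e.1.2.length, by omega, e.1, ⟨hp, rfl⟩, e.2, hr, rfl⟩

theorem talive_iff {ω : Crd α → ℕ} {j : ℕ} {p : Node α} : talive L W ω j p ↔
    ∀ r ∈ edgesAt L W p, ω (p, r) < j →
      ¬ ∀ x ∈ r.erase (cur p), talive L W ω (ω (p, r)) (child p r x) := by
  rw [talive]

theorem aliveX_empty {ω : Crd α → ℕ} {j : ℕ} {p : Node α} :
    aliveX L W ∅ ω j p ↔ talive L W ω j p := by
  rw [talive_iff, aliveX, Finset.sdiff_empty]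

theorem talive_anti {ω : Crd α → ℕ} {i j : ℕ} (hij : i ≤ j) {p : Node α}
    (h : talive L W ω j p) : talive L W ω i p := by
  rw [talive_iff] at h ⊢
  exact fun r hr hlt => h r hr (hlt.trans_le hij)

theorem talive_zero (ω : Crd α → ℕ) (p : Node α) : talive L W ω 0 p := by
  rw [talive_iff]
  exact fun r _ h => absurd h (Nat.not_lt_zero _)

theorem talive_congr {ω ω' : Crd α → ℕ} :
    ∀ (j : ℕ) (p : Node α), (∀ e ∈ Below p, ω e = ω' e) →
      (talive L W ω j p ↔ talive L W ω' j p) := by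
  intro j
  induction j using Nat.strong_induction_on with
  | _ j ih =>
    intro p h
    rw [talive_iff, talive_iff]
    refine forall₂_congr fun r _ => ?_
    have he := h _ (self_mem_below p r)
    rw [← he]
    refine imp_congr_right fun hlt => not_congr (forall₂_congr fun x _ => ?_)
    exact ih _ hlt _ fun e hm => h e (below_child_subset p r x hm)

omit [DecidableEq α] in
theorem bound_child (M : ℕ) (ω : Crd α → ℕ) (p : Node α) (r : Finset α) (x : α) :
    bound M ω (child p r x) = ω (p, r) := rfl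

theorem both_child (ω : Crd α → ℕ) (p : Node α) (r : Finset α) (x : α) (t : ℕ) :
    Both L W ω (child p r x) t ↔ ∀ y ∈ r.erase (cur p), talive L W ω t (child p r y) := Iff.rfl

theorem both_anti {ω : Crd α → ℕ} {i j : ℕ} (hij : i ≤ j) {p : Node α}
    (h : Both L W ω p j) : Both L W ω p i := by
  obtain ⟨a, _ | ⟨⟨r, x⟩, l⟩⟩ := p
  · exact talive_anti hij h
  · exact fun y hy => talive_anti hij (h y hy)

theorem rel_child {M : ℕ} {ω : Crd α → ℕ} {p : Node α} {r : Finset α} {x : α} :
    Rel L W M ω (child p r x) ↔ Rel L W M ω p ∧ r ∈ edgesAt L W p ∧ x ∈ r.erase (cur p) ∧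
      ω (p, r) < bound M ω p ∧ Both L W ω p (ω (p, r)) := Iff.rfl

theorem rel_valid {M : ℕ} {ω : Crd α → ℕ} {p : Node α} (h : Rel L W M ω p) : Valid L W p := by
  obtain ⟨a, l⟩ := p
  induction l with
  | nil => exact h
  | cons s l ih => exact ⟨ih h.1, h.2.1, h.2.2.1⟩

theorem rel_length {M : ℕ} {ω : Crd α → ℕ} {p : Node α} (h : Rel L W M ω p) :
    p.2.length + bound M ω p ≤ M := by
  obtain ⟨a, l⟩ := p
  induction l with
  | nil => simp [bound]
  | cons s l ih =>
    obtain ⟨r, x⟩ := s
    have := ih h.1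
    have hlt := h.2.2.2.1
    simp only [bound, List.length_cons] at hlt this ⊢
    omega

theorem mem_Q {M : ℕ} {R : Finset α} {ω : Crd α → ℕ} {e : Crd α} : e ∈ Q L W M R ω ↔
    e.1.1 ∈ R ∧ Rel L W M ω e.1 ∧ e.2 ∈ edgesAt L W e.1 := by
  simp only [Q, Finset.mem_filter, mem_idx]
  constructor
  · exact fun h => ⟨h.2.1, h.2.2, h.1.2.1⟩
  · exact fun h => ⟨⟨rel_valid h.2.1, h.2.2, by have := rel_length h.2.1; omega⟩, h.1, h.2.1⟩

theorem Q_subset (M : ℕ) (R : Finset α) (ω : Crd α → ℕ) : Q L W M R ω ⊆ idx L W M := by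
  intro e he
  simp only [Q, Finset.mem_filter] at he
  exact he.1

theorem both_rel_talive {ω : Crd α → ℕ} {M : ℕ} {p : Node α} {t : ℕ} (hp : Rel L W M ω p)
    (h : Both L W ω p t) : talive L W ω t p := by
  obtain ⟨a, _ | ⟨⟨r, x⟩, l⟩⟩ := p
  · exact h
  · exact h x hp.2.2.1

/-- The nodes below the parent edge of a node looked at are looked at, with the same bound. -/
theorem both_iff {ω : Crd α → ℕ} {M : ℕ} {p : Node α} (hp : Rel L W M ω p) :
    ∃ kids : Finset (Node α), (∀ q ∈ kids, q.1 = p.1 ∧ Rel L W M ω q ∧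
      bound M ω q = bound M ω p ∧ ∀ t, Both L W ω q t ↔ Both L W ω p t) ∧
      ∀ (ω' : Crd α → ℕ) t, Both L W ω' p t ↔ ∀ q ∈ kids, talive L W ω' t q := by
  obtain ⟨a, _ | ⟨⟨r, x⟩, l⟩⟩ := p
  · refine ⟨{(a, [])}, fun q hq => ?_, fun ω' t => ?_⟩
    · rw [Finset.mem_singleton.1 hq]; exact ⟨rfl, hp, rfl, fun _ => Iff.rfl⟩
    · simp [Both]
  · refine ⟨(r.erase (cur (a, l))).image (child (a, l) r), fun q hq => ?_, fun ω' t => ?_⟩
    · obtain ⟨y, hy, rfl⟩ := Finset.mem_image.1 hq
      exact ⟨rfl, ⟨hp.1, hp.2.1, hy, hp.2.2.2⟩, rfl, fun _ => Iff.rfl⟩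
    · exact (Finset.forall_mem_image (p := fun q => talive L W ω' t q)).symm

/-- Stability: what is looked at decides the survival of everything looked at. -/
theorem both_stable {ω ω' : Crd α → ℕ} {M : ℕ} {R : Finset α}
    (h : ∀ e ∈ Q L W M R ω, ω' e = ω e) :
    ∀ i : ℕ, ∀ p, p.1 ∈ R → Rel L W M ω p → i ≤ bound M ω p →
      (Both L W ω' p i ↔ Both L W ω p i) := by
  intro i
  induction i using Nat.strong_induction_on with
  | _ i ih =>
    intro p hR hp hi
    by_cases hall : ∀ t < i, Both L W ω p t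
    · obtain ⟨kids, hk, hb⟩ := both_iff hp
      rw [hb ω' i, hb ω i]
      refine forall₂_congr fun q hq => ?_
      obtain ⟨hq1, hq2, hq3, hq4⟩ := hk q hq
      rw [talive_iff, talive_iff]
      refine forall₂_congr fun r hr => ?_
      have he : ω' (q, r) = ω (q, r) := h _ (mem_Q.2 ⟨hq1 ▸ hR, hq2, hr⟩)
      rw [he]
      refine imp_congr_right fun hlt => not_congr ?_
      by_cases hne : (r.erase (cur q)).Nonempty
      · obtain ⟨x, hx⟩ := hne
        have hc : Rel L W M ω (child q r x) :=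
          rel_child.2 ⟨hq2, hr, hx, by omega, (hq4 _).2 (hall _ hlt)⟩
        exact ih _ hlt (child q r x) (show q.1 ∈ R from hq1 ▸ hR) hc le_rfl
      · rw [Finset.not_nonempty_iff_eq_empty] at hne
        simp [hne]
    · push Not at hall
      obtain ⟨t, ht, hbt⟩ := hall
      refine iff_of_false (fun h' => hbt ?_) fun h' => hbt (both_anti ht.le h')
      exact (ih t ht p hR hp (ht.le.trans hi)).1 (both_anti ht.le h')

theorem bound_stable {ω ω' : Crd α → ℕ} {M : ℕ} {R : Finset α}
    (h : ∀ e ∈ Q L W M R ω, ω' e = ω e) {p : Node α} (hR : p.1 ∈ R) (hp : Rel L W M ω p) :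
    bound M ω' p = bound M ω p := by
  obtain ⟨a, _ | ⟨⟨r, x⟩, l⟩⟩ := p
  · rfl
  · exact h ((a, l), r) (mem_Q.2 ⟨hR, hp.1, hp.2.1⟩)

theorem rel_stable {ω ω' : Crd α → ℕ} {M : ℕ} {R : Finset α}
    (h : ∀ e ∈ Q L W M R ω, ω' e = ω e) {p : Node α} (hR : p.1 ∈ R) :
    Rel L W M ω' p ↔ Rel L W M ω p := by
  obtain ⟨a, l⟩ := p
  induction l with
  | nil => rfl
  | cons s l ih =>
    obtain ⟨r, x⟩ := s
    change _ ↔ Rel L W M ω (child (a, l) r x)
    change Rel L W M ω' (child (a, l) r x) ↔ _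
    rw [rel_child, rel_child, ih hR]
    refine and_congr_right fun hp => and_congr_right fun hr => and_congr_right fun _ => ?_
    have he : ω' ((a, l), r) = ω ((a, l), r) := h _ (mem_Q.2 ⟨hR, hp, hr⟩)
    rw [he, bound_stable h (p := (a, l)) hR hp]
    exact and_congr_right fun hlt => both_stable h _ (a, l) hR hp hlt.le

theorem Q_stable {ω ω' : Crd α → ℕ} {M : ℕ} {R : Finset α}
    (h : ∀ e ∈ Q L W M R ω, ω' e = ω e) : Q L W M R ω' = Q L W M R ω := by
  ext e
  simp only [mem_Q]
  exact and_congr_right fun hR => and_congr_left' (rel_stable h hR)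

theorem talive_stable {ω ω' : Crd α → ℕ} {M : ℕ} {R : Finset α}
    (h : ∀ e ∈ Q L W M R ω, ω' e = ω e) {a : α} (ha : a ∈ R) (hW : a ∈ W) :
    talive L W ω' M (a, []) ↔ talive L W ω M (a, []) :=
  both_stable h M (a, []) ha hW le_rfl

theorem depOn_talive (j : ℕ) (p : Node α) :
    DepOn (fun ω => talive L W ω j p) (Below p) :=
  fun _ _ h => propext (talive_congr j p h)

theorem depOn_aliveX (X : Finset (Finset α)) (j : ℕ) (p : Node α) :
    DepOn (fun ω => aliveX L W X ω j p) (Below p) := by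
  intro ω ω' h
  refine propext (forall₂_congr fun r _ => ?_)
  rw [← h _ (self_mem_below p r)]
  refine imp_congr_right fun _ => not_congr (forall₂_congr fun x _ => ?_)
  exact talive_congr _ _ fun e he => h e (below_child_subset p r x he)

theorem rel_root_dep {M : ℕ} {ω ω' : Crd α → ℕ} {p : Node α}
    (h : ∀ e ∈ Below ((p.1, []) : Node α), ω e = ω' e) : Rel L W M ω p ↔ Rel L W M ω' p := by
  refine (rel_stable (R := {p.1}) (fun e he => (h e ⟨?_, List.nil_suffix⟩).symm)
    (Finset.mem_singleton_self _)).symm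
  exact Finset.mem_singleton.1 (mem_Q.1 he).1

end P046.Tree
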