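import Vale.Agent.P046.Full.Tree

/-!
P046, part III: on the cover forest the survival probability is `surv`; segments of paths.
-/

namespace P046.Tree

open Finset

variable {α : Type} [DecidableEq α] {L : LH α} {W : Finset α} {M : ℕ}

theorem surv_eq (j : ℕ) (s : Finset α) (a : α) : L.surv W M j s a
    = ∏ r ∈ (L.star W a).erase s,
        (1 - (∑ i : Fin j, ∏ b ∈ r.erase a, L.surv W M i.1 r b) / M) := by
  rw [LH.surv]

theorem surv_mem_unit : ∀ (j : ℕ), j ≤ M → ∀ (s : Finset α) (a : α),
    0 ≤ L.surv W M j s a ∧ L.surv W M j s a ≤ 1 := by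
  intro j
  induction j using Nat.strong_induction_on with
  | _ j ih =>
    intro hj s a
    rw [surv_eq]
    have hf : ∀ r : Finset α,
        0 ≤ 1 - (∑ i : Fin j, ∏ b ∈ r.erase a, L.surv W M i.1 r b) / M ∧
          1 - (∑ i : Fin j, ∏ b ∈ r.erase a, L.surv W M i.1 r b) / M ≤ 1 := by
      intro r
      have h0 : ∀ i : Fin j, ∀ b, 0 ≤ L.surv W M i.1 r b ∧ L.surv W M i.1 r b ≤ 1 :=
        fun i b => ih i i.2 (by omega) r b
      have h1 : 0 ≤ ∑ i : Fin j, ∏ b ∈ r.erase a, L.surv W M i.1 r b :=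
        Finset.sum_nonneg fun i _ => Finset.prod_nonneg fun b _ => (h0 i b).1
      have h2 : ∑ i : Fin j, ∏ b ∈ r.erase a, L.surv W M i.1 r b ≤ M := by
        refine (Finset.sum_le_card_nsmul _ _ 1 fun i _ =>
          Finset.prod_le_one (fun b _ => (h0 i b).1) fun b _ => (h0 i b).2).trans ?_
        simp [hj]
      refine ⟨?_, ?_⟩
      · linarith [div_le_one_of_le₀ h2 (Nat.cast_nonneg M)]
      · linarith [div_nonneg h1 (Nat.cast_nonneg M)]
    exact ⟨Finset.prod_nonneg fun r _ => (hf r).1,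
      Finset.prod_le_one (fun r _ => (hf r).1) fun r _ => (hf r).2⟩

/-- The coordinates behind the edge `r` at `p`. -/
def Behind (p : Node α) (r : Finset α) : Set (Crd α) :=
  {e | e = (p, r) ∨ ∃ x, e ∈ Below (child p r x)}

omit [DecidableEq α] in
theorem behind_disjoint {p : Node α} {r r' : Finset α} (h : r ≠ r') {e : Crd α}
    (he : e ∈ Behind p r) : e ∉ Behind p r' := by
  rintro (rfl | ⟨x', hx'⟩)
  · rcases he with he | ⟨x, hx⟩
    · exact h (congrArg Prod.snd he).symm
    · exact self_notMem_below_child p r r' x hx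
  · rcases he with rfl | ⟨x, hx⟩
    · exact self_notMem_below_child p r' r x' hx'
    · exact h (below_child_inj hx hx').1

omit [DecidableEq α] in
theorem behind_subset (p : Node α) (r : Finset α) : Behind p r ⊆ Below p := by
  rintro e (rfl | ⟨x, hx⟩)
  · exact self_mem_below p r
  · exact below_child_subset p r x hx

theorem prob_single (hM : 0 < M) {e : Crd α} (he : e ∈ idx L W M) {i : ℕ} (hi : i < M) :
    treeP L W M (fun ω => ω e = i) = 1 / (M : ℝ) := by
  unfold treeP prob
  rw [avgF_coord hM he (fun x => ind (x = i))]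
  congr 1
  rw [Fintype.sum_eq_single (⟨i, hi⟩ : Fin M) fun k hk => ind_false fun h => hk (Fin.ext h)]
  exact ind_true rfl

theorem aliveX_prod (X : Finset (Finset α)) (j : ℕ) (p : Node α) (ω : Crd α → ℕ) :
    ind (aliveX L W X ω j p) = ∏ r ∈ edgesAt L W p \ X,
      (1 - ∑ i : Fin j, ind (ω (p, r) = i) *
        ∏ x ∈ r.erase (cur p), ind (talive L W ω i (child p r x))) := by
  rw [aliveX, ind_forall]
  refine Finset.prod_congr rfl fun r _ => ?_
  by_cases h : ω (p, r) < j
  · rw [ind_congr (show (ω (p, r) < j → _) ↔ _ from ⟨fun f => f h, fun f _ => f⟩), ind_not,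
      ind_forall, Finset.sum_eq_single (⟨ω (p, r), h⟩ : Fin j)]
    · rw [ind_true rfl, one_mul]
    · intro i _ hi
      rw [ind_false fun he => hi (Fin.ext he.symm), zero_mul]
    · simp
  · have hz : ∀ i : Fin j, ω (p, r) ≠ i := fun i he => h (by rw [he]; exact i.2)
    rw [ind_true fun hlt => absurd hlt h, Finset.sum_eq_zero fun i _ => by
      rw [ind_false (hz i), zero_mul], sub_zero]

theorem depOn_factor (j : ℕ) (p : Node α) (r : Finset α) :
    DepOn (fun ω : Crd α → ℕ => 1 - ∑ i : Fin j, ind (ω (p, r) = i) *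
      ∏ x ∈ r.erase (cur p), ind (talive L W ω i (child p r x))) (Behind p r) := by
  intro ω ω' h
  simp only [h _ (Or.inl rfl)]
  congr 1
  refine Finset.sum_congr rfl fun i _ => ?_
  congr 1
  exact Finset.prod_congr rfl fun x _ =>
    ind_congr (talive_congr _ _ fun e he => h e (Or.inr ⟨x, he⟩))

theorem avgF_aliveX (hM : 0 < M) : ∀ (j : ℕ), j ≤ M → ∀ (X : Finset (Finset α)) (p : Node α),
    Valid L W p → p.2.length + j ≤ 4 * M + 4 →
      treeP L W M (fun ω => aliveX L W X ω j p)
        = ∏ r ∈ edgesAt L W p \ X,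
            (1 - (∑ i : Fin j, ∏ b ∈ r.erase (cur p), L.surv W M i.1 r b) / M) := by
  intro j
  induction j using Nat.strong_induction_on with
  | _ j ih =>
    intro hj X p hp hlen
    have htal : ∀ i < j, ∀ q : Node α, Valid L W q → q.2.length + i ≤ 4 * M + 4 →
        treeP L W M (fun ω => talive L W ω i q) = L.surv W M i (exc q) (cur q) := by
      intro i hi q hq hql
      have := ih i hi (by omega) ∅ q hq hql
      simp only [aliveX_empty, Finset.sdiff_empty] at this
      rw [this, surv_eq]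
      rfl
    unfold treeP prob
    simp only [aliveX_prod]
    rw [avgF_prod hM _ (S := Behind p) (fun r _ => depOn_factor j p r)
      (fun r _ r' _ hne e he => behind_disjoint hne he)]
    refine Finset.prod_congr rfl fun r hr => ?_
    have hr' := (Finset.mem_sdiff.1 hr).1
    rw [avgF_sub, avgF_const hM, avgF_sum, Finset.sum_div]
    congr 1
    refine Finset.sum_congr rfl fun i _ => ?_
    have hI : (p, r) ∈ idx L W M := mem_idx.2 ⟨hp, hr', by show p.2.length ≤ _; omega⟩
    rw [avgF_mul hM (S := {(p, r)}) (fun ω ω' h => by rw [h _ rfl]) fun ω ω' h => by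
      refine Finset.prod_congr rfl fun x _ => ind_congr (talive_congr _ _ fun e he => h e ?_)
      rintro rfl
      exact self_notMem_below_child p r r x he]
    rw [avgF_prod hM _ (F := fun x ω => ind (talive L W ω i (child p r x)))
      (S := fun x => Below (child p r x))
      (fun x _ ω ω' h => ind_congr (talive_congr _ _ h))
      (fun x _ x' _ hne e he he' => hne (below_child_inj he he').2)]
    rw [show avgF (idx L W M) M (fun ω => ind (ω (p, r) = (i : ℕ))) = 1 / (M : ℝ) from
      prob_single hM hI (by omega), one_div_mul_eq_div]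
    congr 1
    refine Finset.prod_congr rfl fun x hx => ?_
    refine (htal i i.2 (child p r x) (valid_child.2 ⟨hp, hr', hx⟩) ?_).trans (by simp)
    have := i.2
    simp only [child, List.length_cons]
    omega

theorem treeP_talive (hM : 0 < M) {j : ℕ} (hj : j ≤ M) {p : Node α} (hp : Valid L W p)
    (hlen : p.2.length + j ≤ 4 * M + 4) :
    treeP L W M (fun ω => talive L W ω j p) = L.surv W M j (exc p) (cur p) := by
  have := avgF_aliveX hM j hj ∅ p hp hlen
  simp only [aliveX_empty, Finset.sdiff_empty] at this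
  rw [this, surv_eq]
  rfl

/-- The standing hypotheses of part III. -/
structure Hyp (L : LH α) (W : Finset α) (M : ℕ) (u : ℝ) : Prop where
  two_le : 2 ≤ u
  cube_le : u ^ 3 ≤ M
  deg_le : ∀ a ∈ W, (L.deg W a : ℝ) ≤ 2 * u
  surv_le : ∀ a ∈ W, ∀ s, ∀ j, j ≤ M → L.surv W M j s a ≤ 2 / Real.sqrt (1 + 2 * u * j / M)

namespace Hyp

variable {u : ℝ} (h : Hyp L W M u)

include h in
theorem u_pos : 0 < u := by linarith [h.two_le]

include h in
theorem eight_le : 8 ≤ M := by
  have h1 : (8 : ℝ) ≤ M := le_trans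
    (le_trans (by norm_num) (pow_le_pow_left₀ (by norm_num) h.two_le 3)) h.cube_le
  exact_mod_cast h1

include h in
theorem M_pos : 0 < M := by have := h.eight_le; omega

include h in
theorem pair_le {r : Finset α} (hr : r ∈ L.tris W) {a : α} (ha : a ∈ r) {i : ℕ} (hi : i ≤ M) :
    ∏ b ∈ r.erase a, L.surv W M i r b ≤ 4 / (1 + 2 * u * i / M) := by
  have hu := h.u_pos
  have hpos : (0 : ℝ) < 1 + 2 * u * i / M := by positivity
  refine (Finset.prod_le_prod (fun b _ => (surv_mem_unit i hi r b).1)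
    (fun b hb => h.surv_le b ((LH.mem_tris.1 hr).2 (Finset.mem_of_mem_erase hb)) r i hi)).trans ?_
  rw [Finset.prod_const, Finset.card_erase_of_mem ha, LH.card_tri hr, div_pow,
    Real.sq_sqrt hpos.le]
  norm_num

include h in
theorem factor_ge {r : Finset α} (hr : r ∈ L.tris W) {a : α} (ha : a ∈ r) {j : ℕ} (hj : j ≤ M) :
    1 / 144 ≤ 1 - (∑ i : Fin j, ∏ b ∈ r.erase a, L.surv W M i.1 r b) / M := by
  classical
  have hu := h.two_le
  have hMR : (0 : ℝ) < M := by exact_mod_cast h.M_pos
  let g : ℕ → ℝ := fun i => ∏ b ∈ r.erase a, L.surv W M i r b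
  have hg0 : ∀ i ≤ M, 0 ≤ g i := fun i hi => Finset.prod_nonneg fun b _ => (surv_mem_unit i hi r b).1
  have hg : ∀ i ∈ Finset.range M,
      g i ≤ 1 - (if M - M / 8 ≤ i then (1 / 9 : ℝ) else 0) := by
    intro i hi
    have hi' : i ≤ M := (Finset.mem_range.1 hi).le
    split
    · refine (h.pair_le hr ha hi').trans ?_
      have h7 : (7 / 8 : ℝ) * M ≤ i := by
        have : 7 * M ≤ 8 * i := by omega
        have : (7 : ℝ) * M ≤ 8 * i := by exact_mod_cast this
        linarith
      have h8 : 7 / 8 ≤ (i : ℝ) / M := (le_div_iff₀ hMR).2 h7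
      have h9 : 2 * u * i / M = 2 * u * (i / M) := by ring
      rw [h9, div_le_iff₀ (by positivity)]
      nlinarith
    · rw [sub_zero]
      exact Finset.prod_le_one (fun b _ => (surv_mem_unit i hi' r b).1)
        fun b _ => (surv_mem_unit i hi' r b).2
  have h1 : (∑ i : Fin j, g i) ≤ ∑ i ∈ Finset.range M, g i := by
    rw [Fin.sum_univ_eq_sum_range]
    exact Finset.sum_le_sum_of_subset_of_nonneg (Finset.range_mono hj)
      fun i hi _ => hg0 i (Finset.mem_range.1 hi).le
  have hfil : (Finset.range M).filter (fun i => M - M / 8 ≤ i) = Finset.Ico (M - M / 8) M := by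
    ext i; simp only [Finset.mem_filter, Finset.mem_range, Finset.mem_Ico]; omega
  have h2 := h1.trans (Finset.sum_le_sum hg)
  rw [Finset.sum_sub_distrib, Finset.sum_const, Finset.card_range, nsmul_eq_mul, mul_one,
    ← Finset.sum_filter, hfil, Finset.sum_const, Nat.card_Ico, nsmul_eq_mul] at h2
  have h3 : (M : ℝ) ≤ 16 * ((M - (M - M / 8) : ℕ) : ℝ) := by
    have := h.eight_le
    have : M ≤ 16 * (M - (M - M / 8)) := by omega
    exact_mod_cast this
  have h4 : (∑ i : Fin j, g i) / M ≤ 1 - 1 / 144 := by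
    rw [div_le_iff₀ hMR]; nlinarith
  show 1 / 144 ≤ 1 - (∑ i : Fin j, g i) / M
  linarith

include h in
theorem aliveX_le {X : Finset (Finset α)} {p : Node α} (hp : Valid L W p) {j : ℕ} (hj : j ≤ M)
    (hlen : p.2.length + j ≤ 4 * M + 4) :
    treeP L W M (fun ω => aliveX L W X ω j p)
      ≤ 144 ^ X.card * (2 / Real.sqrt (1 + 2 * u * j / M)) := by
  let F : Finset α → ℝ := fun r =>
    1 - (∑ i : Fin j, ∏ b ∈ r.erase (cur p), L.surv W M i.1 r b) / M
  have hFge : ∀ r ∈ edgesAt L W p, 1 / 144 ≤ F r := fun r hr =>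
    h.factor_ge (mem_edgesAt.1 hr).2.1 (mem_edgesAt.1 hr).2.2 hj
  rw [avgF_aliveX h.M_pos j hj X p hp hlen]
  show ∏ r ∈ edgesAt L W p \ X, F r ≤ _
  have hs : L.surv W M j (exc p) (cur p)
      = (∏ r ∈ edgesAt L W p \ X, F r) * ∏ r ∈ edgesAt L W p ∩ X, F r := by
    rw [surv_eq, ← Finset.prod_union (Finset.disjoint_sdiff_inter _ _),
      Finset.sdiff_union_inter]
    rfl
  have h2 : (1 / 144 : ℝ) ^ X.card ≤ ∏ r ∈ edgesAt L W p ∩ X, F r := by
    refine le_trans ?_ (Finset.prod_le_prod (f := fun _ => (1 / 144 : ℝ))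
      (fun _ _ => by norm_num) fun r hr => hFge r (Finset.mem_inter.1 hr).1)
    rw [Finset.prod_const]
    exact pow_le_pow_of_le_one (by norm_num) (by norm_num)
      (Finset.card_le_card Finset.inter_subset_right)
  have h3 : 0 ≤ ∏ r ∈ edgesAt L W p \ X, F r :=
    Finset.prod_nonneg fun r hr => le_trans (by norm_num) (hFge r (Finset.mem_sdiff.1 hr).1)
  calc ∏ r ∈ edgesAt L W p \ X, F r
      = 144 ^ X.card * ((∏ r ∈ edgesAt L W p \ X, F r) * (1 / 144 : ℝ) ^ X.card) := by
        rw [div_pow, one_pow]; field_simp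
    _ ≤ 144 ^ X.card * L.surv W M j (exc p) (cur p) := by
        rw [hs]; gcongr
    _ ≤ _ := by
        gcongr
        exact h.surv_le _ (valid_cur_mem hp) _ j hj

end Hyp

end P046.Tree
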