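import Vale.Agent.P046.Full.Defs
import Vale.Agent.P046.Count

/-!
P046, part III: the algebra of non-backtracking walks in a linear 3-uniform hypergraph.

An oriented step is a triple `(a, r, b)`: from the node `a` through the edge `r` to the node `b`.
`Bm` is the non-backtracking matrix, `Jm` the reversal, `Sm` relates steps with the same edge and
head. Everything that comes out of two colliding explorations is bounded by the traces of `Bm ^ l`
and of `Jm * Bm ^ l`, and the latter by the former.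
-/

namespace P046

open Finset Matrix

variable {α : Type} [DecidableEq α] (L : LH α) (W : Finset α)

namespace LH

/-- The oriented steps. -/
def steps : Finset (α × Finset α × α) :=
  (W ×ˢ (L.tris W ×ˢ W)).filter fun e => e.1 ∈ e.2.1 ∧ e.2.2 ∈ e.2.1 ∧ e.1 ≠ e.2.2

/-- The type of oriented steps. -/
abbrev St := ↥(L.steps W)

variable {L W}

theorem mem_steps {e : α × Finset α × α} :
    e ∈ L.steps W ↔ e.2.1 ∈ L.tris W ∧ e.1 ∈ e.2.1 ∧ e.2.2 ∈ e.2.1 ∧ e.1 ≠ e.2.2 := by
  simp only [steps, Finset.mem_filter, Finset.mem_product]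
  exact ⟨fun h => ⟨h.1.2.1, h.2⟩,
    fun h => ⟨⟨(mem_tris.1 h.1).2 h.2.1, h.1, (mem_tris.1 h.1).2 h.2.2.1⟩, h.2⟩⟩

/-- The tail of a step. -/
def St.tl (e : L.St W) : α := e.1.1
/-- The edge of a step. -/
def St.tri (e : L.St W) : Finset α := e.1.2.1
/-- The head of a step. -/
def St.hd (e : L.St W) : α := e.1.2.2

theorem St.prop (e : L.St W) :
    e.tri ∈ L.tris W ∧ e.tl ∈ e.tri ∧ e.hd ∈ e.tri ∧ e.tl ≠ e.hd := mem_steps.1 e.2

theorem St.ext' {e f : L.St W} (h1 : e.tl = f.tl) (h2 : e.tri = f.tri) (h3 : e.hd = f.hd) :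
    e = f := Subtype.ext (Prod.ext h1 (Prod.ext h2 h3))

/-- Three nodes of an edge. -/
theorem tri_third {r : Finset α} (hr : r ∈ L.tris W) {a b c d : α} (ha : a ∈ r) (hb : b ∈ r)
    (hc : c ∈ r) (hd : d ∈ r) (hab : a ≠ b) (hca : c ≠ a) (hcb : c ≠ b) (hda : d ≠ a)
    (hdb : d ≠ b) : c = d := by
  by_contra hcd
  have h4 : ({a, b, c, d} : Finset α) ⊆ r := by
    intro x hx
    simp only [Finset.mem_insert, Finset.mem_singleton] at hx
    rcases hx with rfl | rfl | rfl | rfl <;> assumption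
  have := Finset.card_le_card h4
  rw [card_tri hr, Finset.card_insert_of_notMem, Finset.card_insert_of_notMem,
    Finset.card_insert_of_notMem, Finset.card_singleton] at this
  · omega
  · simpa using hcd
  · simp [Ne.symm hcb, Ne.symm hdb]
  · simp [hab, Ne.symm hca, Ne.symm hda]

/-- The reversed step. -/
def St.rev (e : L.St W) : L.St W :=
  ⟨(e.hd, e.tri, e.tl), mem_steps.2 ⟨e.prop.1, e.prop.2.2.1, e.prop.2.1, e.prop.2.2.2.symm⟩⟩

@[simp] theorem St.rev_tl (e : L.St W) : e.rev.tl = e.hd := rfl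
@[simp] theorem St.rev_hd (e : L.St W) : e.rev.hd = e.tl := rfl
@[simp] theorem St.rev_tri (e : L.St W) : e.rev.tri = e.tri := rfl
@[simp] theorem St.rev_rev (e : L.St W) : e.rev.rev = e := rfl

theorem St.rev_ne (e : L.St W) : e.rev ≠ e := fun h =>
  e.prop.2.2.2 (congrArg St.hd h)

variable (L W)

/-- The non-backtracking matrix. -/
def Bm : Matrix (L.St W) (L.St W) ℝ :=
  fun e f => if e.hd = f.tl ∧ e.tri ≠ f.tri then 1 else 0

/-- The reversal matrix. -/
def Jm : Matrix (L.St W) (L.St W) ℝ := fun e f => if f = e.rev then 1 else 0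

/-- Same edge and head, another tail. -/
def Sm : Matrix (L.St W) (L.St W) ℝ :=
  fun e f => if e.tri = f.tri ∧ e.hd = f.hd ∧ e ≠ f then 1 else 0

/-- Closed non-backtracking walks. -/
noncomputable def tw (l : ℕ) : ℝ := Matrix.trace (L.Bm W ^ l)

/-- Walks returning through the reversed first step. -/
noncomputable def vw (l : ℕ) : ℝ := Matrix.trace (L.Jm W * L.Bm W ^ l)

variable {L W}

/-- Entrywise order. -/
def MLe (A B : Matrix (L.St W) (L.St W) ℝ) : Prop := ∀ e f, A e f ≤ B e f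

theorem mul_nn {A B : Matrix (L.St W) (L.St W) ℝ} (hA : MLe 0 A) (hB : MLe 0 B) :
    MLe 0 (A * B) := fun e f => by
  rw [Matrix.mul_apply]
  exact Finset.sum_nonneg fun c _ => mul_nonneg (hA e c) (hB c f)

theorem mul_mono {A A' B B' : Matrix (L.St W) (L.St W) ℝ} (hA : MLe A A') (hB : MLe B B')
    (h0 : MLe 0 B) (h0' : MLe 0 A') : MLe (A * B) (A' * B') := fun e f => by
  rw [Matrix.mul_apply, Matrix.mul_apply]
  exact Finset.sum_le_sum fun c _ => mul_le_mul (hA e c) (hB c f) (h0 c f) (h0' e c)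

theorem mle_rfl {A : Matrix (L.St W) (L.St W) ℝ} : MLe A A := fun _ _ => le_rfl

theorem trace_mono {A B : Matrix (L.St W) (L.St W) ℝ} (h : MLe A B) :
    Matrix.trace A ≤ Matrix.trace B := Finset.sum_le_sum fun e _ => h e e

theorem Bm_nn : MLe (L := L) (W := W) 0 (L.Bm W) := fun e f => by
  simp only [Bm, Matrix.zero_apply]; split_ifs <;> norm_num

theorem Jm_nn : MLe (L := L) (W := W) 0 (L.Jm W) := fun e f => by
  simp only [Jm, Matrix.zero_apply]; split_ifs <;> norm_num

theorem Sm_nn : MLe (L := L) (W := W) 0 (L.Sm W) := fun e f => by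
  simp only [Sm, Matrix.zero_apply]; split_ifs <;> norm_num

theorem pow_nn (l : ℕ) : MLe (L := L) (W := W) 0 (L.Bm W ^ l) := by
  induction l with
  | zero =>
    intro e f; simp only [pow_zero, Matrix.zero_apply, Matrix.one_apply]; split_ifs <;> norm_num
  | succ l ih => rw [pow_succ]; exact mul_nn ih Bm_nn

theorem Jm_mul (A : Matrix (L.St W) (L.St W) ℝ) (e f : L.St W) :
    (L.Jm W * A) e f = A e.rev f := by
  simp [Matrix.mul_apply, Jm]

theorem mul_Jm (A : Matrix (L.St W) (L.St W) ℝ) (e f : L.St W) :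
    (A * L.Jm W) e f = A e f.rev := by
  rw [Matrix.mul_apply, Finset.sum_eq_single f.rev]
  · simp [Jm]
  · intro c _ hc
    rw [Jm, if_neg fun h => hc (by rw [h, St.rev_rev]), mul_zero]
  · simp

theorem Jm_Jm : L.Jm W * L.Jm W = 1 := by
  ext e f
  rw [mul_Jm, Jm, Matrix.one_apply]
  by_cases h : e = f
  · subst h; simp
  · rw [if_neg h, if_neg fun h' => h ?_]
    simpa using (congrArg St.rev h').symm

theorem Bm_transpose : (L.Bm W).transpose = L.Jm W * L.Bm W * L.Jm W := by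
  ext e f
  rw [mul_Jm, Jm_mul, Matrix.transpose_apply]
  simp only [Bm, St.rev_hd, St.rev_tl, St.rev_tri]
  refine if_congr ⟨fun h => ⟨h.1.symm, h.2.symm⟩, fun h => ⟨h.1.symm, h.2.symm⟩⟩ rfl rfl

theorem pow_transpose (q : ℕ) :
    (L.Bm W ^ q).transpose = L.Jm W * L.Bm W ^ q * L.Jm W := by
  induction q with
  | zero => rw [pow_zero, Matrix.transpose_one, mul_one, Jm_Jm]
  | succ q ih =>
    rw [pow_succ, Matrix.transpose_mul, ih, Bm_transpose, ← pow_succ, pow_succ']
    simp only [mul_assoc]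
    rw [← mul_assoc (L.Jm W) (L.Jm W) (L.Bm W ^ q * L.Jm W), Jm_Jm, one_mul]

theorem sum_row_le {u : ℝ} (hdeg : ∀ a ∈ W, (L.deg W a : ℝ) ≤ 2 * u) (e : L.St W) :
    ∑ c, L.Bm W e c ≤ 4 * u := by
  have hb : e.hd ∈ W := (mem_tris.1 e.prop.1).2 e.prop.2.2.1
  simp only [Bm, Finset.sum_boole]
  set S := Finset.univ.filter fun c : L.St W => e.hd = c.tl ∧ e.tri ≠ c.tri
  have h1 : S.card ≤ ((L.star W e.hd).sigma fun r => r.erase e.hd).card := by
    refine Finset.card_le_card_of_injOn (fun c => ⟨c.tri, c.hd⟩) (fun c hc => ?_) ?_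
    · simp only [S, Finset.coe_filter, Finset.mem_univ, true_and, Set.mem_ofPred_eq] at hc
      simp only [Finset.mem_coe, Finset.mem_sigma, star, Finset.mem_filter, Finset.mem_erase]
      exact ⟨⟨c.prop.1, hc.1 ▸ c.prop.2.1⟩, hc.1 ▸ c.prop.2.2.2.symm, c.prop.2.2.1⟩
    · intro c hc d hd h
      simp only [S, Finset.coe_filter, Finset.mem_univ, true_and, Set.mem_ofPred_eq] at hc hd
      simp only [Sigma.mk.injEq, heq_eq_eq] at h
      exact St.ext' (hc.1.symm.trans hd.1) h.1 h.2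
  have h2 : ((L.star W e.hd).sigma fun r => r.erase e.hd).card = 2 * L.deg W e.hd := by
    rw [Finset.card_sigma, Finset.sum_congr rfl fun r hr => by
      rw [Finset.card_erase_of_mem (Finset.mem_filter.1 hr).2, card_tri (Finset.mem_filter.1 hr).1],
      Finset.sum_const, smul_eq_mul, deg_eq, mul_comm]
  have h3 : (S.card : ℝ) ≤ 2 * L.deg W e.hd := by exact_mod_cast h2 ▸ h1
  linarith [hdeg _ hb]

/-- Two walks into the same step. -/
theorem mul_transpose_le {u : ℝ} (hu : 1 ≤ u) (hdeg : ∀ a ∈ W, (L.deg W a : ℝ) ≤ 2 * u) :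
    MLe (L.Bm W * (L.Bm W).transpose)
      ((4 * u) • (1 + L.Sm W + L.Bm W * L.Jm W)) := by
  intro e f
  rw [Matrix.smul_apply, Matrix.add_apply, Matrix.add_apply, mul_Jm, smul_eq_mul,
    Matrix.mul_apply]
  have h0 : ∀ g h, 0 ≤ L.Sm W g h := fun g h => Sm_nn g h
  have h0' : ∀ g h, 0 ≤ L.Bm W g h := fun g h => Bm_nn g h
  have hone : (0 : ℝ) ≤ (1 : Matrix (L.St W) (L.St W) ℝ) e f := by
    rw [Matrix.one_apply]; split_ifs <;> norm_num
  by_cases hh : e.hd = f.hd
  · refine le_trans (Finset.sum_le_sum fun c _ => ?_) ((sum_row_le hdeg e).trans ?_)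
    · refine mul_le_of_le_one_right (h0' e c) ?_
      simp only [Matrix.transpose_apply, Bm]; split_ifs <;> norm_num
    · refine le_mul_of_one_le_right (by linarith) ?_
      by_cases hef : e = f
      · rw [hef, Matrix.one_apply_eq]; linarith [h0 f f, h0' f f.rev]
      · by_cases hr : e.tri = f.tri
        · have : L.Sm W e f = 1 := if_pos ⟨hr, hh, hef⟩
          linarith [h0' e f.rev]
        · have : L.Bm W e f.rev = 1 := if_pos ⟨by simpa using hh, by simpa using hr⟩
          linarith [h0 e f]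
  · refine le_trans (le_of_eq (Finset.sum_eq_zero fun c _ => ?_))
      (mul_nonneg (by linarith) (by linarith [h0 e f, h0' e f.rev]))
    simp only [Matrix.transpose_apply, Bm]
    split_ifs with h1 h2 <;> simp_all

/-- A walk that turns inside an edge takes the short step. -/
theorem Bm_SJ_Bm_le :
    MLe (L.Bm W * (L.Sm W * L.Jm W) * L.Bm W) (L.Bm W * L.Bm W) := by
  intro e f
  have hS : ∀ c d, (L.Sm W * L.Jm W) c d
      = if c.tri = d.tri ∧ c.hd = d.tl ∧ c ≠ d.rev then 1 else 0 := fun c d => mul_Jm _ c d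
  simp only [Matrix.mul_apply (M := L.Bm W * (L.Sm W * L.Jm W)),
    Matrix.mul_apply (M := L.Bm W) (N := L.Bm W),
    Matrix.mul_apply (M := L.Bm W) (N := L.Sm W * L.Jm W), hS, Finset.sum_mul]
  rw [← Finset.sum_product']
  simp only [Bm, mul_ite, mul_one, mul_zero, ← ite_and, Finset.sum_boole]
  rw [Nat.cast_le]
  have key : ∀ p : L.St W × L.St W, p.2.tri = p.1.tri ∧ p.1.hd = p.2.tl ∧ p.2 ≠ p.1.rev →
      p.1.tl ≠ p.2.hd := by
    rintro ⟨d, c⟩ ⟨h1, h2, h3⟩ h4
    exact h3 (St.ext' h2.symm (by simpa using h1) h4.symm)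
  refine Finset.card_le_card_of_injOn (fun p => if h : p.2.tl ≠ p.1.hd ∧ p.2.tri = p.1.tri then
      ⟨(p.2.tl, p.2.tri, p.1.hd), mem_steps.2
        ⟨p.2.prop.1, p.2.prop.2.1, h.2 ▸ p.1.prop.2.2.1, h.1⟩⟩ else p.1) ?_ ?_
  · rintro ⟨d, c⟩ hp
    simp only [Finset.coe_filter, Finset.mem_product, Finset.mem_univ, true_and,
      Set.mem_ofPred_eq] at hp ⊢
    have hne : c.tl ≠ d.hd := by
      intro h
      have h1 : c.tri = d.tri := by tauto
      have h2 : c.hd = d.tl := by tauto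
      have h3 : c ≠ d.rev := by tauto
      exact h3 (St.ext' h h1 h2)
    have h1 : c.tri = d.tri := by tauto
    rw [dif_pos ⟨hne, h1⟩]
    simp only [St.tl, St.tri, St.hd] at hp h1 hne ⊢
    rw [h1]
    grind
  · rintro ⟨d, c⟩ hp ⟨d', c'⟩ hp' h
    simp only [Finset.coe_filter, Finset.mem_product, Finset.mem_univ, true_and,
      Set.mem_ofPred_eq] at hp hp'
    have a : ∀ d c : L.St W, c.tri = d.tri → c.hd = d.tl → c ≠ d.rev → c.tl ≠ d.hd :=
      fun d c h1 h2 h3 h4 => h3 (St.ext' h4 h1 h2)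
    have h1 : c.tri = d.tri := by tauto
    have h2 : c.hd = d.tl := by tauto
    have h3 : c ≠ d.rev := by tauto
    have h1' : c'.tri = d'.tri := by tauto
    have h2' : c'.hd = d'.tl := by tauto
    have h3' : c' ≠ d'.rev := by tauto
    simp only [dif_pos (And.intro (a _ _ h1 h2 h3) h1),
      dif_pos (And.intro (a _ _ h1' h2' h3') h1'), Subtype.mk.injEq, Prod.mk.injEq] at h
    obtain ⟨q1, q2, q3⟩ := h
    have hm : c.hd = c'.hd := tri_third c.prop.1 c.prop.2.1 (h1 ▸ d.prop.2.2.1) c.prop.2.2.1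
      (q2 ▸ c'.prop.2.2.1) (a _ _ h1 h2 h3) c.prop.2.2.2.symm
      (fun e => d.prop.2.2.2 (h2.symm.trans e)) (q1 ▸ c'.prop.2.2.2.symm)
      (fun e => d'.prop.2.2.2 (h2'.symm.trans (e.trans q3)))
    exact Prod.ext (St.ext' (h2.symm.trans (hm.trans h2')) (h1.symm.trans (q2.trans h1')) q3)
      (St.ext' q1 q2 hm)

/-- A step is determined by a step with the same edge and head. -/
theorem Sm_Bm_le : MLe (L.Sm W * L.Bm W) (L.Bm W) := by
  intro e c
  rw [Matrix.mul_apply]
  simp only [Sm, Bm, ite_mul, one_mul, zero_mul, ← ite_and, Finset.sum_boole]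
  split_ifs with h
  · rw [Nat.cast_le_one, Finset.card_le_one]
    intro f hf g hg
    simp only [Finset.mem_filter, Finset.mem_univ, true_and] at hf hg
    obtain ⟨⟨f1, f2, f3⟩, -⟩ := hf
    obtain ⟨⟨g1, g2, g3⟩, -⟩ := hg
    have hf' : f.tl ≠ e.tl := fun h' => f3 (St.ext' h'.symm f1 f2)
    have hg' : g.tl ≠ e.tl := fun h' => g3 (St.ext' h'.symm g1 g2)
    exact St.ext' (tri_third e.prop.1 e.prop.2.1 e.prop.2.2.1 (f1 ▸ f.prop.2.1) (g1 ▸ g.prop.2.1)
      e.prop.2.2.2 hf' (f2 ▸ f.prop.2.2.2) hg' (g2 ▸ g.prop.2.2.2))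
      (f1.symm.trans g1) (f2.symm.trans g2)
  · rw [Nat.cast_nonpos, Finset.card_eq_zero, Finset.filter_eq_empty_iff]
    rintro f - ⟨⟨f1, f2, -⟩, f4, f5⟩
    exact h ⟨f2.trans f4, f1 ▸ f5⟩

theorem trace_pow_S_le (m : ℕ) :
    Matrix.trace (L.Bm W ^ m * L.Sm W) ≤ L.tw W m := by
  cases m with
  | zero =>
    refine le_trans (le_of_eq ?_) (Finset.sum_nonneg fun e _ => pow_nn 0 e e)
    refine Finset.sum_eq_zero fun e _ => ?_
    simp [Sm]
  | succ k =>
    rw [tw, Matrix.trace_mul_comm, pow_succ', ← mul_assoc]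
    exact trace_mono (mul_mono Sm_Bm_le mle_rfl (pow_nn k) Bm_nn)

theorem trace_SJ_pow_le (m : ℕ) :
    Matrix.trace (L.Sm W * L.Jm W * L.Bm W ^ m) ≤ L.tw W m := by
  have h0 : ∀ e f, (L.Sm W * L.Jm W) e f ≠ 0 → e.tri = f.tri ∧ e.hd = f.tl := by
    intro e f h
    rw [mul_Jm] at h
    simp only [Sm, St.rev_tri, St.rev_hd] at h
    by_contra hc
    exact h (if_neg fun h' => hc ⟨h'.1, h'.2.1⟩)
  match m with
  | 0 =>
    refine le_trans (le_of_eq ?_) (Finset.sum_nonneg fun e _ => pow_nn 0 e e)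
    rw [pow_zero, mul_one]
    refine Finset.sum_eq_zero fun e _ => ?_
    by_contra h
    exact e.prop.2.2.2 ((h0 e e h).2.symm)
  | 1 =>
    refine le_trans (le_of_eq ?_) (Finset.sum_nonneg fun e _ => pow_nn 1 e e)
    rw [pow_one]
    refine Finset.sum_eq_zero fun e _ => ?_
    rw [Matrix.diag_apply, Matrix.mul_apply]
    refine Finset.sum_eq_zero fun c _ => ?_
    by_contra h
    have h1 := h0 e c (left_ne_zero_of_mul h)
    have h2 := right_ne_zero_of_mul h
    simp only [Bm, ne_eq, ite_eq_right_iff, one_ne_zero, imp_false, not_not] at h2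
    exact h2.2 h1.1.symm
  | k + 2 =>
    have e1 : L.Bm W ^ (k + 2) = L.Bm W * L.Bm W ^ k * L.Bm W := by
      rw [← pow_succ', ← pow_succ]
    rw [tw, e1]
    calc Matrix.trace (L.Sm W * L.Jm W * (L.Bm W * L.Bm W ^ k * L.Bm W))
        = Matrix.trace (L.Bm W * (L.Sm W * L.Jm W) * L.Bm W * L.Bm W ^ k) := by
          rw [Matrix.trace_mul_comm (L.Bm W * (L.Sm W * L.Jm W) * L.Bm W),
            ← Matrix.trace_mul_comm (L.Bm W * L.Bm W ^ k * L.Bm W)]
          simp only [mul_assoc]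
          rw [Matrix.trace_mul_comm (L.Bm W)]
          simp only [mul_assoc]
      _ ≤ Matrix.trace (L.Bm W * L.Bm W * L.Bm W ^ k) :=
          trace_mono (mul_mono Bm_SJ_Bm_le mle_rfl (pow_nn k) (mul_nn Bm_nn Bm_nn))
      _ = Matrix.trace (L.Bm W * L.Bm W ^ k * L.Bm W) := by
          rw [Matrix.trace_mul_comm (L.Bm W * L.Bm W ^ k), mul_assoc]

theorem tw_nonneg (l : ℕ) : 0 ≤ L.tw W l := Finset.sum_nonneg fun e _ => pow_nn l e e

theorem tw_one : L.tw W 1 = 0 := by
  rw [tw, pow_one]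
  exact Finset.sum_eq_zero fun e _ => if_neg fun h => h.2 rfl

theorem vw_zero : L.vw W 0 = 0 := by
  rw [vw, pow_zero, mul_one]
  exact Finset.sum_eq_zero fun e _ => if_neg fun h => e.rev_ne h.symm

theorem vw_one : L.vw W 1 = 0 := by
  rw [vw, pow_one]
  refine Finset.sum_eq_zero fun e _ => ?_
  rw [Matrix.diag_apply, Jm_mul]
  exact if_neg fun h => h.2 rfl

theorem vw_two : L.vw W 2 = 0 := by
  rw [vw, pow_two]
  refine Finset.sum_eq_zero fun e _ => ?_
  rw [Matrix.diag_apply, Jm_mul, Matrix.mul_apply]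
  refine Finset.sum_eq_zero fun c _ => ?_
  by_cases h1 : e.tl = c.tl ∧ e.tri ≠ c.tri
  · by_cases h2 : c.hd = e.tl ∧ c.tri ≠ e.tri
    · exact absurd (h1.1.symm.trans h2.1.symm) c.prop.2.2.2
    · exact mul_eq_zero_of_right _ (if_neg h2)
  · exact mul_eq_zero_of_left (if_neg h1) _

theorem vw_rec {u : ℝ} (hu : 1 ≤ u) (hdeg : ∀ a ∈ W, (L.deg W a : ℝ) ≤ 2 * u) (l : ℕ) :
    L.vw W (l + 2) ≤ 4 * u * (L.tw W (l + 1) + L.tw W l + L.vw W l) := by
  have e1 : L.Bm W * L.Jm W * L.Bm W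
      = L.Bm W * (L.Bm W).transpose * L.Jm W := by
    rw [Bm_transpose]; simp only [mul_assoc]; rw [Jm_Jm, mul_one]
  calc L.vw W (l + 2) = Matrix.trace (L.Bm W * L.Jm W * L.Bm W * L.Bm W ^ l) := by
        rw [vw, pow_succ, pow_succ', ← mul_assoc (L.Jm W), Matrix.trace_mul_comm]
        simp only [mul_assoc]
    _ ≤ Matrix.trace ((4 * u) • (1 + L.Sm W + L.Bm W * L.Jm W) * L.Jm W * L.Bm W ^ l) := by
        rw [e1]
        have h0 : MLe 0 ((4 * u) • (1 + L.Sm W + L.Bm W * L.Jm W)) := fun e f =>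
          le_trans (mul_nn Bm_nn (fun a b => Bm_nn b a) e f) (mul_transpose_le hu hdeg e f)
        exact trace_mono (mul_mono (mul_mono (mul_transpose_le hu hdeg) mle_rfl Jm_nn h0)
          mle_rfl (pow_nn l) (mul_nn h0 Jm_nn))
    _ = 4 * u * (L.vw W l + Matrix.trace (L.Sm W * L.Jm W * L.Bm W ^ l) + L.tw W (l + 1)) := by
        rw [smul_mul_assoc, smul_mul_assoc, Matrix.trace_smul, smul_eq_mul, add_mul, add_mul,
          add_mul, add_mul, one_mul, Matrix.trace_add, Matrix.trace_add]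
        congr 2
        rw [tw, mul_assoc (L.Bm W), Jm_Jm, mul_one, ← pow_succ']
    _ ≤ _ := by
        have := trace_SJ_pow_le (L := L) (W := W) l
        have : 0 ≤ 4 * u := by linarith
        nlinarith

/-- Returning walks in terms of closed ones. -/
theorem vw_le {u : ℝ} (hu : 1 ≤ u) (hdeg : ∀ a ∈ W, (L.deg W a : ℝ) ≤ 2 * u) (l : ℕ) :
    L.vw W l ≤ ∑ i ∈ Finset.Ico 2 l, (4 * u) ^ (l - i) * L.tw W i := by
  induction l using Nat.strong_induction_on with
  | _ l ih =>
    match l with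
    | 0 => rw [vw_zero]; simp
    | 1 => rw [vw_one]; simp
    | 2 => rw [vw_two]; simp
    | k + 3 =>
      have h4 : 0 ≤ 4 * u := by linarith
      refine (vw_rec hu hdeg (k + 1)).trans ?_
      have hrec := ih (k + 1) (by omega)
      rw [Finset.sum_Ico_succ_top (by omega : 2 ≤ k + 2)]
      have e2 : k + 1 + 1 = k + 2 := rfl
      rw [show k + 3 - (k + 2) = 1 by omega, pow_one]
      rcases Nat.eq_zero_or_pos k with rfl | hk
      · have h1 : L.tw W (0 + 1) = 0 := tw_one
        have h2 : L.vw W (0 + 1) = 0 := vw_one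
        rw [Finset.Ico_self, Finset.sum_empty, h1, h2]
        linarith
      rw [Finset.sum_Ico_succ_top (by omega : 2 ≤ k + 1), show k + 3 - (k + 1) = 2 by omega]
      have hsum : 4 * u * ∑ i ∈ Finset.Ico 2 (k + 1), (4 * u) ^ (k + 1 - i) * L.tw W i
          ≤ ∑ i ∈ Finset.Ico 2 (k + 1), (4 * u) ^ (k + 3 - i) * L.tw W i := by
        rw [Finset.mul_sum]
        refine Finset.sum_le_sum fun i hi => ?_
        rw [← mul_assoc, ← pow_succ']
        refine mul_le_mul_of_nonneg_right (pow_le_pow_right₀ (by linarith) ?_) (tw_nonneg i)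
        rw [Finset.mem_Ico] at hi; omega
      have h5 : 4 * u * L.tw W (k + 1) ≤ (4 * u) ^ 2 * L.tw W (k + 1) :=
        mul_le_mul_of_nonneg_right (by nlinarith) (tw_nonneg _)
      have := mul_le_mul_of_nonneg_left hrec h4
      rw [e2]
      linarith

/-- The chain of steps behind an entry of a power. -/
theorem pow_apply_le (l : ℕ) (e f : L.St W) :
    (L.Bm W ^ l) e f ≤ ((Finset.univ.filter fun v : Fin (l + 1) → L.St W =>
      v 0 = e ∧ v (Fin.last l) = f ∧ ∀ i : Fin l, (v i.castSucc).hd = (v i.succ).tl ∧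
        (v i.castSucc).tri ≠ (v i.succ).tri).card : ℝ) := by
  induction l generalizing e with
  | zero =>
    rw [pow_zero, Matrix.one_apply]
    split_ifs with h
    · rw [Nat.one_le_cast, Nat.one_le_iff_ne_zero, Finset.card_ne_zero]
      exact ⟨fun _ => e, by simp [h]⟩
    · positivity
  | succ l ih =>
    rw [pow_succ', Matrix.mul_apply]
    refine (Finset.sum_le_sum fun g _ => mul_le_mul_of_nonneg_left (ih g) (Bm_nn e g)).trans ?_
    simp only [Bm, ite_mul, one_mul, zero_mul]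
    rw [← Finset.sum_filter, ← Nat.cast_sum, Nat.cast_le, ← Finset.card_sigma]
    refine Finset.card_le_card_of_injOn (fun p => Fin.cons e p.2) ?_ ?_
    · rintro ⟨g, v⟩ hv
      simp only [Finset.mem_coe, Finset.mem_sigma, Finset.mem_filter, Finset.mem_univ,
        true_and] at hv ⊢
      obtain ⟨hg, hv0, hvl, hv⟩ := hv
      refine ⟨Fin.cons_zero _ _, ?_, fun i => ?_⟩
      · rw [← Fin.succ_last, Fin.cons_succ, hvl]
      · refine Fin.cases ?_ (fun i => ?_) i
        · simpa [hv0] using hg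
        · simpa [← Fin.succ_castSucc] using hv i
    · rintro ⟨g, v⟩ hv ⟨g', v'⟩ hv' h
      simp only [Finset.mem_coe, Finset.mem_sigma, Finset.mem_filter, Finset.mem_univ,
        true_and] at hv hv'
      obtain rfl : v = v' := Fin.cons_right_injective (α := fun _ => L.St W) e h
      rw [← hv.2.1, ← hv'.2.1]

theorem tw_le_closed {l : ℕ} (hl : 1 ≤ l) : L.tw W l ≤ ((L.closed W l).card : ℝ) := by
  refine (Finset.sum_le_sum fun e _ => pow_apply_le l e e).trans ?_
  rw [← Nat.cast_sum, Nat.cast_le, ← Finset.card_sigma]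
  refine Finset.card_le_card_of_injOn (fun p i => ((p.2 i.castSucc).tl, (p.2 i.castSucc).tri))
    ?_ ?_
  · rintro ⟨e, v⟩ hv
    simp only [Finset.mem_coe, Finset.mem_sigma, Finset.mem_filter, Finset.mem_univ,
      true_and] at hv ⊢
    obtain ⟨hv0, hvl, hv⟩ := hv
    simp only [closed, Finset.mem_filter, Fintype.mem_piFinset, Finset.mem_product]
    refine ⟨fun i => ⟨(mem_tris.1 (v i.castSucc).prop.1).2 (v i.castSucc).prop.2.1,
      (v i.castSucc).prop.1⟩, fun i j hij => ?_⟩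
    have hj : v j.castSucc = v i.succ := by
      rcases Nat.lt_or_ge ((i : ℕ) + 1) l with h | h
      · congr 1; ext; simp [hij, Nat.mod_eq_of_lt h]
      · have hi : (i : ℕ) + 1 = l := le_antisymm i.2 h
        rw [show i.succ = Fin.last l from Fin.ext (by simp [hi]), hvl,
          show j.castSucc = 0 from Fin.ext (by simp [hij, hi]), hv0]
    have h := hv i
    have p := (v i.castSucc).prop
    rw [hj, ← h.1]
    exact ⟨p.2.1, p.2.2.1, p.2.2.2, h.2⟩
  · rintro ⟨e, v⟩ hv ⟨e', v'⟩ hv' h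
    simp only [Finset.mem_coe, Finset.mem_sigma, Finset.mem_filter, Finset.mem_univ,
      true_and] at hv hv'
    have hc : ∀ i : Fin l, (v i.castSucc).tl = (v' i.castSucc).tl ∧
        (v i.castSucc).tri = (v' i.castSucc).tri := fun i => Prod.mk.injEq .. ▸ congrFun h i
    have hs : ∀ i : Fin l, (v i.succ).tl = (v' i.succ).tl := by
      intro i
      rcases Nat.lt_or_ge ((i : ℕ) + 1) l with h' | h'
      · exact (hc ⟨i + 1, h'⟩).1
      · have e1 : i.succ = Fin.last l := Fin.ext (by simp; omega)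
        rw [e1, hv.2.1, hv'.2.1, ← hv.1, ← hv'.1]
        exact (hc ⟨0, by omega⟩).1
    have hv_eq : ∀ i : Fin l, v i.castSucc = v' i.castSucc := fun i =>
      St.ext' (hc i).1 (hc i).2 (by rw [(hv.2.2 i).1, (hv'.2.2 i).1, hs i])
    have he : e = e' := by rw [← hv.1, ← hv'.1]; exact hv_eq ⟨0, by omega⟩
    subst he
    congr 1
    funext i
    exact Fin.lastCases (hv.2.1.trans hv'.2.1.symm) hv_eq i

end LH

end P046
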